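import Crest.Agent.R65.Mn.Frk2

/-! Row 65, main module: polynomial function spaces. -/

set_option autoImplicit false

open Finset MvPolynomial
open scoped Classical

namespace Crest.Agent.R65.Mn

variable {K σ ι : Type} [Field K]

theorem evs_apply (pt : ι → σ → K) (p : MvPolynomial σ K) (i : ι) :
    evs pt p i = eval (pt i) p := by
  simp [evs, aeval_eq_eval]

theorem mem_pol {s : ℕ} {pt : ι → σ → K} {φ : ι → K} :
    φ ∈ pol s pt ↔ ∃ p : MvPolynomial σ K, p.totalDegree ≤ s ∧ φ = fun i => eval (pt i) p := by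
  constructor
  · intro h
    obtain ⟨p, hp, rfl⟩ := Submodule.mem_map.1 h
    exact ⟨p, (mem_restrictTotalDegree σ s p).1 hp, funext fun i => evs_apply pt p i⟩
  · rintro ⟨p, hp, rfl⟩
    exact Submodule.mem_map.2
      ⟨p, (mem_restrictTotalDegree σ s p).2 hp, funext fun i => evs_apply pt p i⟩

theorem pol_mono {s t : ℕ} (h : s ≤ t) (pt : ι → σ → K) : pol s pt ≤ pol t pt := by
  intro φ hφ
  obtain ⟨p, hp, rfl⟩ := mem_pol.1 hφ
  exact mem_pol.2 ⟨p, hp.trans h, rfl⟩

theorem const_mem_pol (s : ℕ) (pt : ι → σ → K) (c : K) : (fun _ => c) ∈ pol s pt := by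
  refine mem_pol.2 ⟨C c, by simp, ?_⟩
  funext i; simp

theorem coord_mem_pol (pt : ι → σ → K) (k : σ) : (fun i => pt i k) ∈ pol 1 pt := by
  refine mem_pol.2 ⟨X k, (totalDegree_X k).le, ?_⟩
  funext i; simp

theorem mul_mem_pol {s t : ℕ} {pt : ι → σ → K} {φ ψ : ι → K} (hφ : φ ∈ pol s pt)
    (hψ : ψ ∈ pol t pt) : φ * ψ ∈ pol (s + t) pt := by
  obtain ⟨p, hp, rfl⟩ := mem_pol.1 hφ
  obtain ⟨q, hq, rfl⟩ := mem_pol.1 hψ
  refine mem_pol.2 ⟨p * q, (totalDegree_mul p q).trans (add_le_add hp hq), ?_⟩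
  funext i; simp

/-- `pol s pt` is spanned by the monomials of degree `≤ s` -/
theorem pol_eq_span (s : ℕ) (pt : ι → σ → K) :
    pol s pt = Submodule.span K
      {φ | ∃ α : σ →₀ ℕ, α.degree ≤ s ∧ φ = fun i => eval (pt i) (monomial α 1)} := by
  apply le_antisymm
  · intro φ hφ
    obtain ⟨p, hp, rfl⟩ := mem_pol.1 hφ
    have e : (fun i => eval (pt i) p) =
        ∑ α ∈ p.support, coeff α p • (fun i => eval (pt i) (monomial α (1 : K))) := by
      funext i
      conv_lhs => rw [p.as_sum]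
      simp only [map_sum, Finset.sum_apply, Pi.smul_apply, smul_eq_mul, eval_monomial, one_mul]
    rw [e]
    refine Submodule.sum_mem _ fun α hα => Submodule.smul_mem _ _ (Submodule.subset_span ?_)
    exact ⟨α, (le_totalDegree hα).trans hp, rfl⟩
  · rw [Submodule.span_le]
    rintro _ ⟨α, hα, rfl⟩
    exact mem_pol.2 ⟨monomial α 1, (totalDegree_monomial_le α 1).trans hα, rfl⟩

theorem frk_pol_image [DecidableEq (σ → K)] (s : ℕ) (pt : ι → σ → K) (Y : Finset ι) :
    frk (pol s pt) Y = frk (pol s id) (Y.image pt) := by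
  apply le_antisymm
  · refine frk_le_image pt Y fun φ hφ => ?_
    obtain ⟨p, hp, rfl⟩ := mem_pol.1 hφ
    exact ⟨_, mem_pol.2 ⟨p, hp, rfl⟩, fun _ _ => rfl⟩
  · refine frk_image_le pt Y fun φ hφ => ?_
    obtain ⟨p, hp, rfl⟩ := mem_pol.1 hφ
    exact ⟨_, mem_pol.2 ⟨p, hp, rfl⟩, fun _ _ => rfl⟩

theorem frk_pol_comp {ι' : Type} [DecidableEq ι'] (s : ℕ) (pt : ι' → σ → K) (u : ι → ι') (Y : Finset ι) :
    frk (pol s fun i => pt (u i)) Y = frk (pol s pt) (Y.image u) := by
  apply le_antisymm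
  · refine frk_le_image u Y fun φ hφ => ?_
    obtain ⟨p, hp, rfl⟩ := mem_pol.1 hφ
    exact ⟨_, mem_pol.2 ⟨p, hp, rfl⟩, fun _ _ => rfl⟩
  · refine frk_image_le u Y fun φ hφ => ?_
    obtain ⟨p, hp, rfl⟩ := mem_pol.1 hφ
    exact ⟨_, mem_pol.2 ⟨p, hp, rfl⟩, fun _ _ => rfl⟩

namespace PolAux

theorem totalDegree_aeval_le {σ' : Type} (q : σ → MvPolynomial σ' K)
    (hq : ∀ k, (q k).totalDegree ≤ 1) (p : MvPolynomial σ K) :
    (aeval q p).totalDegree ≤ p.totalDegree := by
  conv_lhs => rw [p.as_sum]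
  rw [map_sum]
  refine totalDegree_finsetSum_le fun α hα => ?_
  rw [aeval_monomial]
  refine (totalDegree_mul _ _).trans ?_
  rw [algebraMap_eq, totalDegree_C, zero_add, Finsupp.prod]
  refine (totalDegree_finsetProd _ _).trans (le_trans ?_ (le_totalDegree hα))
  rw [Finsupp.sum]
  refine Finset.sum_le_sum fun k _ => (totalDegree_pow _ _).trans ?_
  simpa using Nat.mul_le_mul_left (α k) (hq k)

theorem eval_aeval {σ' : Type} (q : σ → MvPolynomial σ' K) (x : σ' → K) (p : MvPolynomial σ K) :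
    eval (fun k => eval x (q k)) p = eval x (aeval q p) := by
  induction p using MvPolynomial.induction_on with
  | C a => simp
  | add p r hp hr => simp [hp, hr]
  | mul_X p k hp => simp [hp]

/-- the concrete independence condition is linear independence of the restrictions -/
theorem li_iff {κ : Type} [Fintype κ] (Y : Finset ι) (φ : κ → ι → K) :
    (∀ c : κ → K, (∀ i ∈ Y, ∑ k, c k * φ k i = 0) → c = 0) ↔
      LinearIndependent K (fun k (i : Y) => φ k i) := by
  rw [Fintype.linearIndependent_iff]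
  constructor
  · intro h c hc k
    refine congrFun (h c fun i hi => ?_) k
    simpa [Finset.sum_apply] using congrFun hc ⟨i, hi⟩
  · intro h c hc
    funext k
    refine h c ?_ k
    funext i
    simpa [Finset.sum_apply] using hc i.1 i.2

theorem li_map_iff {K' : Type} [Field K'] (f : K →+* K') {κ : Type} [Fintype κ] (Y : Finset ι)
    (φ : κ → ι → K) :
    (∀ c : κ → K', (∀ i ∈ Y, ∑ k, c k * f (φ k i) = 0) → c = 0) ↔
      (∀ c : κ → K, (∀ i ∈ Y, ∑ k, c k * φ k i = 0) → c = 0) := by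
  let _ : Algebra K K' := f.toAlgebra
  rw [li_iff Y φ, li_iff Y (fun k i => f (φ k i))]
  exact linearIndependent_algebraMap_comp_iff (S := K') (v := fun k (i : Y) => φ k i)

theorem eval_map_monomial {K' : Type} [Field K'] (f : K →+* K') (x : σ → K) (α : σ →₀ ℕ) :
    eval (fun k => f (x k)) (monomial α (1 : K')) = f (eval x (monomial α (1 : K))) := by
  simp [eval_monomial, Finsupp.prod, map_prod]

end PolAux

/-- affine substitution -/
theorem frk_pol_subst {σ' : Type} (s : ℕ) (pt : ι → σ → K) (pt' : ι → σ' → K) (Y : Finset ι)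
    (q : σ → MvPolynomial σ' K) (hq : ∀ k, (q k).totalDegree ≤ 1)
    (h : ∀ i ∈ Y, ∀ k, pt i k = eval (pt' i) (q k)) : frk (pol s pt) Y ≤ frk (pol s pt') Y := by
  refine frk_le_of_forall Y fun φ hφ => ?_
  obtain ⟨p, hp, rfl⟩ := mem_pol.1 hφ
  refine ⟨_, mem_pol.2 ⟨aeval q p, (PolAux.totalDegree_aeval_le q hq p).trans hp, rfl⟩,
    fun i hi => ?_⟩
  have e : pt i = fun k => eval (pt' i) (q k) := funext (h i hi)
  show eval (pt i) p = eval (pt' i) (aeval q p)
  rw [e, PolAux.eval_aeval]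

/-- invariance under a field embedding (use `pol_eq_span`, `exists_li_span`, `le_frk_of_li` and
`linearIndependent_algebraMap_comp_iff` for the algebra structure `φ.toAlgebra`). -/
theorem frk_pol_field {K' : Type} [Field K'] (φ : K →+* K') (s : ℕ) (pt : ι → σ → K)
    (Y : Finset ι) : frk (pol s fun i k => φ (pt i k)) Y = frk (pol s pt) Y := by
  apply le_antisymm
  · rw [pol_eq_span s fun i k => φ (pt i k)]
    obtain ⟨ψ, hψ, li⟩ := exists_li_span
      {χ : ι → K' | ∃ α : σ →₀ ℕ, α.degree ≤ s ∧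
        χ = fun i => eval (fun k => φ (pt i k)) (monomial α 1)} Y
    choose α hα hψα using hψ
    have key := le_frk_of_li (W := pol s pt) Y
      (fun k i => eval (pt i) (monomial (α k) (1 : K)))
      (fun k => mem_pol.2 ⟨monomial (α k) 1, (totalDegree_monomial_le _ 1).trans (hα k), rfl⟩)
      ((PolAux.li_map_iff φ Y _).1 fun c hc => li c fun i hi => by
        rw [← hc i hi]
        refine Finset.sum_congr rfl fun k _ => ?_
        rw [hψα k, ← PolAux.eval_map_monomial])
    simpa using key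
  · rw [pol_eq_span s pt]
    obtain ⟨ψ, hψ, li⟩ := exists_li_span
      {χ : ι → K | ∃ α : σ →₀ ℕ, α.degree ≤ s ∧ χ = fun i => eval (pt i) (monomial α 1)} Y
    choose α hα hψα using hψ
    have key := le_frk_of_li (W := pol s fun i k => φ (pt i k)) Y (fun k i => φ (ψ k i))
      (fun k => mem_pol.2 ⟨monomial (α k) 1, (totalDegree_monomial_le _ 1).trans (hα k), by
        funext i
        rw [hψα k, PolAux.eval_map_monomial]⟩)
      ((PolAux.li_map_iff φ Y ψ).2 li)
    simpa using key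

end Crest.Agent.R65.Mn
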