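import Crest.Agent.R65.Mn.Geo
import Crest.Agent.R65.D3Defs

/-! Row 65, main module: partial isometries of `ℝ³` in Cayley form. -/

set_option autoImplicit false

open Finset Matrix
open scoped Classical

namespace Crest.Agent.R65.Mn

/-- coordinatewise sign change -/
def sg (σ : Fin 3 → Bool) (p : Fin 3 → ℝ) : Fin 3 → ℝ := fun i => if σ i then p i else -p i

theorem sg_dot (σ : Fin 3 → Bool) (p q : Fin 3 → ℝ) :
    (sg σ p - sg σ q) ⬝ᵥ (sg σ p - sg σ q) = (p - q) ⬝ᵥ (p - q) := by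
  refine Finset.sum_congr rfl fun i _ => ?_
  simp only [sg, Pi.sub_apply]
  split_ifs <;> ring

theorem sg_sg (σ : Fin 3 → Bool) (p : Fin 3 → ℝ) : sg σ (sg σ p) = p := by
  funext i
  simp only [sg]
  split_ifs <;> ring

theorem NDd.sg {P : Finset (Fin 3 → ℝ)} {D : ℕ} (h : NDd P D) (σ : Fin 3 → Bool) :
    NDd (P.image (sg σ)) D := by
  obtain ⟨T, hT, h⟩ := h
  refine ⟨T, hT, fun p hp q hq hpq => ?_⟩
  obtain ⟨p, hp', rfl⟩ := Finset.mem_image.1 hp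
  obtain ⟨q, hq', rfl⟩ := Finset.mem_image.1 hq
  rw [sg_dot]
  exact h p hp' q hq' fun e => hpq (by rw [e])

namespace CayAux

theorem dot_orth {R : Matrix (Fin 3) (Fin 3) ℝ} (hR : Rᵀ * R = 1) (v : Fin 3 → ℝ) :
    (R *ᵥ v) ⬝ᵥ (R *ᵥ v) = v ⬝ᵥ v := by
  rw [dotProduct_mulVec, vecMul_mulVec, hR, vecMul_one]

/-- the reflection in the bisector of two points -/
theorem refl (q p : Fin 3 → ℝ) : ∃ (H : Matrix (Fin 3) (Fin 3) ℝ) (e : Fin 3 → ℝ), Hᵀ * H = 1 ∧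
    H *ᵥ q + e = p ∧ ∀ z, (z - q) ⬝ᵥ (z - q) = (z - p) ⬝ᵥ (z - p) → H *ᵥ z + e = z := by
  by_cases hqp : q = p
  · exact ⟨1, 0, by simp, by simp [hqp], by simp⟩
  have hv : (q - p) ⬝ᵥ (q - p) ≠ 0 := fun h => hqp (sub_eq_zero.1 (dotProduct_self_eq_zero.1 h))
  obtain ⟨a, ha⟩ : ∃ a : ℝ, a * ((q - p) ⬝ᵥ (q - p)) = 1 := ⟨_, inv_mul_cancel₀ hv⟩
  have hm : ∀ z, (1 - (2 * a) • vecMulVec (q - p) (q - p)) *ᵥ z +
      (a * (q ⬝ᵥ q - p ⬝ᵥ p)) • (q - p) =
        z + (a * (q ⬝ᵥ q - p ⬝ᵥ p - 2 * ((q - p) ⬝ᵥ z))) • (q - p) := by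
    intro z
    rw [sub_mulVec, one_mulVec, smul_mulVec, vecMulVec_mulVec, op_smul_eq_smul, smul_smul]
    module
  refine ⟨1 - (2 * a) • vecMulVec (q - p) (q - p), (a * (q ⬝ᵥ q - p ⬝ᵥ p)) • (q - p), ?_, ?_,
    fun z hz => ?_⟩
  · rw [transpose_sub, transpose_one, transpose_smul, transpose_vecMulVec, Matrix.sub_mul,
      Matrix.mul_sub, Matrix.mul_sub, Matrix.one_mul, Matrix.one_mul, Matrix.mul_one,
      Matrix.smul_mul, Matrix.mul_smul, vecMulVec_mul_vecMulVec, vecMulVec_smul, smul_smul,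
      smul_smul, show 2 * a * (2 * a) * ((q - p) ⬝ᵥ (q - p)) = 4 * a by
        linear_combination 4 * a * ha]
    module
  · have : a * (q ⬝ᵥ q - p ⬝ᵥ p - 2 * ((q - p) ⬝ᵥ q)) = -1 := by
      simp only [sub_dotProduct, dotProduct_sub, dotProduct_comm q p] at ha ⊢
      linear_combination -ha
    rw [hm, this]
    module
  · have : q ⬝ᵥ q - p ⬝ᵥ p - 2 * ((q - p) ⬝ᵥ z) = 0 := by
      simp only [sub_dotProduct, dotProduct_sub, dotProduct_comm z q, dotProduct_comm z p] at hz ⊢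
      linear_combination hz
    rw [hm, this, mul_zero, zero_smul, add_zero]

/-- the sign matrix -/
def S (σ : Fin 3 → Bool) : Matrix (Fin 3) (Fin 3) ℝ := diagonal fun i => if σ i then 1 else -1

theorem S_mulVec (σ : Fin 3 → Bool) (p : Fin 3 → ℝ) : S σ *ᵥ p = sg σ p := by
  funext i
  simp only [S, mulVec_diagonal, sg]
  split_ifs <;> ring

theorem S_orth (σ : Fin 3 → Bool) : (S σ)ᵀ * S σ = 1 := by
  rw [S, diagonal_transpose, diagonal_mul_diagonal, ← diagonal_one]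
  congr 1
  funext i
  split_ifs <;> ring

theorem exists_sign (R : Matrix (Fin 3) (Fin 3) ℝ) : ∃ σ, (1 + S σ * R).det ≠ 0 := by
  by_contra h
  push Not at h
  have h1 := h ![true, true, true]
  have h2 := h ![true, true, false]
  have h3 := h ![true, false, true]
  have h4 := h ![true, false, false]
  have h5 := h ![false, true, true]
  have h6 := h ![false, true, false]
  have h7 := h ![false, false, true]
  have h8 := h ![false, false, false]
  simp [det_fin_three, S, diagonal_mul, one_apply] at h1 h2 h3 h4 h5 h6 h7 h8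
  have : (8 : ℝ) = 0 := by linear_combination h1 + h2 + h3 + h4 + h5 + h6 + h7 + h8
  norm_num at this

theorem cayley {R : Matrix (Fin 3) (Fin 3) ℝ} (hR : Rᵀ * R = 1) (hd : (1 + R).det ≠ 0) :
    ∃ (s : Fin 3 → ℝ) (K : Matrix (Fin 3) (Fin 3) ℝ), K * (1 + R) = 1 - R ∧
      ∀ b, K *ᵥ b = s ⨯₃ b := by
  have hu : IsUnit (1 + R).det := isUnit_iff_ne_zero.2 hd
  obtain ⟨K, hK⟩ : ∃ K : Matrix (Fin 3) (Fin 3) ℝ, K * (1 + R) = 1 - R :=
    ⟨(1 - R) * (1 + R)⁻¹, by rw [Matrix.mul_assoc, nonsing_inv_mul _ hu, Matrix.mul_one]⟩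
  have hT : (1 + R)ᵀ * Kᵀ = (1 - R)ᵀ := by rw [← transpose_mul, hK]
  have h0 : (1 + R)ᵀ * (K + Kᵀ) * (1 + R) = 0 := by
    rw [Matrix.mul_add _ K, Matrix.add_mul, Matrix.mul_assoc, hK, hT, transpose_add, transpose_sub,
      transpose_one]
    simp only [Matrix.add_mul, Matrix.mul_add, Matrix.sub_mul, Matrix.mul_sub, Matrix.one_mul,
      Matrix.mul_one, hR]
    abel
  have hs : K + Kᵀ = 0 := by
    have hu' : IsUnit (1 + R)ᵀ.det := by rwa [det_transpose]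
    have h1 := congrArg (fun M => (1 + R)ᵀ⁻¹ * M * (1 + R)⁻¹) h0
    simp only [Matrix.mul_zero, Matrix.zero_mul] at h1
    rwa [Matrix.mul_assoc (1 + R)ᵀ, ← Matrix.mul_assoc (1 + R)ᵀ⁻¹, nonsing_inv_mul _ hu',
      Matrix.one_mul, Matrix.mul_assoc, mul_nonsing_inv _ hu, Matrix.mul_one] at h1
  have e : ∀ i j, K i j + K j i = 0 := fun i j => congrFun (congrFun hs i) j
  refine ⟨![K 2 1, K 0 2, K 1 0], K, hK, fun b => ?_⟩
  rw [cross_apply]
  funext i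
  fin_cases i <;> simp [mulVec, dotProduct, Fin.sum_univ_three]
  · linear_combination (b 0 / 2) * e 0 0 + b 1 * e 0 1
  · linear_combination (b 1 / 2) * e 1 1 + b 2 * e 1 2
  · linear_combination (b 2 / 2) * e 2 2 + b 0 * e 2 0

end CayAux

/-- a distance preserving correspondence extends to an orthogonal matrix: fix `z₀ ∈ Z`; the map
`p - p₀ ↦ p' - p₀'` preserves inner products (polarisation), so it defines a linear isometry on the
span (e.g. the graph subspace spanned by the pairs projects injectively; or choose a basis), which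
extends to `EuclideanSpace ℝ (Fin 3)` (`LinearIsometry.extend`). -/
theorem exists_orth (Z : Finset ((Fin 3 → ℝ) × (Fin 3 → ℝ)))
    (h : ∀ x ∈ Z, ∀ y ∈ Z, (x.1 - y.1) ⬝ᵥ (x.1 - y.1) = (x.2 - y.2) ⬝ᵥ (x.2 - y.2)) :
    ∃ (R : Matrix (Fin 3) (Fin 3) ℝ) (c : Fin 3 → ℝ), Rᵀ * R = 1 ∧
      ∀ x ∈ Z, x.2 = R *ᵥ x.1 + c := by
  induction Z using Finset.induction_on with
  | empty => exact ⟨1, 0, by simp, by simp⟩
  | insert x Z hx ih =>
    obtain ⟨R, c, hR, hZ⟩ := ih fun y hy z hz =>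
      h y (mem_insert_of_mem hy) z (mem_insert_of_mem hz)
    obtain ⟨H, e, hH, h1, h2⟩ := CayAux.refl (R *ᵥ x.1 + c) x.2
    refine ⟨H * R, H *ᵥ c + e, ?_, fun y hy => ?_⟩
    · rw [transpose_mul, Matrix.mul_assoc, ← Matrix.mul_assoc Hᵀ, hH, Matrix.one_mul, hR]
    · rw [← mulVec_mulVec, ← add_assoc, ← mulVec_add]
      rcases mem_insert.1 hy with rfl | hy
      · exact h1.symm
      · rw [← hZ y hy]
        refine (h2 y.2 ?_).symm
        rw [← h y (mem_insert_of_mem hy) x (mem_insert_self _ _), hZ y hy,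
          add_sub_add_right_eq_sub, ← mulVec_sub, CayAux.dot_orth hR]

/-- The sum over the 8 sign matrices `Σ` of `det (1 + Σ R)` is `8`, so some `R' = Σ R` has
`1 + R'` invertible; `K = (1 - R') (1 + R')⁻¹` is skew, `K b = s × b`, and
`p - p'' = K (p + p'') + t` for `p'' = R' p + c'`, `t = -c' - K c'`. -/
theorem exists_cayley (Z : Finset ((Fin 3 → ℝ) × (Fin 3 → ℝ)))
    (h : ∀ x ∈ Z, ∀ y ∈ Z, (x.1 - y.1) ⬝ᵥ (x.1 - y.1) = (x.2 - y.2) ⬝ᵥ (x.2 - y.2)) :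
    ∃ (σ : Fin 3 → Bool) (g : D3.Pt), ∀ x ∈ Z, D3.On g (x.1, sg σ x.2) := by
  obtain ⟨R, c, hR, hZ⟩ := exists_orth Z h
  obtain ⟨σ, hσ⟩ := CayAux.exists_sign R
  have hR' : (CayAux.S σ * R)ᵀ * (CayAux.S σ * R) = 1 := by
    rw [transpose_mul, Matrix.mul_assoc, ← Matrix.mul_assoc (CayAux.S σ)ᵀ, CayAux.S_orth,
      Matrix.one_mul, hR]
  obtain ⟨s, K, hK, hs⟩ := CayAux.cayley hR' hσ
  refine ⟨σ, (s, -(K *ᵥ sg σ c) - sg σ c), fun x hx => ?_⟩
  have e : sg σ x.2 = (CayAux.S σ * R) *ᵥ x.1 + sg σ c := by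
    rw [hZ x hx, ← CayAux.S_mulVec, ← CayAux.S_mulVec, mulVec_add, mulVec_mulVec]
  have e2 := congrArg (· *ᵥ x.1) hK
  simp only [← mulVec_mulVec, add_mulVec, sub_mulVec, one_mulVec] at e2
  change x.1 - sg σ x.2 = s ⨯₃ (x.1 + sg σ x.2) + (-(K *ᵥ sg σ c) - sg σ c)
  rw [← hs, e, ← add_assoc, mulVec_add K _ (sg σ c), ← mulVec_mulVec, e2]
  abel

end Crest.Agent.R65.Mn
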