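import Crest.Agent.R65.Mn.Val

/-! Row 65, main module: passing from directions to cones. -/

set_option autoImplicit false

open Finset MvPolynomial
open scoped Classical

namespace Crest.Agent.R65.Mn

variable {d : ℕ}

/-- the multiples `c • w`, `c = 1, …, t + 1`, of the directions of `A` -/
noncomputable def cone (τ : Pt d →ₗ[ℂ] ℂ) (t : ℕ) (A : Finset (Ed d)) : Finset (Pt d) :=
  (Icc 1 (t + 1) ×ˢ A).image fun p => ((p.1 : ℕ) : ℂ) • dr τ p.2

namespace ConeAux

theorem aeval_smul_mono {K σ A : Type} [Field K] [CommRing A] [Algebra K A] (s : σ →₀ ℕ) (a c : K)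
    (v : σ → A) : aeval (c • v) (monomial s a) = c ^ s.degree • aeval v (monomial s a) := by
  rw [aeval_monomial, aeval_monomial, ← mul_smul_comm]
  congr 1
  simp only [Finsupp.prod, Pi.smul_apply, smul_pow, Finsupp.degree_apply]
  rw [Finset.prod_smul, Finset.prod_pow_eq_pow_sum]

theorem aeval_smul {K σ A : Type} [Field K] [CommRing A] [Algebra K A] {g : MvPolynomial σ K}
    {n : ℕ} (hg : g.IsHomogeneous n) (c : K) (v : σ → A) :
    aeval (c • v) g = c ^ n • aeval v g := by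
  conv_lhs => rw [g.as_sum]
  conv_rhs => rw [g.as_sum]
  rw [map_sum, map_sum, Finset.smul_sum]
  refine Finset.sum_congr rfl fun s hs => ?_
  rw [aeval_smul_mono]
  congr 2
  by_contra h
  exact mem_support_iff.1 hs (hg.coeff_eq_zero h)

theorem eval_smul {K σ : Type} [Field K] {g : MvPolynomial σ K}
    {n : ℕ} (hg : g.IsHomogeneous n) (c : K) (v : σ → K) :
    eval (c • v) g = c ^ n * eval v g := by
  have := aeval_smul hg c v
  rwa [aeval_eq_eval, aeval_eq_eval, smul_eq_mul] at this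

theorem coeff_scale {K σ : Type} [Field K] (c : K) (α : σ →₀ ℕ) (h : MvPolynomial σ K) :
    coeff α (aeval (c • (X : σ → MvPolynomial σ K)) h) = c ^ α.degree * coeff α h := by
  induction h using MvPolynomial.induction_on' with
  | monomial s a =>
    rw [aeval_smul_mono, aeval_X_left_apply, coeff_smul, smul_eq_mul, coeff_monomial]
    split_ifs with h
    · rw [h]
    · simp
  | add p q hp hq => rw [map_add, coeff_add, coeff_add, hp, hq, mul_add]

theorem tau_mem (τ : Pt d →ₗ[ℂ] ℂ) :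
    (fun x : Pt d => algebraMap ℂ (LL d) (τ x)) ∈ pol 1 (up (d := d)) := by
  have e : (fun x : Pt d => algebraMap ℂ (LL d) (τ x)) =
      ∑ k, algebraMap ℂ (LL d) (τ fun j => if k = j then 1 else 0) • fun x : Pt d => up x k := by
    funext x
    rw [LinearMap.pi_apply_eq_sum_univ τ x, map_sum, Finset.sum_apply]
    refine Finset.sum_congr rfl fun k _ => ?_
    rw [smul_eq_mul, map_mul, Pi.smul_apply, smul_eq_mul, mul_comm]
    rfl
  rw [e]
  exact Submodule.sum_mem _ fun k _ => Submodule.smul_mem _ _ (coord_mem_pol up k)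

theorem tau_pow_mem (τ : Pt d →ₗ[ℂ] ℂ) (j : ℕ) :
    (fun x : Pt d => algebraMap ℂ (LL d) (τ x) ^ j) ∈ pol j (up (d := d)) := by
  induction j with
  | zero => simpa using const_mem_pol 0 (up (d := d)) 1
  | succ j ih =>
    have := mul_mem_pol ih (tau_mem τ)
    simp only [pow_succ]
    exact this

theorem exists_hom (τ : Pt d →ₗ[ℂ] ℂ) (E : ℕ) {φ : Ed d → LL d} (hφ : φ ∈ Dir τ E) :
    ∃ ψ ∈ pol E (up (d := d)), ∀ e, IsEd τ e → ∀ c : ℂ,
      ψ (c • dr τ e) = algebraMap ℂ (LL d) c ^ E * φ e := by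
  unfold Dir at hφ
  rw [pol_eq_span] at hφ
  induction hφ using Submodule.span_induction with
  | mem φ h =>
    obtain ⟨α, hα, rfl⟩ := h
    have h1 : (fun x : Pt d => eval (up x) (monomial α (1 : LL d))) ∈ pol α.degree (up (d := d)) := by
      rw [pol_eq_span]
      exact Submodule.subset_span ⟨α, le_rfl, rfl⟩
    have h2 := mul_mem_pol h1 (tau_pow_mem τ (E - α.degree))
    rw [Nat.add_sub_cancel' hα] at h2
    refine ⟨_, h2, fun e he c => ?_⟩
    rw [Pi.mul_apply, up_smul, eval_smul (isHomogeneous_monomial _ rfl), map_smul, tau_dr he,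
      smul_eq_mul, mul_one, mul_right_comm, ← pow_add, Nat.add_sub_cancel' hα]
  | zero => exact ⟨0, Submodule.zero_mem _, fun e _ c => by simp⟩
  | add φ φ' _ _ h h' =>
    obtain ⟨ψ, h1, h2⟩ := h
    obtain ⟨ψ', h1', h2'⟩ := h'
    exact ⟨ψ + ψ', Submodule.add_mem _ h1 h1', fun e he c => by
      rw [Pi.add_apply, Pi.add_apply, h2 e he, h2' e he, mul_add]⟩
  | smul a φ _ h =>
    obtain ⟨ψ, h1, h2⟩ := h
    exact ⟨a • ψ, Submodule.smul_mem _ a h1, fun e he c => by
      rw [Pi.smul_apply, Pi.smul_apply, h2 e he, smul_eq_mul, smul_eq_mul, mul_left_comm]⟩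

theorem QQ_comb (a b : ℂ) (w w' : Pt d) : QQ (a • w - b • w') =
    (a ^ 2 - a * b) * QQ w + (b ^ 2 - a * b) * QQ w' + a * b * QQ (w - w') := by
  unfold QQ
  simp only [Finset.mul_sum, ← Finset.sum_add_distrib, Pi.sub_apply, Pi.smul_apply, smul_eq_mul]
  exact Finset.sum_congr rfl fun i _ => by ring

end ConeAux

/-- Take `φ_1, …, φ_ρ ∈ Dir τ E` independent on `A` (`exists_li`), given by polynomials `p_i` of
degree `≤ E`.  Let `ℓ` be the linear polynomial of `τ`; `q_{ij} = ∑_k hom_k(p_i) ℓ^(E - k + j)`,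
`j ≤ t - E`, has degree `≤ t` and value `c^(E + j) φ_i(e)` at `c • w_e` (`tau_dr`).  They are
independent on the cone (a polynomial of degree `≤ t` in `c` with `t + 1` roots vanishes);
`le_frk_of_li`. -/
theorem cone_rank (τ : Pt d →ₗ[ℂ] ℂ) (A : Finset (Ed d)) (hA : ∀ e ∈ A, IsEd τ e) {E t : ℕ}
    (hEt : E ≤ t) : (t - E + 1) * frk (Dir τ E) A ≤ frk (pol t up) (cone τ t A) := by
  obtain ⟨φ, hφ, li⟩ := exists_li (Dir τ E) A
  choose ψ hψ hv using fun i => ConeAux.exists_hom τ E (hφ i)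
  have h := le_frk_of_li (κ := Fin (t - E + 1) × Fin (frk (Dir τ E) A)) (W := pol t up)
    (cone τ t A) (fun k => (fun x => algebraMap ℂ (LL d) (τ x) ^ (k.1 : ℕ)) * ψ k.2)
    (fun k => pol_mono (by have := k.1.2; omega) _
      (mul_mem_pol (ConeAux.tau_pow_mem τ k.1) (hψ k.2))) fun c hc => by
      have hinj : Function.Injective fun j : Fin (t - E + 1) =>
          algebraMap ℂ (LL d) (((j : ℕ) + 1 : ℕ) : ℂ) := fun j j' hj =>
        Fin.ext (Nat.succ_injective (Nat.cast_injective ((algebraMap ℂ (LL d)).injective hj)))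
      have h1 : ∀ e ∈ A, (fun j => ∑ i, c (j, i) * φ i e) = 0 := fun e he => by
        refine Matrix.eq_zero_of_forall_index_sum_mul_pow_eq_zero hinj fun m => ?_
        have h2 := hc ((((m : ℕ) + 1 : ℕ) : ℂ) • dr τ e) (Finset.mem_image.2
          ⟨((m : ℕ) + 1, e), Finset.mem_product.2
            ⟨Finset.mem_Icc.2 ⟨by omega, by have := m.2; omega⟩, he⟩, rfl⟩)
        have h3 : algebraMap ℂ (LL d) (((m : ℕ) + 1 : ℕ) : ℂ) ^ E ≠ 0 :=
          pow_ne_zero _ ((map_ne_zero _).2 (Nat.cast_ne_zero.2 (Nat.succ_ne_zero _)))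
        refine (mul_eq_zero.1 (Eq.trans ?_ h2)).resolve_left h3
        rw [Fintype.sum_prod_type, Finset.mul_sum]
        refine Finset.sum_congr rfl fun j _ => ?_
        rw [Finset.sum_mul, Finset.mul_sum]
        refine Finset.sum_congr rfl fun i _ => ?_
        rw [Pi.mul_apply, hv i e (hA e he), map_smul, tau_dr (hA e he), smul_eq_mul, mul_one]
        ring
      funext k
      exact congrFun (li (fun i => c (k.1, i)) fun e he => congrFun (h1 e he) k.1) k.2
  rwa [Fintype.card_prod, Fintype.card_fin, Fintype.card_fin] at h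

/-- for a form the order of vanishing is constant along rays: apply the automorphism
`X i ↦ c X i` (which multiplies `coeff α` by `c ^ |α|`). -/
theorem OrdGe.smul {K σ : Type} [Field K] {g : MvPolynomial σ K} {n : ℕ} (hg : g.IsHomogeneous n)
    {p : σ → K} {m : ℕ} (h : OrdGe g p m) {c : K} (hc : c ≠ 0) : OrdGe g (c • p) m := by
  intro α hα
  have h1 := ConeAux.coeff_scale c α
    (aeval (fun i => X i + C ((c • p) i) : σ → MvPolynomial σ K) g)
  have h2 : (fun i => aeval (c • (X : σ → MvPolynomial σ K))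
      (X i + C ((c • p) i) : MvPolynomial σ K)) = c • fun i => X i + C (p i) := by
    funext i
    simp only [map_add, aeval_X, aeval_C, Pi.smul_apply, smul_add, algebraMap_eq, smul_eq_mul,
      map_mul, smul_eq_C_mul]
  rw [comp_aeval_apply, h2, ConeAux.aeval_smul hg, coeff_smul, h α hα, smul_zero] at h1
  exact (mul_eq_zero.1 h1.symm).resolve_left (pow_ne_zero _ hc)

/-- `Exc g` is invariant under scaling (take `Φ.map` of the homothety `x ↦ c⁻¹ • x`). -/
theorem exc_smul {g : MvPolynomial (Fin d) (LL d)} {n : ℕ} (hg : g.IsHomogeneous n) {c : ℂ}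
    (hc : c ≠ 0) {Φ : AffineSubspace ℂ (Pt d)} (hΦ : Φ ∈ Exc g) {x : Pt d} (hx : c • x ∈ Φ) :
    ∃ Ψ ∈ Exc g, x ∈ Ψ := by
  obtain ⟨⟨h1, h2, h3⟩, h4⟩ := hΦ
  have hd : (Φ.map (c⁻¹ • (LinearMap.id : Pt d →ₗ[ℂ] Pt d)).toAffineMap).direction =
      Φ.direction := by
    rw [AffineSubspace.map_direction, LinearMap.toAffineMap_linear,
      Submodule.map_smul _ _ _ (inv_ne_zero hc), Submodule.map_id]
  have hm : x ∈ Φ.map (c⁻¹ • (LinearMap.id : Pt d →ₗ[ℂ] Pt d)).toAffineMap :=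
    AffineSubspace.mem_map.2 ⟨c • x, hx, by simp [smul_smul, hc]⟩
  refine ⟨_, ⟨⟨⟨x, hm⟩, by rw [hd, h2], by rw [hd]; exact h3⟩, fun y hy => ?_⟩, hm⟩
  obtain ⟨z, hz, rfl⟩ := AffineSubspace.mem_map.1 hy
  change eval (pz (c⁻¹ • z)) g = 0
  rw [pz_smul, ConeAux.eval_smul hg, h4 z hz, mul_zero]

theorem IsoFlat.nul {Φ : AffineSubspace ℂ (Pt d)} (h : IsoFlat Φ) {x y : Pt d} (hx : x ∈ Φ)
    (hy : y ∈ Φ) : QQ (x - y) = 0 := by
  exact h.2.2 _ (AffineSubspace.vsub_mem_direction hx hy)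

/-- null directions in one isotropic flat are orthogonal, so the heads are pairwise null -/
theorem nul_heads {τ : Pt d →ₗ[ℂ] ℂ} {Φ : AffineSubspace ℂ (Pt d)} (h : IsoFlat Φ) (y : Pt d)
    (Q : Finset (Ed d)) (hQ : ∀ e ∈ Q, IsEd τ e ∧ e.1 = y ∧ dr τ e ∈ Φ) :
    Nul (Q.image Prod.snd) := by
  intro x hx x' hx'
  obtain ⟨e, he, rfl⟩ := Finset.mem_image.1 hx
  obtain ⟨e', he', rfl⟩ := Finset.mem_image.1 hx'
  obtain ⟨a1, a2, a3⟩ := hQ e he
  obtain ⟨b1, b2, b3⟩ := hQ e' he'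
  have e1 : e.2 - e'.2 = τ (e.2 - e.1) • dr τ e - τ (e'.2 - e'.1) • dr τ e' := by
    have f1 := head_eq a1
    have f2 := head_eq b1
    generalize τ (e.2 - e.1) • dr τ e = u at f1 ⊢
    generalize τ (e'.2 - e'.1) • dr τ e' = u' at f2 ⊢
    rw [f1, f2, a2, b2, add_sub_add_left_eq_sub]
  rw [e1, ConeAux.QQ_comb, QQ_dr a1, QQ_dr b1, h.nul a3 b3]
  simp

end Crest.Agent.R65.Mn
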