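import Crest.Agent.R65.Mn.Pol

/-! Row 65, main module: the degree lemma. -/

set_option autoImplicit false

open Finset MvPolynomial
open scoped Classical

namespace Crest.Agent.R65.Mn

variable {K σ ι : Type} [Field K]

namespace DLAux

variable {A : Type} [CommRing A] [Algebra K A] (m : MonomialOrder σ) (f : (σ →₀ ℕ) → A)

variable (K) in
/-- standard exponents -/
def Std (α : σ →₀ ℕ) : Prop := f α ∉ Submodule.span K (f '' {β | m.toSyn β < m.toSyn α})

variable {m f}

theorem down (hf : ∀ α β, f (α + β) = f α * f β) {α β : σ →₀ ℕ} (h : α ≤ β) (hβ : Std K m f β) :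
    Std K m f α := by
  obtain ⟨γ, rfl⟩ := exists_add_of_le h
  intro hα
  apply hβ
  have h1 := Submodule.mem_map_of_mem (f := LinearMap.mulRight K (f γ)) hα
  rw [Submodule.map_span, LinearMap.mulRight_apply, ← hf] at h1
  refine Submodule.span_mono ?_ h1
  rintro _ ⟨_, ⟨δ, hδ, rfl⟩, rfl⟩
  refine ⟨δ + γ, ?_, hf _ _⟩
  simp only [Set.mem_ofPred_eq, map_add] at hδ ⊢
  exact add_lt_add_left hδ _

theorem mem_span (α : σ →₀ ℕ) :
    f α ∈ Submodule.span K (f '' {β | m.toSyn β ≤ m.toSyn α ∧ Std K m f β}) := by
  induction h : m.toSyn α using WellFoundedLT.induction generalizing α with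
  | ind a ih =>
    subst h
    by_cases hs : Std K m f α
    · exact Submodule.subset_span ⟨α, ⟨le_rfl, hs⟩, rfl⟩
    · refine Submodule.span_le.2 ?_ (not_not.1 hs)
      rintro _ ⟨β, hβ, rfl⟩
      refine Submodule.span_mono (Set.image_mono fun γ hγ => ?_) (ih _ hβ β rfl)
      exact ⟨hγ.1.trans (le_of_lt hβ), hγ.2⟩

theorem li (S : Finset (σ →₀ ℕ)) : (∀ α ∈ S, Std K m f α) → LinearIndepOn K f (S : Set _) := by
  induction S using Finset.induction_on_max_value m.toSyn with
  | empty => intro _; simp
  | insert a s has hle ih =>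
    intro h
    rw [coe_insert, linearIndepOn_insert (by simpa using has)]
    refine ⟨ih fun α hα => h α (mem_insert_of_mem hα), fun h1 => h a (mem_insert_self _ _) ?_⟩
    refine Submodule.span_mono (Set.image_mono fun β hβ => ?_) h1
    exact lt_of_le_of_ne (hle β hβ) fun e => has (m.toSyn.injective e ▸ hβ)

theorem main [Fintype σ] [Module.Finite K A] (hf : ∀ α β, f (α + β) = f α * f β)
    (hm : ∀ α β, m.toSyn α ≤ m.toSyn β → α.degree ≤ β.degree) (k s : ℕ) (hk : 1 ≤ k) :
    Module.finrank K (Submodule.span K (f '' {α | α.degree ≤ k * s})) ≤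
      k ^ Fintype.card σ * Module.finrank K (Submodule.span K (f '' {α | α.degree ≤ s})) := by
  let S : ℕ → Finset (σ →₀ ℕ) := fun t => (Finsupp.finite_of_degree_le t).toFinset.filter (Std K m f)
  have hS : ∀ t α, α ∈ S t ↔ α.degree ≤ t ∧ Std K m f α := fun t α => by simp [S]
  have h1 : Module.finrank K (Submodule.span K (f '' {α | α.degree ≤ k * s})) ≤ (S (k * s)).card := by
    refine le_trans (Submodule.finrank_mono (t := Submodule.span K ((S (k * s)).image f : Set A)) ?_)
      ((finrank_span_finset_le_card _).trans card_image_le)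
    refine Submodule.span_le.2 ?_
    rintro _ ⟨α, hα, rfl⟩
    rw [coe_image]
    exact Submodule.span_mono (Set.image_mono fun β hβ => (hS _ β).2 ⟨(hm _ _ hβ.1).trans hα, hβ.2⟩)
      (mem_span (m := m) α)
  have h2 : (S s).card ≤ Module.finrank K (Submodule.span K (f '' {α | α.degree ≤ s})) := by
    have h3 := finrank_span_eq_card (li (K := K) (m := m) (f := f) (S s) fun α hα => ((hS _ α).1 hα).2)
    rw [← Fintype.card_coe]
    refine h3.symm.trans_le (Submodule.finrank_mono (Submodule.span_mono ?_))
    rintro _ ⟨α, rfl⟩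
    exact ⟨α.1, ((hS _ _).1 α.2).1, rfl⟩
  have h3 : (S (k * s)).card ≤ k ^ Fintype.card σ * (S s).card := by
    refine card_le_mul_card_image_of_maps_to
      (f := fun α : σ →₀ ℕ => α.mapRange (· / k) (Nat.zero_div k)) (fun α hα => ?_) _ fun β _ => ?_
    · obtain ⟨h4, h5⟩ := (hS _ α).1 hα
      refine (hS _ _).2 ⟨Nat.le_of_mul_le_mul_left (le_trans ?_ h4) hk,
        down hf (fun i => Nat.div_le_self _ _) h5⟩
      rw [Finsupp.degree_eq_sum, Finsupp.degree_eq_sum, mul_sum]
      exact sum_le_sum fun i _ => Nat.mul_div_le _ _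
    · have h4 : (Fintype.piFinset fun _ : σ => range k).card = k ^ Fintype.card σ := by simp
      rw [← h4]
      refine card_le_card_of_injOn (fun α i => α i % k) (fun α _ => ?_) fun α hα α' hα' e => ?_
      · simpa using fun i => Nat.mod_lt (α i) hk
      · ext i
        have e1 := DFunLike.congr_fun ((mem_filter.1 hα).2.trans (mem_filter.1 hα').2.symm) i
        simp only [Finsupp.mapRange_apply] at e1
        rw [← Nat.div_add_mod (α i) k, e1, show α i % k = α' i % k from congrFun e i,
          Nat.div_add_mod]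
  exact h1.trans (h3.trans (Nat.mul_le_mul_left _ h2))

end DLAux

/-- Degree lemma.  WLOG `σ` is linearly ordered (`Fintype.equivFin`, or `linearOrderOfSTO`); take
the graded order `MonomialOrder.degLex` (or any linear order on `σ →₀ ℕ` that refines the degree and
is compatible with addition).  Call `α` standard if the function `x^α` on `Y` is not in the span of
the `x^β`, `β ≺ α`.  (1) standard exponents form a down-set; (2) `frk (pol t pt) Y` is the number of
standard exponents of degree `≤ t` (they are independent, and by induction along `≺` they span);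
(3) `α ↦ (α i / k)_i` maps standard exponents of degree `≤ k s` to standard exponents of degree
`≤ s`, with fibres of size `≤ k ^ card σ`. -/
theorem frk_pol_dl [Fintype σ] (k s : ℕ) (hk : 1 ≤ k) (pt : ι → σ → K) (Y : Finset ι) :
    frk (pol (k * s) pt) Y ≤ k ^ Fintype.card σ * frk (pol s pt) Y := by
  let : LinearOrder σ := LinearOrder.lift' (Fintype.equivFin σ) (Fintype.equivFin σ).injective
  let f : (σ →₀ ℕ) → Y → K := fun α i => eval (pt i) (monomial α 1)
  have h1 : ∀ t, frk (pol t pt) Y = Module.finrank K (Submodule.span K (f '' {α | α.degree ≤ t})) := by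
    intro t
    have : (pol t pt).map (LinearMap.funLeft K K ((↑) : Y → ι)) =
        Submodule.span K (f '' {α | α.degree ≤ t}) := by
      rw [pol_eq_span, Submodule.map_span]
      congr 1
      ext φ
      constructor
      · rintro ⟨_, ⟨α, hα, rfl⟩, rfl⟩
        exact ⟨α, hα, rfl⟩
      · rintro ⟨α, hα, rfl⟩
        exact ⟨_, ⟨α, hα, rfl⟩, rfl⟩
    rw [frk, this]
  rw [h1, h1]
  refine DLAux.main (m := MonomialOrder.degLex) (fun α β => _root_.funext fun i => ?_) (fun α β h => ?_) k s hk
  · simp only [f, Pi.mul_apply, ← map_mul, monomial_mul, one_mul]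
  · exact Finsupp.DegLex.monotone_degree (MonomialOrder.degLex_le_iff.1 h)

end Crest.Agent.R65.Mn
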