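import Mathlib

/-! Row 65, main module: definitions and interface statements.

Points of `ℂ^{2d}` are written `x = (a, b)` with `a = x ∘ inl`, `b = x ∘ inr`; the quadratic form is
`QQ x = a · b`.  `LL d = ℂ(S)` with `S = SS d` a generic skew matrix; `pz x = a + S b`. -/

set_option autoImplicit false

open Finset MvPolynomial
open scoped Classical

namespace Crest.Agent.R65.Mn

/-! ### ranks of function spaces -/

/-- rank of the space of functions `W` on the finite set `Y` -/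
noncomputable def frk {K ι : Type} [Field K] (W : Submodule K (ι → K)) (Y : Finset ι) : ℕ :=
  Module.finrank K (W.map (LinearMap.funLeft K K ((↑) : Y → ι)))

/-- the functions of `W` vanishing on `Z` -/
def van {K ι : Type} [Field K] (W : Submodule K (ι → K)) (Z : Finset ι) : Submodule K (ι → K) where
  carrier := {φ | φ ∈ W ∧ ∀ i ∈ Z, φ i = 0}
  add_mem' := by
    rintro a b ⟨ha, ha'⟩ ⟨hb, hb'⟩
    exact ⟨W.add_mem ha hb, fun i hi => by simp [ha' i hi, hb' i hi]⟩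
  zero_mem' := ⟨W.zero_mem, fun _ _ => rfl⟩
  smul_mem' := by
    rintro c a ⟨ha, ha'⟩
    exact ⟨W.smul_mem c ha, fun i hi => by simp [ha' i hi]⟩

/-- evaluation of a polynomial at the family of points `pt` -/
noncomputable def evs {K σ ι : Type} [Field K] (pt : ι → σ → K) :
    MvPolynomial σ K →ₗ[K] (ι → K) :=
  LinearMap.pi fun i => (aeval (pt i) : MvPolynomial σ K →ₐ[K] K).toLinearMap

/-- polynomial functions of degree `≤ s` in the points `pt` -/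
noncomputable def pol {K σ ι : Type} [Field K] (s : ℕ) (pt : ι → σ → K) : Submodule K (ι → K) :=
  (restrictTotalDegree σ K s).map (evs pt)

/-- `g` vanishes to order `≥ m` at `p` -/
def OrdGe {K σ : Type} [Field K] (g : MvPolynomial σ K) (p : σ → K) (m : ℕ) : Prop :=
  ∀ α : σ →₀ ℕ, α.degree < m →
    coeff α (aeval (fun i => X i + C (p i) : σ → MvPolynomial σ K) g) = 0

/-! ### the generic isotropic projection -/

abbrev Ix (d : ℕ) := Fin d ⊕ Fin d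

abbrev Pt (d : ℕ) := Ix d → ℂ

abbrev SI (d : ℕ) := {p : Fin d × Fin d // p.1 < p.2}

abbrev LL (d : ℕ) := FractionRing (MvPolynomial (SI d) ℂ)

/-- the skew matrix with upper entries `θ` -/
def sk {d : ℕ} {R : Type} [CommRing R] (θ : SI d → R) (i j : Fin d) : R :=
  if h : i < j then θ ⟨(i, j), h⟩ else if h : j < i then -θ ⟨(j, i), h⟩ else 0

/-- the generic skew matrix -/
noncomputable def SS (d : ℕ) : Fin d → Fin d → LL d :=
  sk fun p => algebraMap (MvPolynomial (SI d) ℂ) (LL d) (X p)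

/-- the split quadratic form `a · b` -/
def QQ {d : ℕ} {R : Type} [CommRing R] (x : Ix d → R) : R := ∑ i, x (Sum.inl i) * x (Sum.inr i)

/-- `a + S b` -/
def prj {d : ℕ} {R : Type} [CommRing R] (S : Fin d → Fin d → R) (x : Ix d → R) (i : Fin d) : R :=
  x (Sum.inl i) + ∑ j, S i j * x (Sum.inr j)

/-- a complex point with coordinates in `LL d` -/
noncomputable def up {d : ℕ} (x : Pt d) : Ix d → LL d := fun k => algebraMap ℂ (LL d) (x k)

/-- the generic isotropic projection `z = a + S b` -/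
noncomputable def pz {d : ℕ} (x : Pt d) : Fin d → LL d := prj (SS d) (up x)

/-- a totally isotropic `d`-flat -/
def IsoFlat {d : ℕ} (Φ : AffineSubspace ℂ (Pt d)) : Prop :=
  (Φ : Set (Pt d)).Nonempty ∧ Module.finrank ℂ Φ.direction = d ∧ ∀ v ∈ Φ.direction, QQ v = 0

/-- the isotropic `d`-flats whose projection lies in `F = 0` -/
def Exc {d : ℕ} (F : MvPolynomial (Fin d) (LL d)) : Set (AffineSubspace ℂ (Pt d)) :=
  {Φ | IsoFlat Φ ∧ ∀ y ∈ Φ, eval (pz y) F = 0}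

/-- INTERFACE (key lemma, count of exceptional flats). -/
def FlatStmt (d : ℕ) : Prop :=
  ∀ F : MvPolynomial (Fin d) (LL d), F ≠ 0 → (Exc F).Finite ∧ (Exc F).ncard ≤ F.totalDegree

/-- INTERFACE (key lemma, rank form): off the exceptional flats the generic isotropic projection
does not lose rank. -/
def KLFor (d C R : ℕ) : Prop :=
  ∀ (F : MvPolynomial (Fin d) (LL d)) (t s : ℕ) (Y : Finset (Pt d)), F ≠ 0 →
    R * (F.totalDegree + 1) ≤ t → t ≤ s → (∀ y ∈ Y, eval (pz y) F = 0) →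
    (∀ y ∈ Y, ∀ Φ ∈ Exc F, y ∉ Φ) →
    frk (pol s up) Y * t ^ (d - 1) ≤ C * frk (pol t pz) Y * s ^ (d - 1)

def KLStmt (d : ℕ) : Prop := ∃ C R : ℕ, 1 ≤ R ∧ KLFor d C R

/-- INTERFACE (multiplicity budget): points where `g` vanishes to order `2 ^ k`. -/
def MBFor (d C : ℕ) : Prop :=
  ∀ (g : MvPolynomial (Fin d) (LL d)) (t J : ℕ) (Z : Finset (Fin d → LL d)), g ≠ 0 →
    g.totalDegree ≤ t →
    ∑ k ∈ range J, 2 ^ k * frk (pol t id) (Z.filter fun z => OrdGe g z (2 ^ k)) ≤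
      C * g.totalDegree * t ^ (d - 1)

def MBStmt (d : ℕ) : Prop := ∃ C : ℕ, MBFor d C

/-! ### edges, lines, flags -/

/-- an oriented edge `(tail, head)` -/
abbrev Ed (d : ℕ) := Pt d × Pt d

/-- pairwise null differences -/
def Nul {d : ℕ} (Z : Finset (Pt d)) : Prop := ∀ x ∈ Z, ∀ y ∈ Z, QQ (x - y) = 0

/-- a null edge, transversal to `τ` -/
def IsEd {d : ℕ} (τ : Pt d →ₗ[ℂ] ℂ) (e : Ed d) : Prop := QQ (e.2 - e.1) = 0 ∧ τ (e.2 - e.1) ≠ 0

/-- direction of the edge, normalised by `τ w = 1` -/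
noncomputable def dr {d : ℕ} (τ : Pt d →ₗ[ℂ] ℂ) (e : Ed d) : Pt d :=
  (τ (e.2 - e.1))⁻¹ • (e.2 - e.1)

/-- coordinates of the line of the edge: direction and the point with `τ = 0` -/
noncomputable def lin {d : ℕ} (τ : Pt d →ₗ[ℂ] ℂ) (e : Ed d) : Ix d ⊕ Ix d → LL d :=
  Sum.elim (up (dr τ e)) (up (e.1 - τ e.1 • dr τ e))

/-- polynomial functions of degree `≤ E` in the direction -/
noncomputable def Dir {d : ℕ} (τ : Pt d →ₗ[ℂ] ℂ) (E : ℕ) : Submodule (LL d) (Ed d → LL d) :=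
  pol E fun e => up (dr τ e)

/-- functions of a flag: degree `< m` in the position of the tail, `≤ k` in the line -/
noncomputable def Flg {d : ℕ} (τ : Pt d →ₗ[ℂ] ℂ) (m k : ℕ) : Submodule (LL d) (Ed d → LL d) :=
  Submodule.span (LL d)
    {ψ | ∃ i < m, ∃ φ ∈ pol k (lin τ), ψ = fun e => algebraMap ℂ (LL d) (τ e.1) ^ i * φ e}

/-- edges of `G` with tail `y` -/
noncomputable def atT {d : ℕ} (G : Finset (Ed d)) (y : Pt d) : Finset (Ed d) :=
  G.filter fun e => e.1 = y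

/-- edges of `G` with head `x` -/
noncomputable def atH {d : ℕ} (G : Finset (Ed d)) (x : Pt d) : Finset (Ed d) :=
  G.filter fun e => e.2 = x

/-! ### the sections `F_y` -/

/-- the point `(v, ζ(v, y))`: `ζ_i = z_i v_0 - z_0 v_i` (`i ≠ 0`), `ζ_0 = b · v`, where
`z = a + S b`. -/
def sec {d : ℕ} [NeZero d] {R : Type} [CommRing R] (S : Fin d → Fin d → R) (y : Ix d → R)
    (v : Fin d → R) : Ix d → R :=
  Sum.elim v fun i =>
    if i = 0 then ∑ j, y (Sum.inr j) * v j else prj S y i * v 0 - prj S y 0 * v i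

/-- restriction of `f` to the section `F_y`, a polynomial in `v` -/
noncomputable def res {d : ℕ} [NeZero d] (y : Pt d) :
    MvPolynomial (Ix d) (LL d) →ₐ[LL d] MvPolynomial (Fin d) (LL d) :=
  aeval (sec (fun i j => C (SS d i j)) (fun k => C (up y k)) X)

/-- vertices whose section is determined by the sample `S` in degree `E` -/
def TS {d : ℕ} [NeZero d] (E : ℕ) (S : Finset (Pt d)) : Set (Pt d) :=
  {y | ∀ f : MvPolynomial (Ix d) (LL d), f.IsHomogeneous E → (∀ s ∈ S, res s f = 0) → res y f = 0}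

/-- values of the forms of degree `E` at the point `F_tail ∩ F_head` -/
noncomputable def Val {d : ℕ} [NeZero d] (τ : Pt d →ₗ[ℂ] ℂ) (E : ℕ) :
    Submodule (LL d) (Ed d → LL d) :=
  (homogeneousSubmodule (Ix d) (LL d) E).map
    (LinearMap.pi fun e : Ed d =>
      ((aeval (pz (dr τ e)) : MvPolynomial (Fin d) (LL d) →ₐ[LL d] LL d).comp (res e.1)).toLinearMap)

/-- layer functions at the tails (degree `E`) -/
def LayT {d : ℕ} (τ : Pt d →ₗ[ℂ] ℂ) (E : ℕ) (G : Finset (Ed d)) (lay : Ed d → ℕ) : Prop :=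
  (∀ (y : Pt d) (j : ℕ) (Q : Finset (Ed d)), Q ⊆ atT G y → (∀ e ∈ Q, lay e ≤ j) →
    Q.card ≤ 2 ^ (j + 2) * frk (Dir τ E) Q) ∧
  ∀ (y : Pt d) (J : ℕ), ∑ j ∈ range J,
    2 ^ j * frk (Dir τ E) ((atT G y).filter fun e => j ≤ lay e) ≤ 2 * (atT G y).card

/-- per-vertex bound -/
def PVFor (d : ℕ) (C : ℕ) : Prop :=
  ∀ (τ : Pt d →ₗ[ℂ] ℂ) (y : Pt d) (A : Finset (Ed d)) (g : MvPolynomial (Fin d) (LL d))
    (Ef E r : ℕ), (∀ e ∈ A, IsEd τ e ∧ e.1 = y) → g ≠ 0 → g.IsHomogeneous Ef → Ef ≤ E → 1 ≤ E →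
    (∀ Q ⊆ A, Nul (Q.image Prod.snd) → Q.card ≤ r) →
    ∃ A' ⊆ A, A.card ≤ A'.card + Ef * r ∧ ∀ J : ℕ, ∑ k ∈ range J,
      2 ^ k * frk (Dir τ E) (A'.filter fun e => OrdGe g (pz (dr τ e)) (2 ^ k)) ≤
        C * Ef * E ^ (d - 2)

/-- bound for the determined vertices -/
def TBFor (d : ℕ) [NeZero d] (C : ℕ) : Prop :=
  ∀ (T S : Finset (Pt d)) (E s n : ℕ), C ≤ E → E ≤ s → frk (pol s up) T = T.card →
    (∀ Z ⊆ T, Nul Z → Z.card ≤ n) → C * S.card ≤ E ^ d → (∀ y ∈ T, y ∈ TS E S) →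
    T.card * E ^ (d - 1) ≤ C * (E * n * E ^ (d - 1) + S.card * s ^ (d - 1))

/-- the side lemma -/
def SideFor (d : ℕ) [NeZero d] (C : ℝ) : Prop :=
  ∀ (τ : Pt d →ₗ[ℂ] ℂ) (U V : Finset (Pt d)) (G H : Finset (Ed d)) (layT layH : Ed d → ℕ)
    (Ef E r : ℕ) (j₀ h : ℤ) (M ε : ℝ),
    G ⊆ U ×ˢ V → H ⊆ G → G.Nonempty → (∀ e ∈ G, IsEd τ e) → Ef ≤ E → 1 ≤ E → 0 < ε → ε ≤ 1 →
    LayT τ E G layT → LayT τ E (G.image Prod.swap) (fun e => layH e.swap) →
    (∀ e ∈ H, j₀ < layT e → layT e + h ≤ layH e) →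
    (∑ x ∈ V, (frk (Val τ Ef) (atH H x) : ℝ)) ≤ M →
    (∀ y, ∀ Q ⊆ atT G y, Nul (Q.image Prod.snd) → Q.card ≤ r) →
    ∃ S ⊆ U, (S.card : ℝ) ≤ M * U.card / (ε * G.card) + C * (2 : ℝ) ^ (-j₀ - h) * U.card / ε ^ 3 ∧
      (H.card : ℝ) ≤ C * ε * G.card + ((G.filter fun e => e.1 ∈ TS Ef S).card : ℝ) +
        U.card * (C * (2 : ℝ) ^ j₀ * Ef * (E : ℝ) ^ (d - 2) + Ef * r)

/-- the main theorem of the module: no dense null graph with small cliques -/
def MainStmt (d : ℕ) : Prop :=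
  ∃ ε₀ μ₀ : ℝ, 0 < ε₀ ∧ ∀ (X : Finset (Pt d)) (G : Finset (Ed d)) (D n r : ℕ), 1 ≤ D →
    frk (pol (4 * D) up) X = X.card → (∀ Z ⊆ X, Nul Z → Z.card ≤ n) → n ^ 2 ≤ X.card →
    G ⊆ X ×ˢ X → (∀ e ∈ G, e.1 ≠ e.2 ∧ QQ (e.2 - e.1) = 0) →
    (∀ y, ∀ Q ⊆ atT G y, Nul (Q.image Prod.snd) → Q.card ≤ r) →
    (∀ x, ∀ Q ⊆ atH G x, Nul (Q.image Prod.fst) → Q.card ≤ r) →
    (r : ℝ) * (D : ℝ) ^ 2 ≤ ε₀ * X.card → μ₀ * (D : ℝ) ^ d ≤ X.card →
    (G.card : ℝ) * (8 * D) < (X.card : ℝ) ^ 2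

end Crest.Agent.R65.Mn
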