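import Crest.Agent.R65.Mn.Pol

/-! Row 65, main module: dimension counts for polynomial spaces. -/

set_option autoImplicit false

open Finset MvPolynomial
open scoped Classical

namespace Crest.Agent.R65.Mn

variable {K ι : Type} [Field K]

namespace DimAux

theorem sum_multichoose (n s : ℕ) :
    ∑ k ∈ range (s + 1), n.multichoose k = (n + 1).multichoose s := by
  induction s with
  | zero => simp
  | succ s ih => rw [sum_range_succ, ih, Nat.multichoose_succ_succ, add_comm]

theorem step (x m : ℕ) : (x + (m + 1)).choose (m + 1) * (m + 1) = (x + m + 1) * (x + m).choose m :=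
  (Nat.add_one_mul_choose_eq (x + m) m).symm

theorem tele (x m δ : ℕ) :
    (x + δ + (m + 1)).choose (m + 1) ≤ (x + (m + 1)).choose (m + 1) + δ * (x + δ + m).choose m := by
  induction δ with
  | zero => simp
  | succ δ ih =>
    have h1 : (x + (δ + 1) + (m + 1)).choose (m + 1) =
        (x + (δ + 1) + m).choose m + (x + δ + (m + 1)).choose (m + 1) := by
      rw [show x + (δ + 1) + (m + 1) = (x + (δ + 1) + m) + 1 by omega, Nat.choose_succ_succ',
        show x + δ + (m + 1) = x + (δ + 1) + m by omega]
    have h2 : (x + δ + m).choose m ≤ (x + (δ + 1) + m).choose m :=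
      Nat.choose_le_choose m (by omega)
    have h3 := Nat.mul_le_mul_left δ h2
    rw [h1, add_mul, one_mul]
    omega

/-- restriction of the polynomials of degree `≤ s` to the points of `Y` -/
noncomputable def rs {σ : Type} (s : ℕ) (pt : ι → σ → K) (Y : Finset ι) :
    restrictTotalDegree σ K s →ₗ[K] (Y → K) :=
  ((LinearMap.funLeft K K ((↑) : Y → ι)).comp (evs pt)).domRestrict _

theorem frk_eq {σ : Type} (s : ℕ) (pt : ι → σ → K) (Y : Finset ι) :
    frk (pol s pt) Y = Module.finrank K (LinearMap.range (rs s pt Y)) := by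
  rw [rs, LinearMap.range_domRestrict, Submodule.map_comp]
  rfl

theorem mem_ker {σ : Type} (s : ℕ) (pt : ι → σ → K) (Y : Finset ι)
    (p : restrictTotalDegree σ K s) :
    p ∈ LinearMap.ker (rs s pt Y) ↔ ∀ i ∈ Y, eval (pt i) (p : MvPolynomial σ K) = 0 := by
  rw [LinearMap.mem_ker, funext_iff]
  constructor
  · intro h i hi
    have := h ⟨i, hi⟩
    simpa [rs, LinearMap.funLeft_apply, evs_apply] using this
  · intro h i
    simpa [rs, LinearMap.funLeft_apply, evs_apply] using h i.1 i.2

end DimAux

theorem card_deg_le (σ : Type) [Fintype σ] (s : ℕ) :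
    ∃ A : Finset (σ →₀ ℕ), (∀ α, α ∈ A ↔ α.degree ≤ s) ∧
      A.card = (s + Fintype.card σ).choose (Fintype.card σ) := by
  refine ⟨(range (s + 1)).biUnion fun k => (univ : Finset σ).finsuppAntidiag k, fun α => ?_, ?_⟩
  · simp only [mem_biUnion, mem_range, mem_finsuppAntidiag, subset_univ, and_true,
      Finsupp.degree_eq_sum]
    constructor
    · rintro ⟨k, hk, h⟩
      exact h.trans_le (by omega)
    · intro h
      exact ⟨_, Nat.lt_succ_of_le h, rfl⟩
  · rw [card_biUnion]
    · simp only [card_finsuppAntidiag_nat_eq_multichoose, card_univ]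
      rw [DimAux.sum_multichoose, Nat.multichoose_eq]
      rw [show Fintype.card σ + 1 + s - 1 = s + Fintype.card σ by omega, Nat.choose_symm_add]
    · intro i _ j _ hij
      rw [Function.onFun, disjoint_left]
      intro α h1 h2
      rw [mem_finsuppAntidiag] at h1 h2
      exact hij (h1.1.symm.trans h2.1)

theorem finrank_restrict (σ : Type) [Fintype σ] (s : ℕ) :
    Module.finrank K (restrictTotalDegree σ K s) =
      (s + Fintype.card σ).choose (Fintype.card σ) := by
  obtain ⟨A, hA, hc⟩ := card_deg_le σ s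
  have hs : {n : σ →₀ ℕ | (n.sum fun _ e => e) ≤ s} = (A : Set (σ →₀ ℕ)) := by
    ext a
    rw [Set.mem_ofPred_eq, mem_coe, hA]
    rfl
  rw [restrictTotalDegree, hs, Module.finrank_eq_card_basis (basisRestrictSupport K _), ← hc]
  simp

instance finite_homog (σ : Type) [Fintype σ] (E : ℕ) :
    FiniteDimensional K (homogeneousSubmodule σ K E) := by
  exact Module.Finite.iff_fg.2 (homogeneousSubmodule_fg σ K E)

theorem finrank_homog (σ : Type) [Fintype σ] [Nonempty σ] (E : ℕ) :
    Module.finrank K (homogeneousSubmodule σ K E) =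
      (E + (Fintype.card σ - 1)).choose (Fintype.card σ - 1) := by
  have hs : {a : σ →₀ ℕ | a.degree = E} =
      ((univ : Finset σ).finsuppAntidiag E : Set (σ →₀ ℕ)) := by
    ext a
    simp [mem_finsuppAntidiag, Finsupp.degree_eq_sum]
  rw [homogeneousSubmodule_eq_finsupp_supported, hs]
  have := Module.finrank_eq_card_basis (basisRestrictSupport K
    ((univ : Finset σ).finsuppAntidiag E : Set (σ →₀ ℕ)))
  refine this.trans ?_
  have hp : 0 < Fintype.card σ := Fintype.card_pos
  simp only [coe_sort_coe, Fintype.card_coe, card_finsuppAntidiag_nat_eq_choose, card_univ]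
  rw [show Fintype.card σ + E - 1 = E + (Fintype.card σ - 1) by omega, Nat.choose_symm_add]

theorem frk_pol_le {σ : Type} [Fintype σ] (s : ℕ) (pt : ι → σ → K) (Y : Finset ι) :
    frk (pol s pt) Y ≤ (s + Fintype.card σ).choose (Fintype.card σ) := by
  have h := LinearMap.finrank_range_add_finrank_ker (DimAux.rs s pt Y)
  rw [finrank_restrict] at h
  rw [DimAux.frk_eq]
  omega

theorem frk_pol_lt_iff {σ : Type} [Fintype σ] (s : ℕ) (pt : ι → σ → K) (Y : Finset ι) :
    frk (pol s pt) Y < (s + Fintype.card σ).choose (Fintype.card σ) ↔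
      ∃ F : MvPolynomial σ K, F ≠ 0 ∧ F.totalDegree ≤ s ∧ ∀ i ∈ Y, eval (pt i) F = 0 := by
  have h := LinearMap.finrank_range_add_finrank_ker (DimAux.rs s pt Y)
  rw [finrank_restrict] at h
  rw [DimAux.frk_eq]
  constructor
  · intro hlt
    have hk : LinearMap.ker (DimAux.rs s pt Y) ≠ ⊥ := by
      intro h0
      rw [h0, finrank_bot] at h
      omega
    obtain ⟨p, hp, hp0⟩ := (Submodule.ne_bot_iff _).1 hk
    exact ⟨p.1, fun h0 => hp0 (Subtype.ext h0), (mem_restrictTotalDegree σ s _).1 p.2,
      (DimAux.mem_ker s pt Y p).1 hp⟩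
  · rintro ⟨F, hF, hd, hv⟩
    have hk : LinearMap.ker (DimAux.rs s pt Y) ≠ ⊥ :=
      (Submodule.ne_bot_iff _).2 ⟨⟨F, (mem_restrictTotalDegree σ s _).2 hd⟩,
        (DimAux.mem_ker s pt Y _).2 hv, fun h0 => hF (congrArg Subtype.val h0)⟩
    have : Module.finrank K (LinearMap.ker (DimAux.rs s pt Y)) ≠ 0 := fun h0 =>
      hk (Submodule.finrank_eq_zero.1 h0)
    omega

/-- points on a hypersurface: the kernel of the restriction contains `F * (degree ≤ t - deg F)`, and
`C(t + M, M) - C(t - δ + M, M) ≤ δ C(t + M - 1, M - 1)`; for `t < δ` use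
`C(t + M, M) ≤ (t + 1) C(t + M - 1, M - 1)`. -/
theorem frk_pol_hyp {σ : Type} [Fintype σ] [Nonempty σ] (t : ℕ) (pt : ι → σ → K) (Y : Finset ι)
    (F : MvPolynomial σ K) (hF : F ≠ 0) (h : ∀ i ∈ Y, eval (pt i) F = 0) :
    frk (pol t pt) Y ≤
      F.totalDegree * (t + (Fintype.card σ - 1)).choose (Fintype.card σ - 1) := by
  have h0 := LinearMap.finrank_range_add_finrank_ker (DimAux.rs t pt Y)
  rw [finrank_restrict] at h0
  rw [DimAux.frk_eq]
  have hp : 0 < Fintype.card σ := Fintype.card_pos
  obtain ⟨m, hm⟩ : ∃ m, Fintype.card σ = m + 1 := ⟨Fintype.card σ - 1, by omega⟩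
  rw [hm] at h0 ⊢
  rw [Nat.add_sub_cancel]
  by_cases hd : F.totalDegree ≤ t
  · obtain ⟨x, rfl⟩ : ∃ x, t = x + F.totalDegree := ⟨t - F.totalDegree, by omega⟩
    have hmem : ∀ p : restrictTotalDegree σ K x,
        F * p.1 ∈ restrictTotalDegree σ K (x + F.totalDegree) := fun p => by
      rw [mem_restrictTotalDegree]
      have h1 := totalDegree_mul F p.1
      have h2 := (mem_restrictTotalDegree σ x _).1 p.2
      omega
    let L : restrictTotalDegree σ K x →ₗ[K] restrictTotalDegree σ K (x + F.totalDegree) :=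
      LinearMap.codRestrict _ ((LinearMap.mulLeft K F).domRestrict _) hmem
    have hL : ∀ p, L p ∈ LinearMap.ker (DimAux.rs (x + F.totalDegree) pt Y) := fun p => by
      rw [DimAux.mem_ker]
      intro i hi
      change eval (pt i) (F * p.1) = 0
      rw [map_mul, h i hi, zero_mul]
    have hinj : Function.Injective (LinearMap.codRestrict _ L hL) := by
      intro p q hpq
      have h1 : F * p.1 = F * q.1 := congrArg (fun z => z.1.1) hpq
      exact Subtype.ext (mul_left_cancel₀ hF h1)
    have h2 := LinearMap.finrank_le_finrank_of_injective hinj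
    rw [finrank_restrict, hm] at h2
    have h3 := DimAux.tele x m F.totalDegree
    omega
  · have h3 := DimAux.tele 0 m t
    simp only [zero_add, Nat.choose_self] at h3
    have h4 : 0 < (t + m).choose m := Nat.choose_pos (by omega)
    have h5 : (t + 1) * (t + m).choose m ≤ F.totalDegree * (t + m).choose m :=
      Nat.mul_le_mul_right _ (by omega)
    rw [add_mul, one_mul] at h5
    omega

theorem choose_le_pow' (s m : ℕ) : (s + m).choose m ≤ (s + 1) ^ m := by
  induction m with
  | zero => simp
  | succ m ih =>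
    refine Nat.le_of_mul_le_mul_right (c := m + 1) ?_ (by omega)
    rw [DimAux.step]
    calc (s + m + 1) * (s + m).choose m ≤ ((s + 1) * (m + 1)) * (s + 1) ^ m :=
          Nat.mul_le_mul (by nlinarith [Nat.zero_le (s * m)]) ih
      _ = _ := by ring

theorem pow_le_choose' (s m : ℕ) : (s + 1) ^ m ≤ m.factorial * (s + m).choose m := by
  induction m with
  | zero => simp
  | succ m ih =>
    calc (s + 1) ^ (m + 1) = (s + 1) * (s + 1) ^ m := by ring
      _ ≤ (s + m + 1) * (m.factorial * (s + m).choose m) := Nat.mul_le_mul (by omega) ih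
      _ = m.factorial * ((s + m + 1) * (s + m).choose m) := by ring
      _ = _ := by rw [← DimAux.step, Nat.factorial_succ]; ring

theorem choose_double (a b m : ℕ) (h : b ≤ 2 * a) : (b + m).choose m ≤ 2 ^ m * (a + m).choose m := by
  induction m with
  | zero => simp
  | succ m ih =>
    refine Nat.le_of_mul_le_mul_right (c := m + 1) ?_ (by omega)
    rw [DimAux.step, mul_assoc, DimAux.step]
    calc (b + m + 1) * (b + m).choose m ≤ (2 * (a + m + 1)) * (2 ^ m * (a + m).choose m) :=
          Nat.mul_le_mul (by omega) ih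
      _ = _ := by ring

end Crest.Agent.R65.Mn
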