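import Crest.Agent.R65.Mn.Cay

/-! Row 65, main module: dimension three from the bound on rich isometries. -/

set_option autoImplicit false

open Finset Matrix
open scoped Classical

namespace Crest.Agent.R65.Mn

/-- edges inside a null subset of `X` with more than `r` points -/
noncomputable def bad (X : Finset (Pt 3)) (r : ℕ) : Finset (Ed 3) :=
  (GG X).filter fun e => ∃ Z ⊆ X, Nul Z ∧ r < Z.card ∧ e.1 ∈ Z ∧ e.2 ∈ Z

namespace Dim3Aux

theorem QQ_neg (x : Pt 3) : QQ (-x) = QQ x := by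
  simp [QQ]

theorem QQ_zero : QQ (0 : Pt 3) = 0 := by
  simp [QQ]

theorem QQ_comm (x y : Pt 3) : QQ (x - y) = QQ (y - x) := by
  rw [← neg_sub, QQ_neg]

theorem nul_insert {Z : Finset (Pt 3)} (h : Nul Z) {y : Pt 3} (hy : ∀ x ∈ Z, QQ (x - y) = 0) :
    Nul (insert y Z) := by
  intro a ha b hb
  rcases mem_insert.1 ha with e | ha' <;> rcases mem_insert.1 hb with e' | hb'
  · rw [e, e', sub_self, QQ_zero]
  · rw [e, QQ_comm]
    exact hy b hb'
  · rw [e']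
    exact hy a ha'
  · exact h a ha' b hb'

theorem one_bad (P : Finset (Fin 3 → ℝ)) (r : ℕ) (e : Ed 3) (he : e ∈ bad (XX P P) r) :
    ∃ (σ : Fin 3 → Bool) (g : D3.Pt), r < (D3.mt P (P.image (sg σ)) g).card ∧
      ∃ a ∈ D3.mt P (P.image (sg σ)) g, ∃ b ∈ D3.mt P (P.image (sg σ)) g,
        e = (emb (a.1, sg σ a.2), emb (b.1, sg σ b.2)) := by
  obtain ⟨-, Z, hZ, hN, hr, h1, h2⟩ := mem_filter.1 he
  set Z' := (P ×ˢ P).filter fun x => emb x ∈ Z with hZ'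
  have hex : ∀ z ∈ Z, ∃ x ∈ Z', emb x = z := by
    intro z hz
    obtain ⟨x, hx, rfl⟩ := mem_image.1 (hZ hz)
    exact ⟨x, mem_filter.2 ⟨hx, hz⟩, rfl⟩
  obtain ⟨σ, g, hg⟩ := exists_cayley Z' fun x hx y hy => by
    have h := hN _ (mem_filter.1 hx).2 _ (mem_filter.1 hy).2
    rw [QQ_emb, Complex.ofReal_eq_zero, sub_eq_zero] at h
    exact h
  have hm : ∀ x ∈ Z', (x.1, sg σ x.2) ∈ D3.mt P (P.image (sg σ)) g := by
    intro x hx
    obtain ⟨h3, h4⟩ := mem_product.1 (mem_filter.1 hx).1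
    exact mem_filter.2 ⟨mem_product.2 ⟨h3, mem_image_of_mem _ h4⟩, hg x hx⟩
  refine ⟨σ, g, hr.trans_le ?_, ?_⟩
  · have h3 : Z ⊆ (D3.mt P (P.image (sg σ)) g).image fun a => emb (a.1, sg σ a.2) := by
      intro z hz
      obtain ⟨x, hx, rfl⟩ := hex z hz
      exact mem_image.2 ⟨_, hm x hx, by simp only [sg_sg]⟩
    exact (card_le_card h3).trans card_image_le
  · obtain ⟨x, hx, e1⟩ := hex _ h1
    obtain ⟨y, hy, e2⟩ := hex _ h2
    refine ⟨_, hm x hx, _, hm y hy, ?_⟩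
    simp only [sg_sg]
    exact Prod.ext e1.symm e2.symm

end Dim3Aux

open Dim3Aux

/-- Every bad edge lies in `mt P (σ P) g × mt P (σ P) g` (through `(p, p'') ↦ emb (p, σ p'')`) for
some sign `σ` and a flat `g` with more than `r` matched pairs (`exists_cayley`); choose such a pair
for every bad edge, let `Γ σ` be the finite set of chosen flats. -/
theorem bad_le (P : Finset (Fin 3 → ℝ)) (r : ℕ) :
    ∃ Γ : (Fin 3 → Bool) → Finset D3.Pt,
      (∀ σ, ∀ g ∈ Γ σ, r < (D3.mt P (P.image (sg σ)) g).card) ∧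
      (bad (XX P P) r).card ≤ ∑ σ, ∑ g ∈ Γ σ, (D3.mt P (P.image (sg σ)) g).card ^ 2 := by
  choose! s γ h1 h2 using one_bad P r
  refine ⟨fun σ => ((bad (XX P P) r).filter fun e => s e = σ).image γ, fun σ g hg => ?_, ?_⟩
  · obtain ⟨e, he, rfl⟩ := mem_image.1 hg
    obtain ⟨h3, rfl⟩ := mem_filter.1 he
    exact h1 e h3
  · have h3 : bad (XX P P) r ⊆ univ.biUnion fun σ =>
        (((bad (XX P P) r).filter fun e => s e = σ).image γ).biUnion fun g =>
          (D3.mt P (P.image (sg σ)) g ×ˢ D3.mt P (P.image (sg σ)) g).image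
            fun ab => (emb (ab.1.1, sg σ ab.1.2), emb (ab.2.1, sg σ ab.2.2)) := by
      intro e he
      obtain ⟨a, ha, b, hb, h4⟩ := h2 e he
      exact mem_biUnion.2 ⟨s e, mem_univ _, mem_biUnion.2 ⟨γ e,
        mem_image_of_mem _ (mem_filter.2 ⟨he, rfl⟩),
        mem_image.2 ⟨(a, b), mem_product.2 ⟨ha, hb⟩, h4.symm⟩⟩⟩
    refine (card_le_card h3).trans (card_biUnion_le.trans (sum_le_sum fun σ _ =>
      card_biUnion_le.trans (sum_le_sum fun g _ => card_image_le.trans ?_)))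
    rw [card_product, sq]

/-- neighbours in `GG X \ bad X r`: a null set of heads together with the tail is a null set. -/
theorem good_T (X : Finset (Pt 3)) (r : ℕ) (y : Pt 3) (Q : Finset (Ed 3))
    (hQ : Q ⊆ atT (GG X \ bad X r) y) (h : Nul (Q.image Prod.snd)) : Q.card ≤ r := by
  by_contra hr
  push Not at hr
  have hm : ∀ e ∈ Q, e ∈ GG X ∧ e ∉ bad X r ∧ e.1 = y := fun e he =>
    ⟨(mem_sdiff.1 (mem_filter.1 (hQ he)).1).1, (mem_sdiff.1 (mem_filter.1 (hQ he)).1).2,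
      (mem_filter.1 (hQ he)).2⟩
  obtain ⟨e, he⟩ : Q.Nonempty := card_pos.1 (by omega)
  have hc : (Q.image Prod.snd).card = Q.card := card_image_of_injOn fun a ha b hb e =>
    Prod.ext ((hm a ha).2.2.trans (hm b hb).2.2.symm) e
  refine (hm e he).2.1 (mem_filter.2 ⟨(hm e he).1, insert y (Q.image Prod.snd), ?_,
    nul_insert h ?_, ?_, ?_, mem_insert_of_mem (mem_image_of_mem _ he)⟩)
  · intro z hz
    rcases mem_insert.1 hz with rfl | hz
    · rw [← (hm e he).2.2]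
      exact (mem_product.1 (mem_filter.1 (hm e he).1).1).1
    · obtain ⟨a, ha, rfl⟩ := mem_image.1 hz
      exact (mem_product.1 (mem_filter.1 (hm a ha).1).1).2
  · intro z hz
    obtain ⟨a, ha, rfl⟩ := mem_image.1 hz
    rw [← (hm a ha).2.2]
    exact (mem_filter.1 (hm a ha).1).2.2
  · exact hr.trans_le (hc ▸ card_le_card (subset_insert _ _))
  · rw [(hm e he).2.2]
    exact mem_insert_self _ _

theorem good_H (X : Finset (Pt 3)) (r : ℕ) (x : Pt 3) (Q : Finset (Ed 3))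
    (hQ : Q ⊆ atH (GG X \ bad X r) x) (h : Nul (Q.image Prod.fst)) : Q.card ≤ r := by
  by_contra hr
  push Not at hr
  have hm : ∀ e ∈ Q, e ∈ GG X ∧ e ∉ bad X r ∧ e.2 = x := fun e he =>
    ⟨(mem_sdiff.1 (mem_filter.1 (hQ he)).1).1, (mem_sdiff.1 (mem_filter.1 (hQ he)).1).2,
      (mem_filter.1 (hQ he)).2⟩
  obtain ⟨e, he⟩ : Q.Nonempty := card_pos.1 (by omega)
  have hc : (Q.image Prod.fst).card = Q.card := card_image_of_injOn fun a ha b hb e =>
    Prod.ext e ((hm a ha).2.2.trans (hm b hb).2.2.symm)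
  refine (hm e he).2.1 (mem_filter.2 ⟨(hm e he).1, insert x (Q.image Prod.fst), ?_,
    nul_insert h ?_, ?_, mem_insert_of_mem (mem_image_of_mem _ he), ?_⟩)
  · intro z hz
    rcases mem_insert.1 hz with rfl | hz
    · rw [← (hm e he).2.2]
      exact (mem_product.1 (mem_filter.1 (hm e he).1).1).2
    · obtain ⟨a, ha, rfl⟩ := mem_image.1 hz
      exact (mem_product.1 (mem_filter.1 (hm a ha).1).1).1
  · intro z hz
    obtain ⟨a, ha, rfl⟩ := mem_image.1 hz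
    rw [← (hm a ha).2.2, QQ_comm]
    exact (mem_filter.1 (hm a ha).1).2.2
  · exact hr.trans_le (hc ▸ card_le_card (subset_insert _ _))
  · rw [(hm e he).2.2]
    exact mem_insert_self _ _

/-- `η = 1 / 100`, `κ = 1`; `μ` large (`μ ≥ μ₀` of both statements, `μ ≥ 16`,
`μ^(2/3) ≤ ε₀ μ`).  If `|P|² > 2 μ D³` pass to a subset with `n = ⌈√(μ D³)⌉` points
(`n² ≤ 2 μ D³`); `r = ⌊ε₀ n² / D²⌋` (so `r < m` gives `m ≥ ε₀ μ D`), `G = GG X \ bad X r`:
`|G| D ≥ (n² - n)² - 8 η n⁴ ≥ n⁴ / 8`. -/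
theorem bound_3 (h : MainStmt 3) (hR : D3.RIStmt) : Bound 3 := by
  obtain ⟨ε₀, μ₀, hε, h⟩ := h
  obtain ⟨μ₁, hR⟩ := hR (1 / 100) 1 (by norm_num) (by norm_num)
  set μ := max (max μ₀ μ₁) (max 16 (1 / ε₀ ^ 3)) with hμ
  have hμ0 : μ₀ ≤ μ := (le_max_left _ _).trans (le_max_left _ _)
  have hμ1 : μ₁ ≤ μ := (le_max_right _ _).trans (le_max_left _ _)
  have hμ2 : 16 ≤ μ := (le_max_left _ _).trans (le_max_right _ _)
  have hμ3 : 1 / ε₀ ^ 3 ≤ μ := (le_max_right _ _).trans (le_max_right _ _)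
  have hpos : 0 < μ := by linarith
  have hμε : μ ^ ((2 : ℝ) / 3) ≤ ε₀ * μ := by
    refine le_of_pow_le_pow_left₀ (n := 3) (by norm_num) (by positivity) ?_
    rw [← Real.rpow_natCast, ← Real.rpow_mul hpos.le]
    rw [div_le_iff₀ (by positivity)] at hμ3
    have e : (2 : ℝ) / 3 * ((3 : ℕ) : ℝ) = 2 := by norm_num
    rw [e, Real.rpow_two]
    calc μ ^ 2 = 1 * μ ^ 2 := by ring
      _ ≤ (μ * ε₀ ^ 3) * μ ^ 2 := by gcongr
      _ = _ := by ring
  obtain ⟨D₀, hR⟩ := hR μ hμ1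
  refine ⟨2 * μ, max D₀ 1, fun D hD P hP => ?_⟩
  have hD1 : 1 ≤ D := (le_max_right _ _).trans hD
  have hD1' : (1 : ℝ) ≤ D := by exact_mod_cast hD1
  have hD0 : (0 : ℝ) < D := by linarith
  by_contra hcon
  push Not at hcon
  have hD3 : (1 : ℝ) ≤ (D : ℝ) ^ 3 := one_le_pow₀ hD1'
  have hy : 16 ≤ μ * (D : ℝ) ^ 3 := by nlinarith
  set x := √(μ * (D : ℝ) ^ 3) with hx
  have hx2 : x ^ 2 = μ * (D : ℝ) ^ 3 := Real.sq_sqrt (by linarith)
  have hx4 : 4 ≤ x := Real.le_sqrt_of_sq_le (by linarith)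
  set n := ⌈x⌉₊ with hn
  have hn1 : x ≤ n := Nat.le_ceil _
  have hn2 : (n : ℝ) ≤ x + 1 := (Nat.ceil_lt_add_one (by linarith)).le
  have hlo : μ * (D : ℝ) ^ 3 ≤ (n : ℝ) ^ 2 := by
    rw [← hx2]
    gcongr
  have hhi : (n : ℝ) ^ 2 ≤ 2 * μ * (D : ℝ) ^ 3 := by
    have : (n : ℝ) ^ 2 ≤ (x + 1) ^ 2 := by gcongr
    nlinarith
  have hnP : n ≤ P.card := by
    have : (n : ℝ) ≤ P.card :=
      le_of_pow_le_pow_left₀ two_ne_zero (Nat.cast_nonneg _) (hhi.trans hcon.le)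
    exact_mod_cast this
  obtain ⟨Q, hQP, hQ⟩ := exists_subset_card_eq hnP
  have hQD : NDd Q D := hP.mono hQP
  have hX : (XX Q Q).card = n ^ 2 := by rw [card_XX, hQ, sq]
  set r := ⌊ε₀ * (n : ℝ) ^ 2 / (D : ℝ) ^ 2⌋₊ with hr
  have hmain := h (XX Q Q) (GG (XX Q Q) \ bad (XX Q Q) r) D n r hD1 (sep_XX hQD hQD)
    (fun Z hZ hN => hQ ▸ nul_XX hZ hN) hX.ge (sdiff_subset.trans (filter_subset _ _))
    (fun e he => (mem_filter.1 (mem_sdiff.1 he).1).2) (good_T _ r) (good_H _ r)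
    (by
      rw [hX, ← le_div_iff₀ (by positivity)]
      push_cast
      exact Nat.floor_le (by positivity))
    (by
      rw [hX]
      push_cast
      exact le_trans (mul_le_mul_of_nonneg_right hμ0 (by positivity)) hlo)
  obtain ⟨Γ, hΓ, hb⟩ := bad_le Q r
  have h1 : ∀ σ, ∑ g ∈ Γ σ, ((D3.mt Q (Q.image (sg σ)) g).card : ℝ) ^ 2 ≤
      1 / 100 * (n : ℝ) ^ 4 / D := fun σ =>
    hR D ((le_max_left _ _).trans hD) n Q (Q.image (sg σ)) hQD (hQD.sg σ) hQ.le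
      (card_image_le.trans hQ.le) hlo hhi (Γ σ) fun g hg => by
        have h2 : (r : ℝ) + 1 ≤ (D3.mt Q (Q.image (sg σ)) g).card := by
          exact_mod_cast hΓ σ g hg
        have h3 : ε₀ * (n : ℝ) ^ 2 / (D : ℝ) ^ 2 < (r : ℝ) + 1 := Nat.lt_floor_add_one _
        have h4 : ε₀ * μ * D ≤ ε₀ * (n : ℝ) ^ 2 / (D : ℝ) ^ 2 := by
          rw [le_div_iff₀ (by positivity)]
          have := mul_le_mul_of_nonneg_left hlo hε.le
          linarith
        have h5 := mul_le_mul_of_nonneg_right hμε hD0.le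
        linarith
  have h2 : ((bad (XX Q Q) r).card : ℝ) * D ≤ 8 / 100 * (n : ℝ) ^ 4 := by
    rw [← le_div_iff₀ hD0]
    have h3 : ((bad (XX Q Q) r).card : ℝ) ≤
        ∑ σ, ∑ g ∈ Γ σ, ((D3.mt Q (Q.image (sg σ)) g).card : ℝ) ^ 2 := by exact_mod_cast hb
    refine h3.trans ((sum_le_sum fun σ _ => h1 σ).trans (le_of_eq ?_))
    simp only [sum_const, card_univ, Fintype.card_pi, Fintype.card_bool, prod_const,
      Fintype.card_fin, nsmul_eq_mul]
    push_cast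
    ring
  have h3 : ((n : ℝ) ^ 2 - n) ^ 2 ≤ D * (GG (XX Q Q)).card := by
    have h4 := card_GG hQD
    rw [hQ] at h4
    have h5 : n ≤ n ^ 2 := Nat.le_self_pow (by norm_num) n
    exact_mod_cast h4
  have h4 : ((GG (XX Q Q)).card : ℝ) ≤
      (GG (XX Q Q) \ bad (XX Q Q) r).card + (bad (XX Q Q) r).card := by
    exact_mod_cast card_le_card_sdiff_add_card
  rw [hX] at hmain
  push_cast at hmain
  have h5 : (4 : ℝ) ≤ n := hx4.trans hn1
  have h6 : (3 / 4 * (n : ℝ) ^ 2) ^ 2 ≤ ((n : ℝ) ^ 2 - n) ^ 2 := by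
    gcongr
    nlinarith
  have h7 := mul_le_mul_of_nonneg_left h4 hD0.le
  have h8 : (0 : ℝ) ≤ (n : ℝ) ^ 4 := by positivity
  nlinarith

end Crest.Agent.R65.Mn
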