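import Crest.Agent.R65.Mn.Geo

/-! Row 65, main module: dimensions `≥ 4` and the final reduction. -/

set_option autoImplicit false

open Finset Matrix
open scoped Classical

namespace Crest.Agent.R65.Mn

/-- `X = XX P P`, `G = GG X`, `r = n = |P|`; if `n² > μ D^d` with `μ ≥ μ₀`, `μ ≥ 1 / ε₀²`, `μ ≥ 4`
then `n D² ≤ ε₀ n²` (as `d ≥ 4`) and `|G| 8 D ≥ 8 (n² - n)² ≥ n⁴`. -/
theorem bound_ge4 {d : ℕ} (hd : 4 ≤ d) (h : MainStmt d) : Bound d := by
  obtain ⟨ε₀, μ₀, hε, H⟩ := h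
  refine ⟨max (max μ₀ (1 / ε₀ ^ 2)) 4, 1, fun D hD P hP => ?_⟩
  by_contra hcon
  push Not at hcon
  set μ := max (max μ₀ (1 / ε₀ ^ 2)) 4 with hμ
  have hμ0 : μ₀ ≤ μ := (le_max_left _ _).trans (le_max_left _ _)
  have hμ1 : 1 / ε₀ ^ 2 ≤ μ := (le_max_right _ _).trans (le_max_left _ _)
  have hμ4 : 4 ≤ μ := le_max_right _ _
  have hD1 : (1 : ℝ) ≤ D := by exact_mod_cast hD
  have hDd : (D : ℝ) ^ 4 ≤ (D : ℝ) ^ d := pow_le_pow_right₀ hD1 hd
  have hDd1 : (1 : ℝ) ≤ (D : ℝ) ^ d := one_le_pow₀ hD1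
  set n := P.card with hn
  have hn0 : (0 : ℝ) ≤ n := Nat.cast_nonneg _
  have hn2 : (2 : ℝ) < n := by
    by_contra h2
    push Not at h2
    nlinarith
  have hX : (XX P P).card = n * n := card_XX P P
  have hXr : ((XX P P).card : ℝ) = (n : ℝ) ^ 2 := by rw [hX]; push_cast; ring
  have hsub : GG (XX P P) ⊆ XX P P ×ˢ XX P P := Finset.filter_subset _ _
  have key := H (XX P P) (GG (XX P P)) D n n hD (sep_XX hP hP) (fun Z hZ hN => nul_XX hZ hN)
    (by rw [hX, sq]) hsub (fun e he => (Finset.mem_filter.1 he).2) ?_ ?_ ?_ ?_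
  · have h1 := card_GG hP
    have hle : n ≤ n ^ 2 := Nat.le_self_pow two_ne_zero n
    have h2 : ((n : ℝ) ^ 2 - n) ^ 2 ≤ D * ((GG (XX P P)).card : ℝ) := by
      have : (((n ^ 2 - n : ℕ) : ℝ)) ^ 2 ≤ D * ((GG (XX P P)).card : ℝ) := by exact_mod_cast h1
      rwa [Nat.cast_sub hle, Nat.cast_pow] at this
    rw [hXr] at key
    have h3 : (n : ℝ) ^ 2 / 2 ≤ (n : ℝ) ^ 2 - n := by nlinarith
    have h4 : ((n : ℝ) ^ 2 / 2) ^ 2 ≤ ((n : ℝ) ^ 2 - n) ^ 2 :=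
      pow_le_pow_left₀ (by positivity) h3 2
    nlinarith [sq_nonneg ((n : ℝ) ^ 2)]
  · intro y Q hQ hN
    have hinj : Set.InjOn Prod.snd (Q : Set (Ed d)) := by
      intro a ha b hb hab
      have h1 := (Finset.mem_filter.1 (hQ ha)).2
      have h2 := (Finset.mem_filter.1 (hQ hb)).2
      exact Prod.ext (h1.trans h2.symm) hab
    rw [← Finset.card_image_of_injOn hinj]
    refine nul_XX (P₂ := P) ?_ hN
    intro z hz
    obtain ⟨e, he, rfl⟩ := Finset.mem_image.1 hz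
    exact (Finset.mem_product.1 (hsub (Finset.mem_filter.1 (hQ he)).1)).2
  · intro y Q hQ hN
    have hinj : Set.InjOn Prod.fst (Q : Set (Ed d)) := by
      intro a ha b hb hab
      have h1 := (Finset.mem_filter.1 (hQ ha)).2
      have h2 := (Finset.mem_filter.1 (hQ hb)).2
      exact Prod.ext hab (h1.trans h2.symm)
    rw [← Finset.card_image_of_injOn hinj]
    refine nul_XX (P₂ := P) ?_ hN
    intro z hz
    obtain ⟨e, he, rfl⟩ := Finset.mem_image.1 hz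
    exact (Finset.mem_product.1 (hsub (Finset.mem_filter.1 (hQ he)).1)).1
  · rw [hXr]
    have h1 : 1 / ε₀ ^ 2 * (D : ℝ) ^ 4 ≤ (n : ℝ) ^ 2 := by
      calc 1 / ε₀ ^ 2 * (D : ℝ) ^ 4 ≤ μ * (D : ℝ) ^ d :=
            mul_le_mul hμ1 hDd (by positivity) (by linarith)
        _ ≤ _ := hcon.le
    have h2 : ((D : ℝ) ^ 2) ^ 2 ≤ (ε₀ * n) ^ 2 := by
      have := mul_le_mul_of_nonneg_left h1 (sq_nonneg ε₀)
      have e : ε₀ ^ 2 * (1 / ε₀ ^ 2 * (D : ℝ) ^ 4) = ((D : ℝ) ^ 2) ^ 2 := by field_simp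
      rw [e] at this
      nlinarith
    have h3 : (D : ℝ) ^ 2 ≤ ε₀ * n := by
      exact (pow_le_pow_iff_left₀ (by positivity) (by positivity) two_ne_zero).1 h2
    nlinarith
  · rw [hXr]
    exact (mul_le_mul_of_nonneg_right hμ0 (by positivity)).trans hcon.le

/-- For `D` the number of distances (`1 ≤ D`), apply `Bound` with `D' = max D D₀ ≤ (D₀ + 1) D` to
the image of `P` in `Fin d → ℝ` (squared distances `t ^ 2`, `EuclideanSpace.dist_eq` /
`EuclideanSpace.dist_sq_eq`); then `n^(2/d) ≤ (max μ 1)^(1/d) (D₀ + 1) D`. -/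
theorem final_of_bound {d : ℕ} (hd : 3 ≤ d) (h : Bound d) :
    ∃ c : ℝ, 0 < c ∧ ∀ P : Finset (EuclideanSpace ℝ (Fin d)), 2 ≤ P.card →
      c * (P.card : ℝ) ^ ((2 : ℝ) / d) ≤
        ({t : ℝ | ∃ p ∈ P, ∃ q ∈ P, p ≠ q ∧ dist p q = t}.ncard : ℝ) := by
  obtain ⟨μ, D₀, H⟩ := h
  have hd0 : (0 : ℝ) < d := by exact_mod_cast (by omega : 0 < d)
  have hm : (0 : ℝ) < max μ 1 := lt_of_lt_of_le one_pos (le_max_right _ _)
  have hK : (0 : ℝ) < (max μ 1) ^ ((1 : ℝ) / d) * (D₀ + 1) := by positivity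
  refine ⟨1 / ((max μ 1) ^ ((1 : ℝ) / d) * (D₀ + 1)), by positivity, fun P hP => ?_⟩
  set T : Finset ℝ := ((P ×ˢ P).filter fun e => e.1 ≠ e.2).image fun e => dist e.1 e.2 with hT
  have hset : {t : ℝ | ∃ p ∈ P, ∃ q ∈ P, p ≠ q ∧ dist p q = t} = (T : Set ℝ) := by
    ext t
    simp only [hT, Set.mem_setOf_eq, Finset.coe_image, Set.mem_image, Finset.mem_coe,
      Finset.mem_filter, Finset.mem_product, Prod.exists]
    constructor
    · rintro ⟨p, hp, q, hq, hne, rfl⟩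
      exact ⟨p, q, ⟨⟨hp, hq⟩, hne⟩, rfl⟩
    · rintro ⟨p, q, ⟨⟨hp, hq⟩, hne⟩, rfl⟩
      exact ⟨p, hp, q, hq, hne, rfl⟩
  rw [hset, Set.ncard_coe_finset]
  have hT1 : 1 ≤ T.card := by
    obtain ⟨p, hp, q, hq, hne⟩ := Finset.one_lt_card.1 (lt_of_lt_of_le one_lt_two hP)
    exact Finset.card_pos.2 ⟨dist p q, Finset.mem_image.2
      ⟨(p, q), Finset.mem_filter.2 ⟨Finset.mem_product.2 ⟨hp, hq⟩, hne⟩, rfl⟩⟩
  set P' : Finset (Fin d → ℝ) := P.image fun p => p.ofLp with hP'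
  have hcard : P'.card = P.card :=
    Finset.card_image_of_injective _ (WithLp.ofLp_injective 2)
  have hN : NDd P' (max T.card D₀) := by
    refine ⟨T.image fun t => t ^ 2, Finset.card_image_le.trans (le_max_left _ _), ?_⟩
    intro p hp q hq hne
    obtain ⟨p, hp', rfl⟩ := Finset.mem_image.1 hp
    obtain ⟨q, hq', rfl⟩ := Finset.mem_image.1 hq
    have hne' : p ≠ q := fun e => hne (by rw [e])
    refine Finset.mem_image.2 ⟨dist p q, Finset.mem_image.2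
      ⟨(p, q), Finset.mem_filter.2 ⟨Finset.mem_product.2 ⟨hp', hq'⟩, hne'⟩, rfl⟩, ?_⟩
    rw [EuclideanSpace.dist_sq_eq]
    simp only [dotProduct, Pi.sub_apply, Real.dist_eq, sq_abs]
    exact Finset.sum_congr rfl fun i _ => by ring
  have h1 := H _ (le_max_right _ _) P' hN
  rw [hcard] at h1
  have hT1' : (1 : ℝ) ≤ T.card := by exact_mod_cast hT1
  have h2 : ((max T.card D₀ : ℕ) : ℝ) ≤ (D₀ + 1) * T.card := by
    rw [Nat.cast_max]
    have : (0 : ℝ) ≤ D₀ := Nat.cast_nonneg _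
    exact max_le (by nlinarith) (by nlinarith)
  have h3 : (P.card : ℝ) ^ 2 ≤ max μ 1 * ((D₀ + 1) * (T.card : ℝ)) ^ d :=
    h1.trans (mul_le_mul (le_max_left _ _) (pow_le_pow_left₀ (Nat.cast_nonneg _) h2 d)
      (by positivity) hm.le)
  have h4 := Real.rpow_le_rpow (by positivity) h3 (show (0 : ℝ) ≤ 1 / d by positivity)
  have e1 : ((P.card : ℝ) ^ 2) ^ ((1 : ℝ) / d) = (P.card : ℝ) ^ ((2 : ℝ) / d) := by
    rw [← Real.rpow_natCast, ← Real.rpow_mul (Nat.cast_nonneg _)]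
    congr 1
    push_cast
    ring
  have e2 : (((D₀ + 1) * (T.card : ℝ)) ^ d) ^ ((1 : ℝ) / d) = (D₀ + 1) * (T.card : ℝ) := by
    rw [← Real.rpow_natCast, ← Real.rpow_mul (by positivity), mul_one_div_cancel hd0.ne',
      Real.rpow_one]
  rw [e1, Real.mul_rpow hm.le (by positivity), e2] at h4
  rw [one_div_mul_eq_div, div_le_iff₀ hK]
  nlinarith

end Crest.Agent.R65.Mn
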