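import Crest.Agent.R65.Mn.GeoDefs
import Crest.Agent.R65.Mn.Pol

/-! Row 65, main module: from point sets to null graphs. -/

set_option autoImplicit false

open Finset Matrix
open scoped Classical

namespace Crest.Agent.R65.Mn

variable {d : ℕ}

theorem emb_inj : Function.Injective (emb (d := d)) := by
  intro x y h
  have h1 : ∀ i, x.1 i - x.2 i = y.1 i - y.2 i := fun i =>
    Complex.ofReal_injective (congrFun h (Sum.inl i))
  have h2 : ∀ i, x.1 i + x.2 i = y.1 i + y.2 i := fun i =>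
    Complex.ofReal_injective (congrFun h (Sum.inr i))
  refine Prod.ext (funext fun i => ?_) (funext fun i => ?_) <;> linarith [h1 i, h2 i]

theorem QQ_emb (x y : (Fin d → ℝ) × (Fin d → ℝ)) :
    QQ (emb x - emb y) =
      (((x.1 - y.1) ⬝ᵥ (x.1 - y.1) - (x.2 - y.2) ⬝ᵥ (x.2 - y.2) : ℝ) : ℂ) := by
  unfold QQ dotProduct
  rw [← sum_sub_distrib, Complex.ofReal_sum]
  refine sum_congr rfl fun i _ => ?_
  simp only [emb, Pi.sub_apply, Sum.elim_inl, Sum.elim_inr]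
  push_cast
  ring

theorem card_XX (P₁ P₂ : Finset (Fin d → ℝ)) : (XX P₁ P₂).card = P₁.card * P₂.card := by
  rw [XX, card_image_of_injective _ emb_inj, card_product]

theorem NDd.mono {P Q : Finset (Fin d → ℝ)} {D : ℕ} (h : NDd P D) (hQ : Q ⊆ P) : NDd Q D := by
  obtain ⟨T, hT, h⟩ := h
  exact ⟨T, hT, fun p hp q hq => h p (hQ hp) q (hQ hq)⟩

namespace GeoAux

theorem prod_mem {K σ ι κ : Type} [Field K] {pt : ι → σ → K} {q : ι → K} (hq : q ∈ pol 2 pt)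
    (c : κ → K) (T : Finset κ) : (fun y => ∏ t ∈ T, (q y - c t)) ∈ pol (2 * T.card) pt := by
  induction T using Finset.induction_on with
  | empty => simpa using const_mem_pol 0 pt 1
  | insert a s ha ih =>
    have h1 := mul_mem_pol (Submodule.sub_mem _ hq (const_mem_pol 2 pt (c a))) ih
    rw [card_insert_of_notMem ha, show 2 * (s.card + 1) = 2 + 2 * s.card by ring]
    convert h1 using 1
    funext y
    rw [prod_insert ha]
    rfl

/-- a polynomial function of degree `≤ 2 D` that singles out the point `p` in one coordinate -/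
theorem sep' {K ι : Type} [Field K] (f : ℝ →+* K) (pt : ι → Ix d → K)
    (u : (Fin d → ℝ) × (Fin d → ℝ) → ι)
    (hu₁ : ∀ x k, pt (u x) (Sum.inl k) = f (x.1 k - x.2 k))
    (hu₂ : ∀ x k, pt (u x) (Sum.inr k) = f (x.1 k + x.2 k))
    {P : Finset (Fin d → ℝ)} {D : ℕ} (h : NDd P D) {p : Fin d → ℝ} (hp : p ∈ P) (ε : ℝ)
    (π : (Fin d → ℝ) × (Fin d → ℝ) → Fin d → ℝ)
    (hπ : ∀ x k, π x k = ε / 2 * (x.1 k - x.2 k) + 1 / 2 * (x.1 k + x.2 k)) :
    ∃ φ ∈ pol (2 * D) pt, ∀ x, π x ∈ P → (φ (u x) = 0 ↔ π x ≠ p) := by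
  obtain ⟨T, hT, h⟩ := h
  obtain ⟨l, hl, hlv⟩ : ∃ l : Fin d → ι → K, (∀ k, l k ∈ pol 1 pt) ∧
      ∀ k x, l k (u x) = f (π x k - p k) := by
    refine ⟨fun k => f (ε / 2) • (fun y => pt y (Sum.inl k)) +
      f (1 / 2) • (fun y => pt y (Sum.inr k)) - fun _ => f (p k), fun k =>
      Submodule.sub_mem _ (Submodule.add_mem _ (Submodule.smul_mem _ _ (coord_mem_pol _ _))
        (Submodule.smul_mem _ _ (coord_mem_pol _ _))) (const_mem_pol _ _ _), fun k x => ?_⟩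
    rw [hπ, map_sub f, map_add f, map_mul f, map_mul f, ← hu₁, ← hu₂]
    rfl
  have hq : (∑ k, l k * l k) ∈ pol 2 pt :=
    Submodule.sum_mem _ fun k _ => mul_mem_pol (s := 1) (t := 1) (hl k) (hl k)
  have hv : ∀ x, (∑ k, l k * l k) (u x) = f ((π x - p) ⬝ᵥ (π x - p)) := by
    intro x
    refine (Finset.sum_apply _ _ _).trans (Eq.trans ?_ (map_sum f _ _).symm)
    refine sum_congr rfl fun k _ => ?_
    rw [Pi.mul_apply, hlv, ← map_mul f]
    rfl
  refine ⟨_, pol_mono (Nat.mul_le_mul_left 2 (card_erase_le.trans hT)) _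
    (prod_mem hq f (T.erase 0)), fun x hx => ?_⟩
  rw [prod_eq_zero_iff]
  constructor
  · rintro ⟨t, ht, h0⟩ hxp
    rw [hv, hxp, sub_self, dotProduct_zero, sub_eq_zero] at h0
    exact (mem_erase.1 ht).1 (f.injective h0).symm
  · intro hne
    refine ⟨_, mem_erase.2 ⟨?_, h _ hx _ hp hne⟩, by rw [hv, sub_self]⟩
    rwa [Ne, dotProduct_self_eq_zero, sub_eq_zero]

theorem sep {P : Finset (Fin d → ℝ)} {D : ℕ} (h : NDd P D) {p : Fin d → ℝ} (hp : p ∈ P) (ε : ℝ)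
    (π : (Fin d → ℝ) × (Fin d → ℝ) → Fin d → ℝ)
    (hπ : ∀ x k, π x k = ε / 2 * (x.1 k - x.2 k) + 1 / 2 * (x.1 k + x.2 k)) :
    ∃ φ ∈ pol (2 * D) (up (d := d)), ∀ x, π x ∈ P → (φ (emb x) = 0 ↔ π x ≠ p) :=
  sep' ((algebraMap ℂ (LL d)).comp Complex.ofRealHom) up emb (fun _ _ => rfl) (fun _ _ => rfl)
    h hp ε π hπ

end GeoAux

/-- `frk_eq_card_of_sep` with `∏_{t ∈ T₁, t ≠ 0} (|x - p|² - t) ∏_{t ∈ T₂, t ≠ 0} (|x' - p'|² - t)`,
where `x = (a + b) / 2`, `x' = (b - a) / 2` (`mul_mem_pol`, `coord_mem_pol`, `pol_mono`). -/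
theorem sep_XX {P₁ P₂ : Finset (Fin d → ℝ)} {D : ℕ} (h₁ : NDd P₁ D) (h₂ : NDd P₂ D) :
    frk (pol (4 * D) up) (XX P₁ P₂) = (XX P₁ P₂).card := by
  refine frk_eq_card_of_sep _ fun i hi => ?_
  obtain ⟨⟨p, p'⟩, hp, rfl⟩ := mem_image.1 hi
  obtain ⟨φ₁, hφ₁, h₁'⟩ := GeoAux.sep h₁ (mem_product.1 hp).1 1 (fun x => x.1) fun x k => by ring
  obtain ⟨φ₂, hφ₂, h₂'⟩ := GeoAux.sep h₂ (mem_product.1 hp).2 (-1) (fun x => x.2) fun x k => by ring
  refine ⟨φ₁ * φ₂, pol_mono (by omega) _ (mul_mem_pol hφ₁ hφ₂),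
    mul_ne_zero (fun h => (h₁' (p, p') (mem_product.1 hp).1).1 h rfl)
      fun h => (h₂' (p, p') (mem_product.1 hp).2).1 h rfl, fun j hj hne => ?_⟩
  obtain ⟨x, hx, rfl⟩ := mem_image.1 hj
  rw [Pi.mul_apply, mul_eq_zero, h₁' x (mem_product.1 hx).1, h₂' x (mem_product.1 hx).2]
  by_contra hc
  push Not at hc
  exact hne (congrArg emb (Prod.ext hc.1 hc.2))

/-- on a null set the first projection is injective -/
theorem nul_XX {P₁ P₂ : Finset (Fin d → ℝ)} {Z : Finset (Pt d)} (hZ : Z ⊆ XX P₁ P₂) (h : Nul Z) :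
    Z.card ≤ P₁.card := by
  have h1 : Z ⊆ ((P₁ ×ˢ P₂).filter fun x => emb x ∈ Z).image emb := by
    intro z hz
    obtain ⟨x, hx, rfl⟩ := mem_image.1 (hZ hz)
    exact mem_image_of_mem _ (mem_filter.2 ⟨hx, hz⟩)
  refine (card_le_card h1).trans (card_image_le.trans ?_)
  refine card_le_card_of_injOn Prod.fst
    (fun x hx => (mem_product.1 (mem_filter.1 (mem_coe.1 hx)).1).1) fun x hx y hy hxy => ?_
  have h2 := h _ (mem_filter.1 (mem_coe.1 hx)).2 _ (mem_filter.1 (mem_coe.1 hy)).2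
  rw [QQ_emb, hxy, sub_self, dotProduct_zero, zero_sub, Complex.ofReal_eq_zero, neg_eq_zero,
    dotProduct_self_eq_zero, sub_eq_zero] at h2
  exact Prod.ext hxy h2

/-- Cauchy–Schwarz over the `≤ D` distance classes of the `n² - n` ordered pairs `p ≠ q`
(`sq_sum_le_card_mul_sum_sq`); `((p, q), (p', q')) ↦ (emb (p, p'), emb (q, q'))` is injective. -/
theorem card_GG {P : Finset (Fin d → ℝ)} {D : ℕ} (h : NDd P D) :
    (P.card ^ 2 - P.card) ^ 2 ≤ D * (GG (XX P P)).card := by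
  obtain ⟨T, hT, h⟩ := h
  let g : (Fin d → ℝ) × (Fin d → ℝ) → ℝ := fun e => (e.2 - e.1) ⬝ᵥ (e.2 - e.1)
  have hg : ∀ e ∈ P.offDiag, g e ∈ T := fun e he =>
    h _ (mem_offDiag.1 he).2.1 _ (mem_offDiag.1 he).1 (mem_offDiag.1 he).2.2.symm
  let W := (P.offDiag ×ˢ P.offDiag).filter fun w => g w.1 = g w.2
  have h1 : P.card ^ 2 - P.card = ∑ t ∈ T, (P.offDiag.filter fun e => g e = t).card := by
    rw [← card_eq_sum_card_fiberwise fun e he => mem_coe.2 (hg e (mem_coe.1 he)), offDiag_card, sq]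
  have h2 : W.card = ∑ t ∈ T, (P.offDiag.filter fun e => g e = t).card ^ 2 := by
    rw [card_eq_sum_card_fiberwise (f := fun w => g w.1) (s := W) (t := T) fun w hw =>
      mem_coe.2 (hg _ (mem_product.1 (mem_filter.1 (mem_coe.1 hw)).1).1)]
    refine sum_congr rfl fun t _ => ?_
    rw [sq, ← card_product]
    congr 1
    ext w
    simp only [W, mem_filter, mem_product]
    constructor
    · rintro ⟨⟨⟨ha, hb⟩, hc⟩, hd⟩
      exact ⟨⟨ha, hd⟩, hb, hc ▸ hd⟩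
    · rintro ⟨⟨ha, hd⟩, hb, hc⟩
      exact ⟨⟨⟨ha, hb⟩, hd.trans hc.symm⟩, hd⟩
  have h3 : W.card ≤ (GG (XX P P)).card := by
    refine card_le_card_of_injOn (fun w => (emb (w.1.1, w.2.1), emb (w.1.2, w.2.2)))
      (fun w hw => ?_) fun w _ w' _ hw => ?_
    · obtain ⟨hw1, hw2⟩ := mem_filter.1 (mem_coe.1 hw)
      obtain ⟨ha, hb⟩ := mem_product.1 hw1
      rw [mem_offDiag] at ha hb
      refine mem_coe.2 (mem_filter.2 ⟨mem_product.2
        ⟨mem_image_of_mem _ (mem_product.2 ⟨ha.1, hb.1⟩),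
          mem_image_of_mem _ (mem_product.2 ⟨ha.2.1, hb.2.1⟩)⟩,
        fun he => ha.2.2 (congrArg Prod.fst (emb_inj he)), ?_⟩)
      rw [QQ_emb, Complex.ofReal_eq_zero, sub_eq_zero]
      exact hw2
    · have ha := Prod.ext_iff.1 (emb_inj (congrArg Prod.fst hw))
      have hb := Prod.ext_iff.1 (emb_inj (congrArg Prod.snd hw))
      exact Prod.ext (Prod.ext ha.1 hb.1) (Prod.ext ha.2 hb.2)
  rw [h1]
  refine sq_sum_le_card_mul_sum_sq.trans ?_
  rw [← h2]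
  exact Nat.mul_le_mul hT h3

end Crest.Agent.R65.Mn
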