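import Crest.Agent.R65.Mn.TB3
import Crest.Agent.R65.Mn.Geo
import Crest.Agent.R65.D3Defs

/-! Row 65, main module: the vanishing statement used in dimension three. -/

set_option autoImplicit false

open Finset MvPolynomial
open scoped Classical

namespace Crest.Agent.R65.Mn

namespace VanAux

variable {K : Type} [Field K]

/-- the linear substitution -/
noncomputable def sub5 (K : Type) [Field K] : Fin 5 → MvPolynomial (Ix 3) K :=
  ![X (Sum.inl 1), X (Sum.inl 2), X (Sum.inr 2), -X (Sum.inr 1), X (Sum.inr 0)]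

/-- homogenisation -/
noncomputable def hom (E : ℕ) (f : MvPolynomial (Fin 5) K) : MvPolynomial (Ix 3) K :=
  ∑ k ∈ range (E + 1), X (Sum.inl 0) ^ (E - k) * aeval (sub5 K) (homogeneousComponent k f)

theorem hom_homog (E : ℕ) (f : MvPolynomial (Fin 5) K) : (hom E f).IsHomogeneous E := by
  refine IsHomogeneous.sum _ _ _ fun k hk => ?_
  have h1 : (aeval (sub5 K) (homogeneousComponent k f)).IsHomogeneous (1 * k) := by
    refine (homogeneousComponent_isHomogeneous k f).aeval _ fun i => ?_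
    fin_cases i
    · exact isHomogeneous_X _ _
    · exact isHomogeneous_X _ _
    · exact isHomogeneous_X _ _
    · exact (isHomogeneous_X _ _).neg
    · exact isHomogeneous_X _ _
  have h2 := (isHomogeneous_X_pow (R := K) (Sum.inl 0 : Ix 3) (E - k)).mul h1
  have h3 : E - k + 1 * k = E := by
    have := mem_range.1 hk
    omega
  rwa [h3] at h2

theorem sum_comp {E : ℕ} {f : MvPolynomial (Fin 5) K} (hf : f.totalDegree ≤ E) :
    ∑ k ∈ range (E + 1), homogeneousComponent k f = f := by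
  conv_rhs => rw [← sum_homogeneousComponent f]
  symm
  refine Finset.sum_subset (range_subset_range.2 (by omega)) fun k _ hk => ?_
  refine homogeneousComponent_eq_zero _ _ ?_
  simp only [mem_range] at hk
  omega

theorem eval_hom {E : ℕ} {f : MvPolynomial (Fin 5) K} (hf : f.totalDegree ≤ E) (p : Ix 3 → K)
    (hp : p (Sum.inl 0) = 1) :
    eval p (hom E f) =
      eval ![p (Sum.inl 1), p (Sum.inl 2), p (Sum.inr 2), -p (Sum.inr 1), p (Sum.inr 0)] f := by
  have e : (fun k => eval p (sub5 K k)) =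
      ![p (Sum.inl 1), p (Sum.inl 2), p (Sum.inr 2), -p (Sum.inr 1), p (Sum.inr 0)] := by
    funext k
    fin_cases k <;> simp [sub5]
  conv_rhs => rw [← sum_comp hf]
  rw [hom, map_sum, map_sum]
  refine Finset.sum_congr rfl fun k _ => ?_
  rw [map_mul, map_pow, eval_X, hp, one_pow, one_mul, ValAux.eval_aeval, e]

theorem hom_ne [Infinite K] {E : ℕ} {f : MvPolynomial (Fin 5) K} (hf : f.totalDegree ≤ E)
    (h0 : f ≠ 0) : hom E f ≠ 0 := by
  intro h
  refine h0 (MvPolynomial.funext fun q => ?_)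
  have h1 := eval_hom hf (Sum.elim ![1, q 0, q 1] ![q 4, -q 3, q 2]) rfl
  have e : (![Sum.elim ![1, q 0, q 1] ![q 4, -q 3, q 2] (Sum.inl 1 : Ix 3),
      Sum.elim ![1, q 0, q 1] ![q 4, -q 3, q 2] (Sum.inl 2 : Ix 3),
      Sum.elim ![1, q 0, q 1] ![q 4, -q 3, q 2] (Sum.inr 2 : Ix 3),
      -Sum.elim ![1, q 0, q 1] ![q 4, -q 3, q 2] (Sum.inr 1 : Ix 3),
      Sum.elim ![1, q 0, q 1] ![q 4, -q 3, q 2] (Sum.inr 0 : Ix 3)] : Fin 5 → K) = q := by
    funext k
    fin_cases k <;> simp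
  rw [e, h] at h1
  rw [← h1]
  simp

theorem form_zero [Infinite K] {g : MvPolynomial (Fin 3) K} {E : ℕ} (hg : g.IsHomogeneous E)
    (h : ∀ a b : K, eval ![1, a, b] g = 0) : g = 0 := by
  have h1 : X 0 * g = 0 := by
    refine MvPolynomial.funext fun v => ?_
    rw [map_mul, eval_X, map_zero]
    by_cases hv : v 0 = 0
    · rw [hv, zero_mul]
    · have e : v = v 0 • ![1, v 1 / v 0, v 2 / v 0] := by
        funext i
        fin_cases i
        · simp
        · simp [mul_div_cancel₀ _ hv]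
        · simp [mul_div_cancel₀ _ hv]
      have h2 : eval v g = 0 := by
        rw [e, ConeAux.eval_smul hg, h, mul_zero]
      rw [h2, mul_zero]
  exact (mul_eq_zero.1 h1).resolve_left (X_ne_zero 0)

/-- the real structure -/
@[reducible] noncomputable def algR : Algebra ℝ (LL 3) :=
  ((algebraMap ℂ (LL 3)).comp (algebraMap ℝ ℂ)).toAlgebra

/-- the generic axis -/
noncomputable def s0 : Fin 3 → LL 3 := ![SS 3 1 2, -SS 3 0 2, SS 3 0 1]

theorem SS_skew (i j : Fin 3) : SS 3 i j = -SS 3 j i := by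
  unfold SS sk
  rcases lt_trichotomy i j with h | h | h
  · simp [h, not_lt.2 h.le]
  · simp [h]
  · simp [h, not_lt.2 h.le]

theorem SS_diag (i : Fin 3) : SS 3 i i = 0 := by
  simp [SS, sk]

theorem gen : @D3.Gen (LL 3) _ algR s0 := by
  intro c v h
  let A := MvPolynomial (SI 3) ℂ
  have hC : ∀ r : ℝ, @algebraMap ℝ (LL 3) _ _ algR r = algebraMap A (LL 3) (C (r : ℂ)) := fun r =>
    IsScalarTower.algebraMap_apply ℂ A (LL 3) (r : ℂ)
  let p01 : SI 3 := ⟨(0, 1), by decide⟩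
  let p02 : SI 3 := ⟨(0, 2), by decide⟩
  let p12 : SI 3 := ⟨(1, 2), by decide⟩
  have e01 : SS 3 0 1 = algebraMap A (LL 3) (X p01) := rfl
  have e02 : SS 3 0 2 = algebraMap A (LL 3) (X p02) := rfl
  have e12 : SS 3 1 2 = algebraMap A (LL 3) (X p12) := rfl
  have h1 : algebraMap A (LL 3)
      (C (c : ℂ) + (C (v 0 : ℂ) * X p12 - C (v 1 : ℂ) * X p02 + C (v 2 : ℂ) * X p01)) = 0 := by
    rw [← h]
    simp only [dotProduct, Fin.sum_univ_three, D3.up, hC, s0, map_add, map_sub, map_mul, ← e01,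
      ← e02, ← e12, Matrix.cons_val_zero, Matrix.cons_val_one, Matrix.cons_val_two,
      Matrix.head_cons, Matrix.tail_cons]
    ring
  have h2 := (map_eq_zero_iff _ (IsFractionRing.injective A (LL 3))).1 h1
  have h3 : ∀ θ : SI 3 → ℂ, (c : ℂ) + (v 0 * θ p12 - v 1 * θ p02 + v 2 * θ p01) = 0 := fun θ => by
    simpa using congrArg (eval θ) h2
  have hc : (c : ℂ) = 0 := by simpa using h3 0
  have a0 := h3 fun p => if p = p12 then 1 else 0
  have a1 := h3 fun p => if p = p02 then 1 else 0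
  have a2 := h3 fun p => if p = p01 then 1 else 0
  have n1 : p01 ≠ p02 := by decide
  have n2 : p01 ≠ p12 := by decide
  have n3 : p02 ≠ p12 := by decide
  simp only [hc, n1, n2, n3, n1.symm, n2.symm, n3.symm, if_true, if_false] at a0 a1 a2
  refine ⟨by exact_mod_cast hc, ?_⟩
  funext i
  fin_cases i
  · simpa using a0
  · simpa using a1
  · simpa using a2

theorem sec_eq (x : D3.Pt) (a b : LL 3) :
    (![sec (SS 3) (up (emb x)) ![1, a, b] (Sum.inl 1), sec (SS 3) (up (emb x)) ![1, a, b] (Sum.inl 2),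
      sec (SS 3) (up (emb x)) ![1, a, b] (Sum.inr 2), -sec (SS 3) (up (emb x)) ![1, a, b] (Sum.inr 1),
      sec (SS 3) (up (emb x)) ![1, a, b] (Sum.inr 0)] : Fin 5 → LL 3) =
      @D3.secF (LL 3) _ algR s0 x a b := by
  have u1 : ∀ i, @D3.up (LL 3) _ algR (x.1 - x.2) i = up (emb x) (Sum.inl i) := fun i => rfl
  have u2 : ∀ i, @D3.up (LL 3) _ algR (x.1 + x.2) i = up (emb x) (Sum.inr i) := fun i => rfl
  funext k
  fin_cases k <;>
    simp [D3.secF, sec, prj, Fin.sum_univ_three, cross_apply, s0, u1, u2, SS_diag, SS_skew 1 0,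
      SS_skew 2 0, SS_skew 2 1] <;>
    ring

end VanAux

/-- `K = LL 3`, `s0 = ![SS 3 1 2, -SS 3 0 2, SS 3 0 1]` (then `a - s0 × b = a + S b`).  `Gen`: the
variables and `1` are linearly independent.  Given `f` let
`f' = ∑_{k ≤ E} v₀^(E-k) · aeval ![v₁, v₂, ζ₂, -ζ₁, ζ₀] (homogeneousComponent k f)`, a form of degree
`E` (`v_i = X (inl i)`, `ζ_i = X (inr i)`), nonzero (set `v₀ = 1` and invert the renaming).  For
`y = emb x`: `eval (1, w2, w3) (res y f') = eval (secF s0 x w2 w3) f` (`eval_res`), and a form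
vanishing at all `(1, w2, w3)` vanishes at all `v` with `v₀ ≠ 0`, hence is `0`
(`MvPolynomial.funext` for `X 0 * _`).  Apply `tbh` with `s = 4 D` (`sep_XX`, `frk_full_sub`,
`nul_XX`, `emb_inj`). -/
theorem vanStmt (hF : FlatStmt 3) (hK : KLStmt 3) : D3.VanStmt := by
  obtain ⟨C, hC, h⟩ := tbh hF hK
  have : CharZero (LL 3) := algebraRat.charZero _
  refine ⟨LL 3, inferInstance, VanAux.algR, VanAux.s0, 16 * C, ?_, VanAux.gen, ?_⟩
  · have : (1 : ℝ) ≤ C := by exact_mod_cast hC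
    linarith
  intro D n E P₁ P₂ h1 h2 c1 _ hE f hf hd
  set Y := (P₁ ×ˢ P₂).filter fun x => ∀ w2 w3 : LL 3,
    eval (@D3.secF (LL 3) _ VanAux.algR VanAux.s0 x w2 w3) f = 0 with hY
  have hT : Y.image emb ⊆ XX P₁ P₂ := image_subset_image (filter_subset _ _)
  have key := h (Y.image emb) E (4 * D) n (VanAux.hom E f) (VanAux.hom_ne hd hf)
    (VanAux.hom_homog E f) hE (frk_full_sub (sep_XX h1 h2) hT)
    (fun Z hZ hN => (nul_XX (hZ.trans hT) hN).trans c1) (by
      intro y hy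
      obtain ⟨x, hx, rfl⟩ := mem_image.1 hy
      refine VanAux.form_zero (res_homog _ (VanAux.hom_homog E f)) fun a b => ?_
      rw [eval_res, VanAux.eval_hom hd _ rfl, VanAux.sec_eq]
      exact (mem_filter.1 hx).2 a b)
  rw [card_image_of_injective _ emb_inj] at key
  have k2 : (Y.card : ℝ) ≤ C * E * (((E : ℝ) + 4 * D) ^ 2 + n) := by exact_mod_cast key
  refine k2.trans ?_
  have a1 : ((E : ℝ) + 4 * D) ^ 2 + n ≤ 16 * (((E : ℝ) + D) ^ 2 + n) := by
    have : (0 : ℝ) ≤ E := Nat.cast_nonneg _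
    have : (0 : ℝ) ≤ D := Nat.cast_nonneg _
    have : (0 : ℝ) ≤ n := Nat.cast_nonneg _
    nlinarith [mul_nonneg ‹(0 : ℝ) ≤ E› ‹(0 : ℝ) ≤ D›]
  calc (C : ℝ) * E * (((E : ℝ) + 4 * D) ^ 2 + n) ≤ C * E * (16 * (((E : ℝ) + D) ^ 2 + n)) := by
        gcongr
    _ = _ := by ring

end Crest.Agent.R65.Mn
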