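import Crest.Agent.R65.Mn.Main
import Crest.Agent.R65.Mn.Geo2
import Crest.Agent.R65.Mn.Dim3
import Crest.Agent.R65.Mn.Van

/-! Row 65: the theorem from the interface statements. -/

set_option autoImplicit false

namespace Crest.Agent.R65.Mn

theorem final (hF : ∀ d, 3 ≤ d → FlatStmt d) (hK : ∀ d, 3 ≤ d → KLStmt d)
    (hM : ∀ d, 3 ≤ d → MBStmt d) (hR : D3.VanStmt → D3.RIStmt) (d : ℕ) (hd : 3 ≤ d) :
    ∃ c : ℝ, 0 < c ∧ ∀ P : Finset (EuclideanSpace ℝ (Fin d)), 2 ≤ P.card →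
      c * (P.card : ℝ) ^ ((2 : ℝ) / d) ≤
        ({t : ℝ | ∃ p ∈ P, ∃ q ∈ P, p ≠ q ∧ dist p q = t}.ncard : ℝ) := by
  refine final_of_bound hd ?_
  rcases Nat.eq_or_lt_of_le hd with rfl | h4
  · exact bound_3 (mainStmt hd (hF 3 hd) (hK 3 hd) (hM 3 hd)) (hR (vanStmt (hF 3 hd) (hK 3 hd)))
  · exact bound_ge4 h4 (mainStmt hd (hF d hd) (hK d hd) (hM d hd))

end Crest.Agent.R65.Mn
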