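import Crest.Agent.R65.Mn.Dim

/-! Row 65, main module: directions, lines and flags. -/

set_option autoImplicit false

open Finset MvPolynomial
open scoped Classical

namespace Crest.Agent.R65.Mn

variable {d : ℕ}

theorem up_add (x y : Pt d) : up (x + y) = up x + up y := by
  funext k; simp [up]

theorem up_sub (x y : Pt d) : up (x - y) = up x - up y := by
  funext k; simp [up]

theorem up_smul (c : ℂ) (x : Pt d) : up (c • x) = algebraMap ℂ (LL d) c • up x := by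
  funext k; simp [up]

theorem pz_add (x y : Pt d) : pz (x + y) = pz x + pz y := by
  funext i
  simp only [pz, prj, up_add, Pi.add_apply, mul_add, sum_add_distrib]
  ring

theorem pz_smul (c : ℂ) (x : Pt d) : pz (c • x) = algebraMap ℂ (LL d) c • pz x := by
  funext i
  simp only [pz, prj, up_smul, Pi.smul_apply, smul_eq_mul, mul_add, mul_sum]
  congr 1
  exact sum_congr rfl fun j _ => by ring

theorem sk_skew {R : Type} [CommRing R] (θ : SI d → R) (i j : Fin d) : sk θ j i = -sk θ i j := by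
  unfold sk
  rcases lt_trichotomy i j with h | h | h
  · simp [h, h.not_gt]
  · subst h; simp
  · simp [h, h.not_gt]

/-- `b · (a + S b) = a · b` -/
theorem sum_inr_pz (x : Pt d) :
    ∑ j, up x (Sum.inr j) * pz x j = algebraMap ℂ (LL d) (QQ x) := by
  have : CharZero (LL d) := charZero_of_injective_algebraMap (algebraMap ℂ (LL d)).injective
  have h1 : ∑ j, ∑ k, up x (Sum.inr j) * (SS d j k * up x (Sum.inr k)) =
      -∑ j, ∑ k, up x (Sum.inr j) * (SS d j k * up x (Sum.inr k)) := by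
    conv_lhs => rw [sum_comm]
    rw [← sum_neg_distrib]
    refine sum_congr rfl fun j _ => ?_
    rw [← sum_neg_distrib]
    refine sum_congr rfl fun k _ => ?_
    have : SS d k j = -SS d j k := sk_skew _ j k
    rw [this]
    ring
  have h2 : ∑ j, ∑ k, up x (Sum.inr j) * (SS d j k * up x (Sum.inr k)) = 0 :=
    self_eq_neg.1 h1
  simp only [pz, prj, mul_add, sum_add_distrib, mul_sum, h2, add_zero, QQ, map_sum, map_mul]
  exact sum_congr rfl fun j _ => mul_comm _ _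

theorem QQ_smul (c : ℂ) (x : Pt d) : QQ (c • x) = c ^ 2 * QQ x := by
  simp only [QQ, Pi.smul_apply, smul_eq_mul, mul_sum]
  exact sum_congr rfl fun j _ => by ring

theorem QQ_neg (x : Pt d) : QQ (-x) = QQ x := by
  simp [QQ]

theorem tau_dr {τ : Pt d →ₗ[ℂ] ℂ} {e : Ed d} (h : IsEd τ e) : τ (dr τ e) = 1 := by
  rw [dr, map_smul, smul_eq_mul, inv_mul_cancel₀ h.2]

theorem QQ_dr {τ : Pt d →ₗ[ℂ] ℂ} {e : Ed d} (h : IsEd τ e) : QQ (dr τ e) = 0 := by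
  rw [dr, QQ_smul, h.1, mul_zero]

theorem head_eq {τ : Pt d →ₗ[ℂ] ℂ} {e : Ed d} (h : IsEd τ e) :
    e.2 = e.1 + τ (e.2 - e.1) • dr τ e := by
  rw [dr, smul_smul, mul_inv_cancel₀ h.2, one_smul, add_sub_cancel]

theorem dr_swap (τ : Pt d →ₗ[ℂ] ℂ) (e : Ed d) : dr τ e.swap = dr τ e := by
  simp only [dr, Prod.fst_swap, Prod.snd_swap]
  rw [← neg_sub e.2 e.1, map_neg, inv_neg, neg_smul_neg]

theorem IsEd.swap {τ : Pt d →ₗ[ℂ] ℂ} {e : Ed d} (h : IsEd τ e) : IsEd τ e.swap := by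
  refine ⟨?_, ?_⟩
  · rw [Prod.fst_swap, Prod.snd_swap, ← neg_sub e.2 e.1, QQ_neg, h.1]
  · rw [Prod.fst_swap, Prod.snd_swap, ← neg_sub e.2 e.1, map_neg]
    exact neg_ne_zero.2 h.2

theorem FlagAux.foot {τ : Pt d →ₗ[ℂ] ℂ} {e : Ed d} (h : IsEd τ e) :
    e.2 - τ e.2 • dr τ e = e.1 - τ e.1 • dr τ e := by
  have h1 := head_eq h
  rw [map_sub, sub_smul] at h1
  rw [sub_eq_iff_eq_add]
  conv_lhs => rw [h1]
  abel

theorem lin_swap {τ : Pt d →ₗ[ℂ] ℂ} {e : Ed d} (h : IsEd τ e) : lin τ e.swap = lin τ e := by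
  rw [lin, lin, dr_swap, Prod.fst_swap, FlagAux.foot h]

theorem frk_Dir_swap (τ : Pt d →ₗ[ℂ] ℂ) (E : ℕ) (Q : Finset (Ed d)) :
    frk (Dir τ E) (Q.image Prod.swap) = frk (Dir τ E) Q := by
  rw [Dir, ← frk_pol_comp E (fun e => up (dr τ e)) Prod.swap Q]
  simp only [dr_swap]

theorem FlagAux.frk_lin (τ : Pt d →ₗ[ℂ] ℂ) (E : ℕ) (y : Pt d) (Q : Finset (Ed d))
    (hQ : ∀ e ∈ Q, e.1 - τ e.1 • dr τ e = y - τ y • dr τ e) :
    frk (pol E (lin τ)) Q ≤ frk (Dir τ E) Q := by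
  refine frk_pol_subst E (lin τ) (fun e => up (dr τ e)) Q
    (Sum.elim X fun k => C (up y k) - C (algebraMap ℂ (LL d) (τ y)) * X k) ?_ ?_
  · rintro (k | k)
    · exact (totalDegree_X k).le
    · refine (totalDegree_sub _ _).trans (max_le (by simp) ?_)
      refine (totalDegree_mul _ _).trans ?_
      simp
  · rintro e he (k | k)
    · simp [lin]
    · simp only [lin, Sum.elim_inr, hQ e he, up_sub, up_smul]
      simp [Algebra.smul_def]

/-- on edges with a common tail the line is an affine function of the direction (`frk_pol_subst`) -/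
theorem frk_lin_atT (τ : Pt d →ₗ[ℂ] ℂ) (E : ℕ) (y : Pt d) (Q : Finset (Ed d))
    (hQ : ∀ e ∈ Q, e.1 = y) : frk (pol E (lin τ)) Q ≤ frk (Dir τ E) Q := by
  refine FlagAux.frk_lin τ E y Q fun e he => ?_
  rw [hQ e he]

theorem frk_lin_atH (τ : Pt d →ₗ[ℂ] ℂ) (E : ℕ) (x : Pt d) (Q : Finset (Ed d))
    (hQ : ∀ e ∈ Q, IsEd τ e ∧ e.2 = x) : frk (pol E (lin τ)) Q ≤ frk (Dir τ E) Q := by
  refine FlagAux.frk_lin τ E x Q fun e he => ?_
  rw [← (hQ e he).2, FlagAux.foot (hQ e he).1]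

theorem frk_Flg (τ : Pt d →ₗ[ℂ] ℂ) (m k : ℕ) (Q : Finset (Ed d)) :
    frk (Flg τ m k) Q ≤ m * frk (pol k (lin τ)) Q :=
  frk_span_pow _ (fun e : Ed d => algebraMap ℂ (LL d) (τ e.1)) m Q

theorem Flg_mono (τ : Pt d →ₗ[ℂ] ℂ) {m m' k k' : ℕ} (hm : m ≤ m') (hk : k ≤ k') :
    Flg τ m k ≤ Flg τ m' k' := by
  refine Submodule.span_mono ?_
  rintro ψ ⟨i, hi, φ, hφ, rfl⟩
  exact ⟨i, hi.trans_le hm, φ, pol_mono hk _ hφ, rfl⟩

theorem Dir_le_pol_lin (τ : Pt d →ₗ[ℂ] ℂ) (E : ℕ) : Dir τ E ≤ pol E (lin τ) := by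
  intro φ hφ
  obtain ⟨p, hp, rfl⟩ := mem_pol.1 hφ
  refine mem_pol.2 ⟨rename Sum.inl p, (totalDegree_rename_le _ _).trans hp, ?_⟩
  funext e
  rw [eval_rename]
  rfl

theorem pol_lin_le_Flg (τ : Pt d →ₗ[ℂ] ℂ) (k : ℕ) : pol k (lin τ) ≤ Flg τ 1 k := by
  intro φ hφ
  exact Submodule.subset_span ⟨0, Nat.one_pos, φ, hφ, by simp⟩

theorem Flg_mul (τ : Pt d →ₗ[ℂ] ℂ) {m m' k k' : ℕ} {φ ψ : Ed d → LL d}
    (hφ : φ ∈ Flg τ (m + 1) k) (hψ : ψ ∈ Flg τ (m' + 1) k') :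
    φ * ψ ∈ Flg τ (m + m' + 1) (k + k') := by
  have h := Submodule.mul_mem_mul hφ hψ
  rw [Flg, Flg, Submodule.span_mul_span] at h
  refine Submodule.span_mono ?_ h
  rintro _ ⟨_, ⟨i, hi, a, ha, rfl⟩, _, ⟨j, hj, b, hb, rfl⟩, rfl⟩
  refine ⟨i + j, by omega, a * b, mul_mem_pol ha hb, ?_⟩
  funext e
  simp only [Pi.mul_apply]
  ring

theorem Flg_mul_Dir (τ : Pt d →ₗ[ℂ] ℂ) {m k E : ℕ} {φ ψ : Ed d → LL d} (hφ : φ ∈ Flg τ m k)
    (hψ : ψ ∈ Dir τ E) : φ * ψ ∈ Flg τ m (k + E) := by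
  rcases m with _ | m
  · have h0 : φ = 0 := by
      have : Flg τ 0 k = ⊥ := by
        rw [Flg, Submodule.span_eq_bot]
        rintro _ ⟨i, hi, -⟩
        exact absurd hi (Nat.not_lt_zero i)
      rw [this] at hφ
      exact hφ
    rw [h0, zero_mul]
    exact Submodule.zero_mem _
  · exact Flg_mul τ (m' := 0) hφ (pol_lin_le_Flg τ E (Dir_le_pol_lin τ E hψ))

/-- a linear form that does not vanish on finitely many nonzero vectors -/
theorem exists_tau (G : Finset (Ed d)) (h : ∀ e ∈ G, e.1 ≠ e.2 ∧ QQ (e.2 - e.1) = 0) :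
    ∃ τ : Pt d →ₗ[ℂ] ℂ, ∀ e ∈ G, IsEd τ e := by
  obtain ⟨τ, hτ⟩ := Module.exists_dual_forall_apply_ne_zero (K := ℂ)
    (fun e : G => (e : Ed d).2 - (e : Ed d).1) fun e => sub_ne_zero.2 (h e e.2).1.symm
  exact ⟨τ, fun e he => ⟨(h e he).2, hτ ⟨e, he⟩⟩⟩

end Crest.Agent.R65.Mn
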