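import Crest.Agent.R65.Mn.Defs

/-! Row 65, main module: basic properties of `frk` (rank of a function space on a finite set). -/

set_option autoImplicit false

open Finset MvPolynomial
open scoped Classical

namespace Crest.Agent.R65.Mn

variable {K ι : Type} [Field K]

theorem mem_van {W : Submodule K (ι → K)} {Z : Finset ι} {φ : ι → K} :
    φ ∈ van W Z ↔ φ ∈ W ∧ ∀ i ∈ Z, φ i = 0 := Iff.rfl

theorem van_le (W : Submodule K (ι → K)) (Z : Finset ι) : van W Z ≤ W := fun _ h => h.1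

theorem van_anti (W : Submodule K (ι → K)) {Y Z : Finset ι} (h : Y ⊆ Z) : van W Z ≤ van W Y :=
  fun _ hφ => ⟨hφ.1, fun i hi => hφ.2 i (h hi)⟩

theorem van_mono {W W' : Submodule K (ι → K)} (h : W ≤ W') (Z : Finset ι) :
    van W Z ≤ van W' Z := fun _ hφ => ⟨h hφ.1, hφ.2⟩

theorem van_empty (W : Submodule K (ι → K)) : van W ∅ = W := by
  ext φ; simp [mem_van]

namespace FrkAux

theorem det {V A B : Type} [AddCommGroup V] [Module K V] [AddCommGroup A] [Module K A]
    [AddCommGroup B] [Module K B] [Module.Finite K A] (W : Submodule K V) (f : V →ₗ[K] A)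
    (g : V →ₗ[K] B) (h : ∀ φ ∈ W, f φ = 0 → g φ = 0) :
    Module.finrank K (W.map g) ≤ Module.finrank K (W.map f) := by
  obtain ⟨s, hs⟩ := (f.domRestrict W).rangeRestrict.exists_rightInverse_of_surjective
    (LinearMap.range_rangeRestrict _)
  have h1 : W.map g ≤ LinearMap.range (g.domRestrict W ∘ₗ s) := by
    rintro _ ⟨φ, hφ, rfl⟩
    refine ⟨(f.domRestrict W).rangeRestrict ⟨φ, hφ⟩, ?_⟩
    have h2 : f (s ((f.domRestrict W).rangeRestrict ⟨φ, hφ⟩)).1 = f φ :=
      congrArg Subtype.val (LinearMap.congr_fun hs ((f.domRestrict W).rangeRestrict ⟨φ, hφ⟩))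
    have h3 := h _ (W.sub_mem (s ((f.domRestrict W).rangeRestrict ⟨φ, hφ⟩)).2 hφ)
      (by rw [map_sub, h2, sub_self])
    rwa [map_sub, sub_eq_zero] at h3
  refine (Submodule.finrank_mono h1).trans ((LinearMap.finrank_range_le _).trans ?_)
  rw [LinearMap.range_domRestrict]

theorem rn {A B : Type} [AddCommGroup A] [Module K A] [AddCommGroup B] [Module K B]
    [Module.Finite K A] (U : Submodule K A) (p : A →ₗ[K] B) :
    Module.finrank K (U ⊓ LinearMap.ker p : Submodule K A) + Module.finrank K (U.map p) =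
      Module.finrank K U := by
  rw [← (p.domRestrict U).finrank_range_add_finrank_ker, LinearMap.range_domRestrict,
    LinearMap.ker_domRestrict, ← Submodule.map_comap_subtype, Submodule.finrank_map_subtype_eq,
    add_comm]

theorem res_zero {Y : Finset ι} {φ : ι → K} :
    LinearMap.funLeft K K ((↑) : Y → ι) φ = 0 ↔ ∀ i ∈ Y, φ i = 0 :=
  ⟨fun h i hi => congrFun h ⟨i, hi⟩, fun h => funext fun i => h i.1 i.2⟩

theorem le_of_det {W : Submodule K (ι → K)} {Y Z : Finset ι}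
    (h : ∀ φ ∈ van W Z, ∀ i ∈ Y, φ i = 0) : frk W Y ≤ frk W Z :=
  det W _ _ fun φ hφ h0 => res_zero.2 (h φ ⟨hφ, res_zero.1 h0⟩)

end FrkAux

theorem van_van [DecidableEq ι] (W : Submodule K (ι → K)) (Y Z : Finset ι) : van (van W Y) Z = van W (Y ∪ Z) := by
  ext φ
  simp only [mem_van, mem_union, or_imp, forall_and, and_assoc]

theorem frk_le_card (W : Submodule K (ι → K)) (Y : Finset ι) : frk W Y ≤ Y.card := by
  refine (Submodule.finrank_le _).trans ?_
  rw [Module.finrank_fintype_fun_eq_card, Fintype.card_coe]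

theorem frk_empty (W : Submodule K (ι → K)) : frk W ∅ = 0 :=
  Nat.le_zero.1 (frk_le_card W ∅)

theorem frk_mono_left {W W' : Submodule K (ι → K)} (h : W ≤ W') (Y : Finset ι) :
    frk W Y ≤ frk W' Y :=
  Submodule.finrank_mono (Submodule.map_mono h)

/-- general comparison: every function of `W` is on `Y` the pull-back of a function of `W'`.
(The pull-back `(Y.image u → K) → (Y → K)` is linear and the image of `W` lies in the image of the
image of `W'`.) -/
theorem frk_le_image {ι' : Type} [DecidableEq ι'] (u : ι → ι') {W : Submodule K (ι → K)} {W' : Submodule K (ι' → K)}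
    (Y : Finset ι) (h : ∀ φ ∈ W, ∃ ψ ∈ W', ∀ i ∈ Y, φ i = ψ (u i)) :
    frk W Y ≤ frk W' (Y.image u) := by
  refine le_trans (Submodule.finrank_mono ?_) (Submodule.finrank_map_le (LinearMap.funLeft K K
    (fun i : Y => (⟨u i, mem_image_of_mem u i.2⟩ : Y.image u))) _)
  rintro _ ⟨φ, hφ, rfl⟩
  obtain ⟨ψ, hψ, e⟩ := h φ hφ
  exact ⟨_, ⟨ψ, hψ, rfl⟩, funext fun i => (e i.1 i.2).symm⟩

/-- converse comparison (the pull-back `(Y.image u → K) → (Y → K)` is injective). -/
theorem frk_image_le {ι' : Type} [DecidableEq ι'] (u : ι → ι') {W : Submodule K (ι → K)} {W' : Submodule K (ι' → K)}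
    (Y : Finset ι) (h : ∀ ψ ∈ W', ∃ φ ∈ W, ∀ i ∈ Y, φ i = ψ (u i)) :
    frk W' (Y.image u) ≤ frk W Y := by
  have hs : Function.Surjective (fun i : Y => (⟨u i, mem_image_of_mem u i.2⟩ : Y.image u)) := by
    rintro ⟨j, hj⟩
    obtain ⟨i, hi, rfl⟩ := mem_image.1 hj
    exact ⟨⟨i, hi⟩, rfl⟩
  refine le_trans (Submodule.equivMapOfInjective _
    (LinearMap.funLeft_injective_of_surjective K K _ hs) _).finrank_eq.le
    (Submodule.finrank_mono ?_)
  rintro _ ⟨_, ⟨ψ, hψ, rfl⟩, rfl⟩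
  obtain ⟨φ, hφ, e⟩ := h ψ hψ
  exact ⟨φ, hφ, funext fun i => e i.1 i.2⟩

theorem frk_le_of_forall {W W' : Submodule K (ι → K)} (Y : Finset ι)
    (h : ∀ φ ∈ W, ∃ ψ ∈ W', ∀ i ∈ Y, φ i = ψ i) : frk W Y ≤ frk W' Y := by
  refine Submodule.finrank_mono ?_
  rintro _ ⟨φ, hφ, rfl⟩
  obtain ⟨ψ, hψ, e⟩ := h φ hφ
  exact ⟨ψ, hψ, funext fun i => (e i.1 i.2).symm⟩

theorem frk_mono (W : Submodule K (ι → K)) {Y Z : Finset ι} (h : Y ⊆ Z) : frk W Y ≤ frk W Z :=
  FrkAux.le_of_det fun _ hφ i hi => hφ.2 i (h hi)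

/-- kernel identity: rank-nullity for the restriction `W|_{Y ∪ Z} → W|_Z`; its kernel is
`(van W Z)|_{Y ∪ Z} ≅ (van W Z)|_Y`. -/
theorem frk_van [DecidableEq ι] (W : Submodule K (ι → K)) (Y Z : Finset ι) :
    frk (van W Z) Y + frk W Z = frk W (Y ∪ Z) := by
  have e1 : frk (van W Z) Y = frk (van W Z) (Y ∪ Z) :=
    le_antisymm (frk_mono _ subset_union_left) (FrkAux.le_of_det fun φ hφ i hi =>
      (mem_union.1 hi).elim (hφ.2 i) (hφ.1.2 i))
  have h := FrkAux.rn (W.map (LinearMap.funLeft K K ((↑) : (Y ∪ Z : Finset ι) → ι)))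
    (LinearMap.funLeft K K (fun i : Z => (⟨i.1, mem_union_right Y i.2⟩ : (Y ∪ Z : Finset ι))))
  have e2 : W.map (LinearMap.funLeft K K ((↑) : (Y ∪ Z : Finset ι) → ι)) ⊓ LinearMap.ker
      (LinearMap.funLeft K K (fun i : Z => (⟨i.1, mem_union_right Y i.2⟩ : (Y ∪ Z : Finset ι)))) =
      (van W Z).map (LinearMap.funLeft K K ((↑) : (Y ∪ Z : Finset ι) → ι)) := by
    ext ψ
    constructor
    · rintro ⟨⟨φ, hφ, rfl⟩, h0⟩
      exact ⟨φ, ⟨hφ, fun i hi => congrFun (LinearMap.mem_ker.1 h0) ⟨i, hi⟩⟩, rfl⟩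
    · rintro ⟨φ, hφ, rfl⟩
      exact ⟨⟨φ, hφ.1, rfl⟩, LinearMap.mem_ker.2 (funext fun i => hφ.2 i.1 i.2)⟩
  rw [e2, ← Submodule.map_comp] at h
  rw [e1]
  exact h

/-- submodularity (from `frk_van`: compare `van W Z` on `Y` with `van W (Y ∩ Z)` on `Y`). -/
theorem frk_submod [DecidableEq ι] (W : Submodule K (ι → K)) (Y Z : Finset ι) :
    frk W (Y ∪ Z) + frk W (Y ∩ Z) ≤ frk W Y + frk W Z := by
  have h1 := frk_van W Y Z
  have h2 := frk_van W Y (Y ∩ Z)
  rw [union_eq_left.2 inter_subset_left] at h2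
  have h3 := frk_mono_left (van_anti W (inter_subset_right : Y ∩ Z ⊆ Z)) Y
  omega

theorem frk_union_le [DecidableEq ι] (W : Submodule K (ι → K)) (Y Z : Finset ι) :
    frk W (Y ∪ Z) ≤ frk W Y + frk W Z :=
  (Nat.le_add_right _ _).trans (frk_submod W Y Z)

theorem frk_biUnion_le [DecidableEq ι] {κ : Type} (W : Submodule K (ι → K)) (s : Finset κ) (f : κ → Finset ι) :
    frk W (s.biUnion f) ≤ ∑ k ∈ s, frk W (f k) := by
  induction s using Finset.induction_on with
  | empty => rw [biUnion_empty, frk_empty, sum_empty]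
  | insert a s ha ih =>
    rw [biUnion_insert, sum_insert ha]
    exact (frk_union_le W _ _).trans (Nat.add_le_add_left ih _)

theorem frk_eq_zero_iff (W : Submodule K (ι → K)) (Y : Finset ι) :
    frk W Y = 0 ↔ ∀ φ ∈ W, ∀ i ∈ Y, φ i = 0 := by
  unfold frk
  rw [Submodule.finrank_eq_zero, eq_bot_iff, Submodule.map_le_iff_le_comap]
  exact ⟨fun h φ hφ => FrkAux.res_zero.1 (h hφ), fun h φ hφ => FrkAux.res_zero.2 (h φ hφ)⟩

theorem frk_pos {W : Submodule K (ι → K)} {Y : Finset ι} {φ : ι → K} (hφ : φ ∈ W) {i : ι}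
    (hi : i ∈ Y) (h : φ i ≠ 0) : 1 ≤ frk W Y :=
  Nat.one_le_iff_ne_zero.2 fun h0 => h ((frk_eq_zero_iff W Y).1 h0 φ hφ i hi)

/-- if `Z` determines `Y` then the rank on `Y` is at most the rank on `Z`. -/
theorem frk_le_of_det {W : Submodule K (ι → K)} {Y Z : Finset ι}
    (h : ∀ φ ∈ van W Z, ∀ i ∈ Y, φ i = 0) : frk W Y ≤ frk W Z :=
  FrkAux.le_of_det h

/-- imposing one more condition at an undetermined element of `Y` drops the rank on `Y`. -/
theorem frk_van_lt {W : Submodule K (ι → K)} {Y Z : Finset ι} {φ : ι → K} (hφ : φ ∈ W) {i : ι}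
    (hiY : i ∈ Y) (hiZ : i ∈ Z) (h : φ i ≠ 0) : frk (van W Z) Y + 1 ≤ frk W Y := by
  have h1 := frk_van W Y {i}
  rw [union_eq_left.2 (singleton_subset_iff.2 hiY)] at h1
  have h2 := frk_mono_left (van_anti W (singleton_subset_iff.2 hiZ)) Y
  have h3 := frk_pos hφ (mem_singleton_self i) h
  omega

/-- full rank is hereditary -/
theorem frk_full_sub {W : Submodule K (ι → K)} {Y Z : Finset ι} (h : frk W Y = Y.card)
    (hZ : Z ⊆ Y) : frk W Z = Z.card := by
  have h1 := frk_union_le W (Y \ Z) Z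
  rw [sdiff_union_of_subset hZ] at h1
  have h2 := frk_le_card W (Y \ Z)
  have h3 := frk_le_card W Z
  have h4 := card_sdiff_add_card_eq_card hZ
  omega

end Crest.Agent.R65.Mn
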