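import Crest.Agent.R65.Mn.Frk

/-! Row 65, main module: `frk` and linearly independent families. -/

set_option autoImplicit false

open Finset MvPolynomial
open scoped Classical

namespace Crest.Agent.R65.Mn

variable {K ι : Type} [Field K]

theorem frk_map_le {M : Type} [AddCommGroup M] [Module K M] (A : Submodule K M)
    [FiniteDimensional K A] (f : M →ₗ[K] (ι → K)) (Y : Finset ι) :
    frk (A.map f) Y ≤ Module.finrank K A := by
  unfold frk
  rw [← Submodule.map_comp]
  exact Submodule.finrank_map_le _ _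

theorem le_frk_of_li {κ : Type} [Fintype κ] {W : Submodule K (ι → K)} (Y : Finset ι)
    (φ : κ → ι → K) (h : ∀ k, φ k ∈ W)
    (li : ∀ c : κ → K, (∀ i ∈ Y, ∑ k, c k * φ k i = 0) → c = 0) :
    Fintype.card κ ≤ frk W Y := by
  refine LinearIndependent.fintype_card_le_finrank (R := K)
    (b := fun k => (⟨_, Submodule.mem_map_of_mem (h k)⟩ :
      W.map (LinearMap.funLeft K K ((↑) : Y → ι)))) (Fintype.linearIndependent_iff.2 ?_)
  intro c hc
  refine congrFun (li c fun i hi => ?_)
  simpa using congrFun (congrArg Subtype.val hc) ⟨i, hi⟩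

/-- a basis of the restrictions chosen from a spanning set (`exists_linearIndependent`) -/
theorem exists_li_span (A : Set (ι → K)) (Y : Finset ι) :
    ∃ φ : Fin (frk (Submodule.span K A) Y) → ι → K, (∀ k, φ k ∈ A) ∧
      ∀ c : Fin (frk (Submodule.span K A) Y) → K, (∀ i ∈ Y, ∑ k, c k * φ k i = 0) → c = 0 := by
  unfold frk
  rw [Submodule.map_span]
  obtain ⟨f, h1, -, h2⟩ :=
    Submodule.exists_fun_fin_finrank_span_eq K (LinearMap.funLeft K K ((↑) : Y → ι) '' A)
  choose φ hφ e using h1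
  refine ⟨φ, hφ, fun c hc => funext (Fintype.linearIndependent_iff.1 h2 c ?_)⟩
  funext i
  simpa [← e] using hc i i.2

theorem exists_li (W : Submodule K (ι → K)) (Y : Finset ι) :
    ∃ φ : Fin (frk W Y) → ι → K, (∀ k, φ k ∈ W) ∧
      ∀ c : Fin (frk W Y) → K, (∀ i ∈ Y, ∑ k, c k * φ k i = 0) → c = 0 := by
  have := exists_li_span (K := K) (W : Set (ι → K)) Y
  rwa [Submodule.span_eq] at this

/-- full rank from separating functions -/
theorem frk_eq_card_of_sep {W : Submodule K (ι → K)} (Y : Finset ι)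
    (h : ∀ i ∈ Y, ∃ φ ∈ W, φ i ≠ 0 ∧ ∀ j ∈ Y, j ≠ i → φ j = 0) : frk W Y = Y.card := by
  refine le_antisymm (frk_le_card W Y) ?_
  choose φ h1 h2 h3 using h
  rw [← Fintype.card_coe]
  refine le_frk_of_li Y (fun k : Y => φ k k.2) (fun k => h1 k k.2) fun c hc => funext fun k => ?_
  have := hc k k.2
  rw [Finset.sum_eq_single k (fun j _ hj => by
    rw [h3 j j.2 k k.2 fun e => hj (Subtype.ext e).symm, mul_zero]) (by simp)] at this
  exact (mul_eq_zero.1 this).resolve_right (h2 k k.2)

/-- over an infinite field one function of `W` is nonzero at all undetermined points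
(a vector space is not a finite union of proper subspaces). -/
theorem exists_ne_zero_all [Infinite K] {W : Submodule K (ι → K)} (U : Finset ι)
    (h : ∀ i ∈ U, ∃ φ ∈ W, φ i ≠ 0) : ∃ φ ∈ W, ∀ i ∈ U, φ i ≠ 0 := by
  by_contra hc
  push Not at hc
  obtain ⟨i, hi⟩ := Subspace.exists_eq_top_of_iUnion_eq_univ (k := K) (E := W)
    (p := fun i : U => LinearMap.ker ((LinearMap.proj (i : ι)).comp W.subtype))
    (Set.eq_univ_of_forall fun φ => by
      obtain ⟨i, hi, e⟩ := hc φ φ.2
      exact Set.mem_iUnion.2 ⟨⟨i, hi⟩, e⟩)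
  obtain ⟨φ, h1, h2⟩ := h i i.2
  exact h2 (LinearMap.mem_ker.1 (hi ▸ Submodule.mem_top (x := (⟨φ, h1⟩ : W))))

/-- product lemma: multiplication by a function without zero on `U` is injective on `U → K`. -/
theorem frk_mul_le [Infinite K] {W A B : Submodule K (ι → K)} (U : Finset ι)
    (hU : ∀ i ∈ U, ∃ φ ∈ A, φ i ≠ 0) (hmul : ∀ φ ∈ A, ∀ ψ ∈ W, φ * ψ ∈ B) :
    frk W U ≤ frk B U := by
  obtain ⟨φ, h1, h2⟩ := exists_ne_zero_all U hU
  obtain ⟨ψ, h3, h4⟩ := exists_li W U
  have := le_frk_of_li U (fun k => φ * ψ k) (fun k => hmul _ h1 _ (h3 k)) fun c hc =>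
    h4 c fun i hi => (mul_eq_zero.1 (show φ i * ∑ k, c k * ψ k i = 0 by
      rw [← hc i hi, Finset.mul_sum]
      exact Finset.sum_congr rfl fun k _ => mul_left_comm _ _ _)).resolve_left (h2 i hi)
  rwa [Fintype.card_fin] at this

theorem frk_sup_le (W W' : Submodule K (ι → K)) (Y : Finset ι) :
    frk (W ⊔ W') Y ≤ frk W Y + frk W' Y := by
  unfold frk
  rw [Submodule.map_sup]
  exact Submodule.finrank_add_le_finrank_add_finrank _ _

theorem Frk2Aux.frk_mulLeft (W : Submodule K (ι → K)) (u : ι → K) (Y : Finset ι) :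
    frk (W.map (LinearMap.mulLeft K u)) Y ≤ frk W Y := by
  have e : (W.map (LinearMap.mulLeft K u)).map (LinearMap.funLeft K K ((↑) : Y → ι)) =
      (W.map (LinearMap.funLeft K K ((↑) : Y → ι))).map
        (LinearMap.mulLeft K fun i : Y => u i) := by
    rw [← Submodule.map_comp, ← Submodule.map_comp]
    rfl
  unfold frk
  rw [e]
  exact Submodule.finrank_map_le _ _

/-- the span of `t ^ i * φ`, `i < m`, `φ ∈ W`, has rank at most `m` times the rank of `W`. -/
theorem frk_span_pow (W : Submodule K (ι → K)) (t : ι → K) (m : ℕ) (Y : Finset ι) :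
    frk (Submodule.span K {ψ | ∃ i < m, ∃ φ ∈ W, ψ = fun e => t e ^ i * φ e}) Y ≤
      m * frk W Y := by
  induction m with
  | zero => simp [frk]
  | succ m ih =>
    rw [Nat.succ_mul]
    refine le_trans ?_ ((frk_sup_le _ _ Y).trans
      (add_le_add ih (Frk2Aux.frk_mulLeft W (fun e => t e ^ m) Y)))
    refine frk_mono_left (Submodule.span_le.2 ?_) Y
    rintro _ ⟨i, hi, φ, hφ, rfl⟩
    rcases Nat.lt_succ_iff_lt_or_eq.1 hi with hi | rfl
    · exact Submodule.mem_sup_left (Submodule.subset_span ⟨i, hi, φ, hφ, rfl⟩)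
    · exact Submodule.mem_sup_right (Submodule.mem_map_of_mem hφ)

end Crest.Agent.R65.Mn
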