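import Crest.Agent.R65.Mn.Defs

/-! Row 65, main module: point sets of `ℝ^d`. -/

set_option autoImplicit false

open Finset Matrix
open scoped Classical

namespace Crest.Agent.R65.Mn

variable {d : ℕ}

/-- at most `D` distinct (squared) distances -/
def NDd (P : Finset (Fin d → ℝ)) (D : ℕ) : Prop :=
  ∃ T : Finset ℝ, T.card ≤ D ∧ ∀ p ∈ P, ∀ q ∈ P, p ≠ q → (p - q) ⬝ᵥ (p - q) ∈ T

/-- `(p, p') ↦ (a, b) = (p - p', p + p')` -/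
def emb (x : (Fin d → ℝ) × (Fin d → ℝ)) : Pt d :=
  Sum.elim (fun i => ((x.1 i - x.2 i : ℝ) : ℂ)) (fun i => ((x.1 i + x.2 i : ℝ) : ℂ))

noncomputable def XX (P₁ P₂ : Finset (Fin d → ℝ)) : Finset (Pt d) := (P₁ ×ˢ P₂).image emb

/-- all null edges -/
noncomputable def GG (X : Finset (Pt d)) : Finset (Ed d) :=
  (X ×ˢ X).filter fun e => e.1 ≠ e.2 ∧ QQ (e.2 - e.1) = 0

/-- the bound `n² ≤ μ D^d` for large `D` -/
def Bound (d : ℕ) : Prop :=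
  ∃ (μ : ℝ) (D₀ : ℕ), ∀ D : ℕ, D₀ ≤ D → ∀ P : Finset (Fin d → ℝ), NDd P D →
    (P.card : ℝ) ^ 2 ≤ μ * (D : ℝ) ^ d

end Crest.Agent.R65.Mn
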