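import Crest.Agent.R65.Mn.Frk

/-! Row 65, main module: greedy (deterministic) sampling. -/

set_option autoImplicit false

open Finset MvPolynomial
open scoped Classical

namespace Crest.Agent.R65.Mn

/-- Abstract greedy lemma.  Among the `S ⊆ U` with `θ c(S) + c(U) Φ(S) ≤ c(U) Φ(∅)` take one with
minimal `Φ`.  If `∑ γ S u > θ`, some `u ∈ U` has `γ S u > 0` and `θ c u ≤ c(U) γ S u`; then
`insert u S` is admissible with smaller `Φ`. -/
theorem greedy {α : Type} [DecidableEq α] (U : Finset α) (Φ : Finset α → ℝ) (c : α → ℝ) (γ : Finset α → α → ℝ)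
    (θ : ℝ) (hθ : 0 < θ) (hΦ : ∀ S, 0 ≤ Φ S) (hc : ∀ u, 0 ≤ c u) (hγ : ∀ S u, 0 ≤ γ S u)
    (hstep : ∀ S, ∀ u ∈ U, Φ (insert u S) + γ S u ≤ Φ S) :
    ∃ S ⊆ U, ∑ u ∈ U, γ S u ≤ θ ∧ θ * ∑ u ∈ S, c u ≤ Φ ∅ * ∑ u ∈ U, c u := by
  set cU := ∑ u ∈ U, c u with hcU
  have hcU0 : 0 ≤ cU := sum_nonneg fun u _ => hc u
  obtain ⟨S, hS, hmin⟩ := exists_min_image
    (U.powerset.filter fun S => θ * ∑ u ∈ S, c u + cU * Φ S ≤ cU * Φ ∅) Φ
    ⟨∅, by simp⟩
  obtain ⟨hSU, hSa⟩ := mem_filter.mp hS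
  rw [mem_powerset] at hSU
  refine ⟨S, hSU, ?_, by nlinarith [mul_nonneg hcU0 (hΦ S)]⟩
  by_contra hlt
  push Not at hlt
  have hex : ∃ u ∈ U, 0 < γ S u ∧ θ * c u ≤ cU * γ S u := by
    by_contra hno
    push Not at hno
    have hpos : ∃ u ∈ U, 0 < γ S u := by
      by_contra h0
      push Not at h0
      have : ∑ u ∈ U, γ S u ≤ 0 := sum_nonpos h0
      linarith
    obtain ⟨u₀, hu₀, hu₀'⟩ := hpos
    have h1 : ∑ u ∈ U, cU * γ S u < ∑ u ∈ U, θ * c u := by
      refine sum_lt_sum (fun u hu => ?_) ⟨u₀, hu₀, hno u₀ hu₀ hu₀'⟩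
      rcases (hγ S u).lt_or_eq with h | h
      · exact (hno u hu h).le
      · rw [← h, mul_zero]; exact mul_nonneg hθ.le (hc u)
    rw [← mul_sum, ← mul_sum, ← hcU] at h1
    nlinarith
  obtain ⟨u, hu, hu0, hu1⟩ := hex
  have hs := hstep S u hu
  have hsum : ∑ v ∈ insert u S, c v ≤ ∑ v ∈ S, c v + c u := by
    by_cases h : u ∈ S
    · rw [insert_eq_of_mem h]; linarith [hc u]
    · rw [sum_insert h]; linarith
  have hmem : insert u S ∈
      U.powerset.filter fun S => θ * ∑ u ∈ S, c u + cU * Φ S ≤ cU * Φ ∅ := by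
    refine mem_filter.mpr ⟨mem_powerset.mpr (insert_subset hu hSU), ?_⟩
    have e1 := mul_le_mul_of_nonneg_left hsum hθ.le
    have e2 := mul_le_mul_of_nonneg_left hs hcU0
    linarith
  have := hmin _ hmem
  linarith

variable {K α β : Type} [Field K] [DecidableEq α] [DecidableEq β]

theorem GreedyAux.van_insert (W : Submodule K (α × β → K)) (H : Finset (α × β)) (S : Finset α)
    (u : α) : van W (H.filter fun e => e.1 ∈ insert u S) =
      van (van W (H.filter fun e => e.1 ∈ S)) (H.filter fun e => e.1 = u) := by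
  rw [van_van]
  congr 1
  ext e
  simp only [mem_filter, mem_insert, mem_union]
  tauto

/-- Sample of tails that determines most edges.  `greedy` with
`Φ S = ∑ x ∈ V, frk (van W (H at S)) (H at head x)` and `γ S y` = number of undetermined edges with
tail `y` (they have different heads; `frk_van_lt`, `van_van`). -/
theorem sampT (W : Submodule K (α × β → K)) (U : Finset α) (V : Finset β) (H : Finset (α × β))
    (hH : H ⊆ U ×ˢ V) (c : α → ℝ) (hc : ∀ u, 0 ≤ c u) (θ : ℝ) (hθ : 0 < θ) :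
    ∃ S ⊆ U, ((H.filter fun e => ∃ φ ∈ van W (H.filter fun e' => e'.1 ∈ S), φ e ≠ 0).card : ℝ) ≤ θ ∧
      θ * ∑ u ∈ S, c u ≤
        (∑ x ∈ V, (frk W (H.filter fun e => e.2 = x) : ℝ)) * ∑ u ∈ U, c u := by
  obtain ⟨S, hS, h1, h2⟩ := greedy U
    (fun S => ∑ x ∈ V, (frk (van W (H.filter fun e => e.1 ∈ S)) (H.filter fun e => e.2 = x) : ℝ)) c
    (fun S y => (((H.filter fun e => ∃ φ ∈ van W (H.filter fun e' => e'.1 ∈ S), φ e ≠ 0).filter
      fun e => e.1 = y).card : ℝ)) θ hθ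
    (fun S => sum_nonneg fun _ _ => Nat.cast_nonneg _) hc (fun _ _ => Nat.cast_nonneg _)
    (fun S u _ => by
      rw [GreedyAux.van_insert]
      set W' := van W (H.filter fun e => e.1 ∈ S) with hW'
      set B := H.filter fun e => ∃ φ ∈ W', φ e ≠ 0 with hB
      have e1 : (B.filter fun e => e.1 = u).card ≤ (V.filter fun x => (u, x) ∈ B).card := by
        refine card_le_card_of_injOn Prod.snd (fun e he => ?_) (fun e he e' he' h => ?_)
        · obtain ⟨he1, he2⟩ := mem_filter.mp (mem_coe.mp he)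
          refine mem_coe.mpr (mem_filter.mpr ⟨(mem_product.mp (hH (mem_filter.mp he1).1)).2, ?_⟩)
          rw [← he2]; exact he1
        · exact Prod.ext ((mem_filter.mp (mem_coe.mp he)).2.trans
            (mem_filter.mp (mem_coe.mp he')).2.symm) h
      have e2 : ∑ x ∈ V, frk (van W' (H.filter fun e => e.1 = u)) (H.filter fun e => e.2 = x) +
          (V.filter fun x => (u, x) ∈ B).card ≤ ∑ x ∈ V, frk W' (H.filter fun e => e.2 = x) := by
        rw [card_filter, ← sum_add_distrib]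
        refine sum_le_sum fun x _ => ?_
        split_ifs with h
        · obtain ⟨h1, φ, hφ, hφ0⟩ := mem_filter.mp h
          exact frk_van_lt hφ (mem_filter.mpr ⟨h1, rfl⟩) (mem_filter.mpr ⟨h1, rfl⟩) hφ0
        · exact frk_mono_left (van_le _ _) _
      exact_mod_cast (Nat.add_le_add_left e1 _).trans e2)
  refine ⟨S, hS, le_trans (le_of_eq ?_) h1, ?_⟩
  · rw [card_eq_sum_card_fiberwise (f := Prod.fst) (t := U)]
    · push_cast; rfl
    · intro e he
      exact mem_coe.mpr (mem_product.mp (hH (mem_filter.mp (mem_coe.mp he)).1)).1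
  · simpa [van_empty] using h2

/-- most edges have small joint rank: `sampT` with cost `c y = frk W (H at tail y)`, then
`frk_le_of_det` and `frk_biUnion_le`. -/
theorem line_rank (W : Submodule K (α × β → K)) (U : Finset α) (V : Finset β)
    (H : Finset (α × β)) (hH : H ⊆ U ×ˢ V) (θ : ℝ) (hθ : 0 < θ) :
    ∃ H' ⊆ H, (H.card : ℝ) ≤ H'.card + θ ∧
      θ * frk W H' ≤ (∑ y ∈ U, (frk W (H.filter fun e => e.1 = y) : ℝ)) *
        ∑ x ∈ V, (frk W (H.filter fun e => e.2 = x) : ℝ) := by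
  obtain ⟨S, hS, h1, h2⟩ := sampT W U V H hH (fun y => (frk W (H.filter fun e => e.1 = y) : ℝ))
    (fun _ => Nat.cast_nonneg _) θ hθ
  refine ⟨H.filter fun e => ¬ ∃ φ ∈ van W (H.filter fun e' => e'.1 ∈ S), φ e ≠ 0,
    filter_subset _ _, ?_, ?_⟩
  · have := card_filter_add_card_filter_not (s := H)
      (fun e => ∃ φ ∈ van W (H.filter fun e' => e'.1 ∈ S), φ e ≠ 0)
    have e : (H.card : ℝ) = _ := congrArg Nat.cast this.symm
    rw [e]; push_cast; linarith
  · have e1 : frk W (H.filter fun e => ¬ ∃ φ ∈ van W (H.filter fun e' => e'.1 ∈ S), φ e ≠ 0) ≤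
        frk W (H.filter fun e' => e'.1 ∈ S) := by
      refine frk_le_of_det fun φ hφ i hi => ?_
      by_contra h
      exact (mem_filter.mp hi).2 ⟨φ, hφ, h⟩
    have e2 : frk W (H.filter fun e' => e'.1 ∈ S) ≤
        ∑ y ∈ S, frk W (H.filter fun e => e.1 = y) := by
      refine le_trans (frk_mono W ?_) (frk_biUnion_le W S fun y => H.filter fun e => e.1 = y)
      intro e he
      obtain ⟨he1, he2⟩ := mem_filter.mp he
      exact mem_biUnion.mpr ⟨e.1, he2, mem_filter.mpr ⟨he1, rfl⟩⟩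
    have e3 : (frk W (H.filter fun e =>
        ¬ ∃ φ ∈ van W (H.filter fun e' => e'.1 ∈ S), φ e ≠ 0) : ℝ) ≤
        ∑ y ∈ S, (frk W (H.filter fun e => e.1 = y) : ℝ) := by
      exact_mod_cast e1.trans e2
    rw [mul_comm (∑ y ∈ U, _)]
    exact (mul_le_mul_of_nonneg_left e3 hθ.le).trans h2

/-- one sample for all layers: `greedy` with cost `1`,
`Φ S = ∑ j, 2^j frk (van (W j) (H j at S)) (H j)` and `γ S y` = the same sum on `H j` at `y`
(`frk_van`, `van_van`). -/
theorem sampM (J : Finset ℕ) (W : ℕ → Submodule K (α × β → K)) (H : ℕ → Finset (α × β))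
    (U : Finset α) (θ : ℝ) (hθ : 0 < θ) :
    ∃ S ⊆ U, ∑ y ∈ U, ∑ j ∈ J, (2 : ℝ) ^ j *
        (frk (van (W j) ((H j).filter fun e => e.1 ∈ S)) ((H j).filter fun e => e.1 = y) : ℝ) ≤ θ ∧
      θ * S.card ≤ (∑ j ∈ J, (2 : ℝ) ^ j * (frk (W j) (H j) : ℝ)) * U.card := by
  obtain ⟨S, hS, h1, h2⟩ := greedy U
    (fun S => ∑ j ∈ J, (2 : ℝ) ^ j * (frk (van (W j) ((H j).filter fun e => e.1 ∈ S)) (H j) : ℝ))
    (fun _ => 1)
    (fun S y => ∑ j ∈ J, (2 : ℝ) ^ j *
      (frk (van (W j) ((H j).filter fun e => e.1 ∈ S)) ((H j).filter fun e => e.1 = y) : ℝ)) θ hθ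
    (fun S => sum_nonneg fun _ _ => by positivity) (fun _ => zero_le_one)
    (fun _ _ => sum_nonneg fun _ _ => by positivity)
    (fun S u _ => by
      rw [← sum_add_distrib]
      refine sum_le_sum fun j _ => ?_
      rw [← mul_add, GreedyAux.van_insert]
      refine mul_le_mul_of_nonneg_left (le_of_eq ?_) (by positivity)
      have := frk_van (van (W j) ((H j).filter fun e => e.1 ∈ S)) (H j)
        ((H j).filter fun e => e.1 = u)
      rw [union_eq_left.mpr (filter_subset _ _)] at this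
      exact_mod_cast this)
  refine ⟨S, hS, h1, ?_⟩
  simpa [van_empty] using h2

end Crest.Agent.R65.Mn
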