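import Crest.Agent.R65.Mn.Pol

/-! Row 65, main module: layers of a linear matroid. -/

set_option autoImplicit false

open Finset MvPolynomial
open scoped Classical

namespace Crest.Agent.R65.Mn

namespace LayAux

theorem exists_chain {ι : Type} (r : Finset ι → ℕ) (A : Finset ι) :
    ∃ B : ℕ → Finset ι, B 0 = A ∧ (∀ j, B (j + 1) ⊆ B j) ∧ ∀ j, ∀ S ⊆ B j,
      S.card + 2 ^ (j + 1) * r (B (j + 1)) ≤ (B (j + 1)).card + 2 ^ (j + 1) * r S := by
  have h : ∀ (c : ℕ) (B : Finset ι), ∃ B' ⊆ B, ∀ S ⊆ B,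
      S.card + c * r B' ≤ B'.card + c * r S := by
    intro c B
    obtain ⟨B', h1, h2⟩ := Finset.exists_max_image B.powerset
      (fun S => (S.card : ℤ) - c * r S) ⟨∅, by simp⟩
    refine ⟨B', mem_powerset.1 h1, fun S hS => ?_⟩
    have := h2 S (mem_powerset.2 hS)
    zify
    linarith
  choose f hf hf' using h
  exact ⟨fun n => Nat.rec A (fun j B => f (2 ^ (j + 1)) B) n, rfl, fun j => hf _ _,
    fun j => hf' _ _⟩

end LayAux

/-- Layers.  Put `B 0 = A` and let `B (j+1)` maximise `|B| - 2^(j+1) frk W B` among the subsets of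
`B j`.  For `2^j > |A|` one has `B j = ∅` (no loops).  `lay e` = the largest `j` with `e ∈ B j`.
(i) `Q ⊆ B i \ B (i+1)` gives `|Q| ≤ 2^(i+1) (frk (B (i+1) ∪ Q) - frk (B (i+1))) ≤ 2^(i+1) frk Q`;
sum over `i ≤ j`.  (ii) `2^i (frk (B i) - frk (B (i+1))) ≤ |B i \ B (i+1)|` (for `i = 0` by
subadditivity), and `∑_{j<J} 2^j frk (B j) ≤ ∑_i (2^(i+1) - 1)(frk (B i) - frk (B (i+1)))`. -/
theorem exists_lay {K ι : Type} [Field K] (W : Submodule K (ι → K)) (A : Finset ι)
    (h1 : ∀ i ∈ A, ∃ φ ∈ W, φ i ≠ 0) :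
    ∃ lay : ι → ℕ, (∀ (j : ℕ) (Q : Finset ι), Q ⊆ A → (∀ e ∈ Q, lay e ≤ j) →
        Q.card ≤ 2 ^ (j + 2) * frk W Q) ∧
      ∀ J : ℕ, ∑ j ∈ range J, 2 ^ j * frk W (A.filter fun e => j ≤ lay e) ≤ 2 * A.card := by
  obtain ⟨B, h0, hs, hm⟩ := LayAux.exists_chain (frk W) A
  have anti : Antitone B := antitone_nat_of_succ_le hs
  have hA : ∀ j, B j ⊆ A := fun j => h0 ▸ anti (Nat.zero_le j)
  have hB : ∀ j, 2 ^ j * frk W (B j) ≤ (B j).card := by
    intro j
    cases j with
    | zero => simpa using frk_le_card W _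
    | succ j => simpa [frk_empty] using hm j ∅ (empty_subset _)
  have hN : ∀ j, ∀ e ∈ B j, j ≤ A.card := by
    intro j e he
    obtain ⟨φ, hφ, hne⟩ := h1 e (hA j he)
    have a1 := frk_pos hφ he hne
    have a2 := card_le_card (hA j)
    have a3 := Nat.lt_two_pow_self (n := j)
    have a4 := hB j
    nlinarith
  have hl : ∀ j, ∀ e ∈ A, j ≤ Nat.findGreatest (fun j => e ∈ B j) A.card ↔ e ∈ B j := by
    intro j e he
    refine ⟨fun h => anti h ?_, fun h => Nat.le_findGreatest (hN j e h) h⟩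
    exact Nat.findGreatest_spec (P := fun j => e ∈ B j) (Nat.zero_le _) (h0 ▸ he)
  refine ⟨fun e => Nat.findGreatest (fun j => e ∈ B j) A.card, fun j Q hQ hj => ?_, fun J => ?_⟩
  · have key : ∀ j, (Q \ B j).card + 2 * frk W Q ≤ 2 ^ (j + 1) * frk W Q := by
      intro j
      induction j with
      | zero => simp [h0, sdiff_eq_empty_iff_subset.2 hQ]
      | succ j ih =>
        have a1 := hm j (B (j + 1) ∪ (Q ∩ B j) \ B (j + 1))
          (union_subset (hs j) (sdiff_subset.trans inter_subset_right))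
        rw [card_union_of_disjoint disjoint_sdiff] at a1
        have a2 := frk_union_le W (B (j + 1)) ((Q ∩ B j) \ B (j + 1))
        have a3 := frk_mono W
          (sdiff_subset.trans inter_subset_left : (Q ∩ B j) \ B (j + 1) ⊆ Q)
        have a4 : (Q \ B (j + 1)).card ≤ (Q \ B j).card + ((Q ∩ B j) \ B (j + 1)).card := by
          refine le_trans (card_le_card fun e he => ?_) (card_union_le _ _)
          simp only [mem_union, mem_sdiff, mem_inter] at he ⊢
          tauto
        have a5 := Nat.mul_le_mul_left (2 ^ (j + 1)) (a2.trans (Nat.add_le_add_left a3 _))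
        rw [mul_add] at a5
        rw [pow_succ 2 (j + 1), mul_right_comm]
        omega
    have a1 := key (j + 1)
    have a2 : Q \ B (j + 1) = Q := by
      refine sdiff_eq_self_of_disjoint (disjoint_left.2 fun e he he' => ?_)
      have b1 := (hl _ e (hQ he)).2 he'
      exact absurd (b1.trans (hj e he)) (Nat.not_succ_le_self j)
    rw [a2] at a1
    exact (Nat.le_add_right _ _).trans a1
  · have e : ∀ j, (A.filter fun e => j ≤ Nat.findGreatest (fun j => e ∈ B j) A.card) = B j := by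
      intro j
      ext e
      rw [mem_filter]
      exact ⟨fun h => (hl j e h.1).1 h.2, fun h => ⟨hA j h, (hl j e (hA j h)).2 h⟩⟩
    simp only [e]
    have st : ∀ j, (B (j + 1)).card + 2 ^ j * frk W (B j) ≤
        (B j).card + 2 ^ j * frk W (B (j + 1)) := by
      intro j
      cases j with
      | zero =>
        have a1 := frk_union_le W (B 1) (B 0 \ B 1)
        rw [union_sdiff_of_subset (hs 0)] at a1
        have a2 := frk_le_card W (B 0 \ B 1)
        have a3 := card_sdiff_add_card_eq_card (hs 0)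
        simp only [zero_add, pow_zero, one_mul] at a3 ⊢
        omega
      | succ j => exact hm j _ ((hs _).trans (hs _))
    have key : ∀ J, ∑ j ∈ range J, 2 ^ j * frk W (B j) + 2 * (B J).card ≤
        2 * A.card + 2 ^ J * frk W (B J) := by
      intro J
      induction J with
      | zero => simp [h0]
      | succ J ih =>
        have a1 := st J
        rw [sum_range_succ, pow_succ, mul_right_comm]
        omega
    have a1 := key J
    have a2 := hB J
    omega

/-- apply `exists_lay` at every tail -/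
theorem exists_layT {d : ℕ} (τ : Pt d →ₗ[ℂ] ℂ) (E : ℕ) (G : Finset (Ed d)) :
    ∃ lay, LayT τ E G lay := by
  have h := fun y => exists_lay (Dir τ E) (atT G y) fun i _ =>
    ⟨fun _ => 1, const_mem_pol _ _ _, one_ne_zero⟩
  choose f h1 h2 using h
  have hy : ∀ y, ∀ e ∈ atT G y, e.1 = y := fun y e he => (mem_filter.1 he).2
  refine ⟨fun e => f e.1 e, fun y j Q hQ hj => h1 y j Q hQ fun e he => ?_, fun y J => ?_⟩
  · have : f e.1 e ≤ j := hj e he
    rwa [hy y e (hQ he)] at this
  · refine le_trans (le_of_eq (sum_congr rfl fun j _ => ?_)) (h2 y J)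
    rw [filter_congr (q := fun e => j ≤ f y e) fun e he => by simp only [hy y e he]]

theorem LayT.single {d : ℕ} {τ : Pt d →ₗ[ℂ] ℂ} {E : ℕ} {G : Finset (Ed d)} {lay : Ed d → ℕ}
    (h : LayT τ E G lay) (y : Pt d) (j : ℕ) :
    2 ^ j * frk (Dir τ E) ((atT G y).filter fun e => j ≤ lay e) ≤ 2 * (atT G y).card := by
  refine le_trans ?_ (h.2 y (j + 1))
  rw [sum_range_succ]
  exact Nat.le_add_left _ _

/-- shifted sum: the terms with `j + h < 0` contribute `≤ 2^(-h) |A|`, the others `≤ 2 · 2^(-h) |A|` -/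
theorem LayT.shift {d : ℕ} {τ : Pt d →ₗ[ℂ] ℂ} {E : ℕ} {G : Finset (Ed d)} {lay : Ed d → ℕ}
    (hl : LayT τ E G lay) (y : Pt d) (J : ℕ) (h : ℤ) :
    ∑ j ∈ range J, (2 : ℝ) ^ j *
        (frk (Dir τ E) ((atT G y).filter fun e => (j : ℤ) + h ≤ lay e) : ℝ) ≤
      3 * (2 : ℝ) ^ (-h) * (atT G y).card := by
  have h2 : ∀ J, ∑ j ∈ range J, (2 : ℝ) ^ j *
      (frk (Dir τ E) ((atT G y).filter fun e => j ≤ lay e) : ℝ) ≤ 2 * (atT G y).card := by
    intro J
    exact_mod_cast hl.2 y J
  have hc : (0 : ℝ) ≤ (atT G y).card := Nat.cast_nonneg _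
  obtain ⟨n, rfl | rfl⟩ := Int.eq_nat_or_neg h
  · have a1 := h2 (n + J)
    rw [sum_range_add] at a1
    have a2 : (0 : ℝ) ≤ ∑ j ∈ range n, (2 : ℝ) ^ j *
        (frk (Dir τ E) ((atT G y).filter fun e => j ≤ lay e) : ℝ) :=
      sum_nonneg fun j _ => by positivity
    have a3 : ∑ j ∈ range J, (2 : ℝ) ^ (n + j) *
        (frk (Dir τ E) ((atT G y).filter fun e => n + j ≤ lay e) : ℝ) =
        2 ^ n * ∑ j ∈ range J, (2 : ℝ) ^ j *
        (frk (Dir τ E) ((atT G y).filter fun e => (j : ℤ) + n ≤ lay e) : ℝ) := by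
      rw [mul_sum]
      refine sum_congr rfl fun j _ => ?_
      rw [pow_add, mul_assoc, filter_congr (q := fun e => (j : ℤ) + n ≤ lay e)
        fun e _ => by omega]
    have hp : (0 : ℝ) < 2 ^ n := by positivity
    rw [zpow_neg, zpow_natCast, mul_right_comm, ← div_eq_mul_inv, le_div_iff₀ hp]
    linarith
  · refine le_trans (sum_le_sum_of_subset_of_nonneg
      (range_subset_range.2 (Nat.le_add_left J n)) fun j _ _ => by positivity) ?_
    rw [sum_range_add, neg_neg, zpow_natCast]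
    have a1 : ∑ j ∈ range n, (2 : ℝ) ^ j *
        (frk (Dir τ E) ((atT G y).filter fun e => (j : ℤ) + -n ≤ lay e) : ℝ) ≤
        2 ^ n * (atT G y).card := by
      have b1 : ∑ j ∈ range n, (2 : ℝ) ^ j ≤ 2 ^ n := by
        have := Nat.geomSum_lt (le_refl 2) (s := range n) (n := n) fun k hk => mem_range.1 hk
        exact_mod_cast this.le
      refine le_trans ?_ (mul_le_mul_of_nonneg_right b1 hc)
      rw [sum_mul]
      refine sum_le_sum fun j _ => mul_le_mul_of_nonneg_left ?_ (by positivity)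
      exact_mod_cast (frk_le_card _ _).trans (card_filter_le _ _)
    have a2 : ∑ j ∈ range J, (2 : ℝ) ^ (n + j) *
        (frk (Dir τ E) ((atT G y).filter fun e => ((n + j : ℕ) : ℤ) + -n ≤ lay e) : ℝ) =
        2 ^ n * ∑ j ∈ range J, (2 : ℝ) ^ j *
        (frk (Dir τ E) ((atT G y).filter fun e => j ≤ lay e) : ℝ) := by
      rw [mul_sum]
      refine sum_congr rfl fun j _ => ?_
      rw [pow_add, mul_assoc, filter_congr (q := fun e => j ≤ lay e) fun e _ => by omega]
    have a3 := mul_le_mul_of_nonneg_left (h2 J) (by positivity : (0 : ℝ) ≤ 2 ^ n)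
    rw [a2]
    linarith

theorem sum_atT {d : ℕ} {U V : Finset (Pt d)} {G : Finset (Ed d)} (h : G ⊆ U ×ˢ V) :
    ∑ y ∈ U, (atT G y).card = G.card := by
  symm
  exact card_eq_sum_card_fiberwise fun e he => (mem_product.1 (h he)).1

theorem sum_atH {d : ℕ} {U V : Finset (Pt d)} {G : Finset (Ed d)} (h : G ⊆ U ×ˢ V) :
    ∑ x ∈ V, (atH G x).card = G.card := by
  symm
  exact card_eq_sum_card_fiberwise fun e he => (mem_product.1 (h he)).2

theorem atT_swap {d : ℕ} (G : Finset (Ed d)) (x : Pt d) :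
    atT (G.image Prod.swap) x = (atH G x).image Prod.swap := by
  unfold atT atH
  rw [filter_image]
  rfl

theorem atH_swap {d : ℕ} (G : Finset (Ed d)) (y : Pt d) :
    atH (G.image Prod.swap) y = (atT G y).image Prod.swap := by
  unfold atT atH
  rw [filter_image]
  rfl

end Crest.Agent.R65.Mn
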