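import Crest.Agent.R65.Mn.Val
import Crest.Agent.R65.CACov

/-! Row 65, main module: the multiplicity budget from the commutative algebra module. -/

set_option autoImplicit false

open Finset MvPolynomial
open scoped Classical

namespace Crest.Agent.R65.Mn

namespace MBAux

variable {K σ : Type} [Field K]

theorem pderiv_trans (p : σ → K) (i : σ) (g : MvPolynomial σ K) :
    pderiv i (aeval (fun j => X j + C (p j) : σ → MvPolynomial σ K) g) =
      aeval (fun j => X j + C (p j) : σ → MvPolynomial σ K) (pderiv i g) := by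
  induction g using MvPolynomial.induction_on with
  | C a => simp
  | add f g hf hg => simp only [map_add, hf, hg]
  | mul_X f j hf =>
    have e : aeval (fun j => X j + C (p j) : σ → MvPolynomial σ K)
        (pderiv i (X j : MvPolynomial σ K)) = pderiv i (X j : MvPolynomial σ K) := by
      by_cases h : j = i
      · subst h; simp
      · simp [pderiv_X_of_ne h]
    simp only [map_mul, aeval_X, Derivation.leibniz, smul_eq_mul, map_add, hf, e, derivation_C,
      add_zero]

theorem ordGe_pderiv {g : MvPolynomial σ K} {p : σ → K} {m : ℕ} (i : σ) (h : OrdGe g p (m + 1)) :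
    OrdGe (pderiv i g) p m := by
  intro α hα
  rw [← pderiv_trans, coeff_pderiv, h _ (by rw [map_add, Finsupp.degree_single]; omega), zero_mul]

theorem ordGe_pd {g : MvPolynomial σ K} {p : σ → K} (l : List σ) :
    ∀ m : ℕ, OrdGe g p (m + l.length) → OrdGe (CA.pd l g) p m := by
  induction l with
  | nil => exact fun m h => h
  | cons i l ih =>
    intro m h
    exact ordGe_pderiv i (ih (m + 1) (h.mono (by simp only [List.length_cons]; omega)))

end MBAux

/-- `pderiv i` commutes with the translation `X ↦ X + C p`, and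
`coeff α (pderiv i h) = (α i + 1) coeff (α + single i 1) h` (`coeff_pderiv`); induct on the list,
finish with `ordGe_one`. -/
theorem OrdGe.toCA {K σ : Type} [Field K] {g : MvPolynomial σ K} {p : σ → K} {m : ℕ}
    (h : OrdGe g p m) : CA.OrdGe p g m := by
  intro l hl
  exact (ordGe_one _ _).1 (MBAux.ordGe_pd l 1 (h.mono (by omega)))

/-- `CA.finrank_map_le_Hf` -/
theorem frk_le_Hf {K σ : Type} [Field K] [Fintype σ] (I : Ideal (MvPolynomial σ K)) (t : ℕ)
    (Y : Finset (σ → K)) (h : ∀ y ∈ Y, ∀ f ∈ I, eval y f = 0) :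
    frk (pol t id) Y ≤ CA.Hf I t := by
  unfold frk pol
  rw [← Submodule.map_comp]
  refine CA.finrank_map_le_Hf _ I t fun f hf _ => ?_
  funext y
  exact (evs_apply id f y.1).trans (h y.1 y.2 f hf)

/-- `CA.fat_cover (Fin d) 1` with `t := g.totalDegree`, `s := t` (if `g.totalDegree = 0` then `g` is
a nonzero constant and all the filtered sets are empty); cover the filtered set by the zero sets
of the primes (`frk_mono`, `frk_biUnion_le`, `frk_le_Hf`). -/
theorem mbStmt (d : ℕ) : MBStmt d := by
  obtain ⟨C₀, h⟩ := CA.fat_cover (Fin d) 1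
  have : CharZero (LL d) := algebraRat.charZero _
  refine ⟨C₀, fun g t J Z hg ht => ?_⟩
  rcases Nat.eq_zero_or_pos g.totalDegree with h0 | h0
  · refine le_trans (le_of_eq (Finset.sum_eq_zero fun k _ => ?_)) (Nat.zero_le _)
    have e : (Z.filter fun z => OrdGe g z (2 ^ k)) = ∅ := by
      refine filter_eq_empty_iff.2 fun z _ hz => hg ?_
      have h1 := (ordGe_one _ _).1 (hz.mono Nat.one_le_two_pow)
      rw [totalDegree_eq_zero_iff_eq_C.1 h0, eval_C] at h1
      rw [totalDegree_eq_zero_iff_eq_C.1 h0, h1, C_0]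
    rw [e, frk_empty, mul_zero]
  obtain ⟨P, -, hc, hs⟩ := h (LL d) g g.totalDegree t hg le_rfl h0 ht
  have hJ := hs J
  rw [Fintype.card_fin, one_mul] at hJ
  refine le_trans (Finset.sum_le_sum fun k _ => Nat.mul_le_mul_left _ ?_) hJ
  have hsub : (Z.filter fun z => OrdGe g z (2 ^ k)) ⊆
      (P k).biUnion fun p => Z.filter fun z => ∀ f ∈ p, eval z f = 0 := by
    intro z hz
    obtain ⟨p, hp, hz'⟩ := hc k z (mem_filter.1 hz).2.toCA
    exact mem_biUnion.2 ⟨p, hp, mem_filter.2 ⟨(mem_filter.1 hz).1, hz'⟩⟩
  refine (frk_mono _ hsub).trans ((frk_biUnion_le _ _ _).trans (Finset.sum_le_sum fun p _ => ?_))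
  exact frk_le_Hf p t _ fun y hy => (mem_filter.1 hy).2

end Crest.Agent.R65.Mn
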