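import Crest.Agent.R65.Mn.Cone
import Crest.Agent.R65.Mn.DL

/-! Row 65, main module: the per-vertex bound. -/

set_option autoImplicit false

open Finset MvPolynomial
open scoped Classical

namespace Crest.Agent.R65.Mn

/-- `A'` = the edges whose direction lies in no flat of `Exc g`; each of the `≤ Ef` flats contains
`≤ r` directions (`nul_heads`).  `t = (2 R + 2) E`.  For `A_k = A'.filter (ord ≥ 2^k)` and
`Y_k = cone τ t A_k`: `cone_rank` gives `(t - E + 1) frk Dir A_k ≤ frk (pol t up) Y_k`; `KLFor` with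
`s = t`, `F = g` (`exc_smul`, `OrdGe.smul`, `pz_smul`, `ordGe_one`, `IsHomogeneous.totalDegree`)
gives `≤ C frk (pol t pz) Y_k = C frk (pol t id) (Y_k.image pz)` (`frk_pol_image`), and
`Y_k.image pz ⊆ Z.filter (ord ≥ 2^k)` for `Z = (cone τ t A').image pz`; sum with `MBFor` and cancel
`t - E + 1 ≥ t / 2`. -/
theorem pv {d : ℕ} (hd : 2 ≤ d) (hF : FlatStmt d) (hK : KLStmt d) (hM : MBStmt d) :
    ∃ C, PVFor d C := by
  obtain ⟨C₁, R, hR, hK⟩ := hK
  obtain ⟨C₂, hM⟩ := hM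
  refine ⟨C₁ * C₂ * (2 * R + 2) ^ (d - 1), fun τ y A g Ef E r hA hg hh hE hE1 hr => ?_⟩
  have hdeg := hh.totalDegree hg
  obtain ⟨hfin, hcard⟩ := hF g hg
  rw [hdeg, Set.ncard_eq_toFinset_card _ hfin] at hcard
  refine ⟨A.filter fun e => ∀ Φ ∈ Exc g, dr τ e ∉ Φ, filter_subset _ _, ?_, fun J => ?_⟩
  · rw [← card_filter_add_card_filter_not (s := A) fun e => ∀ Φ ∈ Exc g, dr τ e ∉ Φ]
    refine Nat.add_le_add_left ((card_le_card (t := hfin.toFinset.biUnion fun Φ =>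
      A.filter fun e => dr τ e ∈ Φ) fun e he => ?_).trans
      ((card_biUnion_le_card_mul _ _ r fun Φ hΦ => ?_).trans (Nat.mul_le_mul_right _ hcard))) _
    · obtain ⟨h1, h2⟩ := mem_filter.1 he
      by_contra h3
      exact h2 fun Φ hΦ h4 =>
        h3 (mem_biUnion.2 ⟨Φ, hfin.mem_toFinset.2 hΦ, mem_filter.2 ⟨h1, h4⟩⟩)
    · refine hr _ (filter_subset _ _) (nul_heads (τ := τ) (hfin.mem_toFinset.1 hΦ).1 y _
        fun e he => ?_)
      obtain ⟨h1, h2⟩ := mem_filter.1 he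
      exact ⟨(hA e h1).1, (hA e h1).2, h2⟩
  · generalize hA' : (A.filter fun e => ∀ Φ ∈ Exc g, dr τ e ∉ Φ) = A'
    have h0 : ∀ e ∈ A', IsEd τ e ∧ ∀ Φ ∈ Exc g, dr τ e ∉ Φ := fun e he => by
      rw [← hA'] at he
      exact ⟨(hA e (mem_filter.1 he).1).1, (mem_filter.1 he).2⟩
    obtain ⟨t, ht⟩ : ∃ t, t = (2 * R + 2) * E := ⟨_, rfl⟩
    have ht1 : 2 * E ≤ t := ht ▸ Nat.mul_le_mul_right _ (Nat.le_add_left _ _)
    have ht2 : R * (g.totalDegree + 1) ≤ t := by
      rw [hdeg, ht]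
      nlinarith [Nat.mul_le_mul_left R (show Ef + 1 ≤ 2 * E by omega)]
    have key : ∀ k : ℕ, E * frk (Dir τ E) (A'.filter fun e => OrdGe g (pz (dr τ e)) (2 ^ k)) ≤
        C₁ * frk (pol t id) (((cone τ t A').image pz).filter fun z => OrdGe g z (2 ^ k)) := by
      intro k
      generalize hB : (A'.filter fun e => OrdGe g (pz (dr τ e)) (2 ^ k)) = B
      have h1 : ∀ x ∈ cone τ t B, x ∈ cone τ t A' ∧ OrdGe g (pz x) (2 ^ k) ∧
          ∀ Φ ∈ Exc g, x ∉ Φ := fun x hx => by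
        obtain ⟨⟨c, e⟩, hp, rfl⟩ := mem_image.1 hx
        obtain ⟨hc, he⟩ := mem_product.1 hp
        rw [← hB] at he
        obtain ⟨he1, he2⟩ := mem_filter.1 he
        have hc0 : (c : ℂ) ≠ 0 := Nat.cast_ne_zero.2 (Nat.ne_of_gt (mem_Icc.1 hc).1)
        refine ⟨mem_image.2 ⟨(c, e), mem_product.2 ⟨hc, he1⟩, rfl⟩, ?_, fun Φ hΦ hx => ?_⟩
        · rw [pz_smul]
          exact he2.smul hh ((map_ne_zero _).2 hc0)
        · obtain ⟨Ψ, h1, h2⟩ := exc_smul hh hc0 hΦ hx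
          exact (h0 e he1).2 Ψ h1 h2
      have h2 := cone_rank τ B (fun e he => (h0 e (filter_subset _ _ (hB ▸ he))).1)
        (show E ≤ t by omega)
      have h3 := Nat.le_of_mul_le_mul_right (hK g t t (cone τ t B) hg ht2 le_rfl
        (fun x hx => (ordGe_one _ _).1 ((h1 x hx).2.1.mono Nat.one_le_two_pow))
        fun x hx => (h1 x hx).2.2) (pow_pos (by omega) _)
      rw [frk_pol_image t pz] at h3
      refine (Nat.mul_le_mul_right _ (by omega)).trans (h2.trans (h3.trans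
        (Nat.mul_le_mul_left _ (frk_mono _ fun z hz => ?_))))
      obtain ⟨x, hx, rfl⟩ := mem_image.1 hz
      exact mem_filter.2 ⟨mem_image_of_mem _ (h1 x hx).1, (h1 x hx).2.1⟩
    have h4 := hM g t J ((cone τ t A').image pz) hg (by omega)
    refine Nat.le_of_mul_le_mul_left ?_ hE1
    rw [mul_sum]
    refine (sum_le_sum fun k _ => ?_).trans
      ((mul_sum _ _ _).ge.trans ((Nat.mul_le_mul_left C₁ h4).trans (le_of_eq ?_)))
    · rw [mul_left_comm, mul_left_comm C₁]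
      exact Nat.mul_le_mul_left _ (key k)
    · obtain ⟨m, rfl⟩ := Nat.exists_eq_add_of_le' hd
      rw [hdeg, ht, Nat.add_sub_cancel, show m + 2 - 1 = m + 1 from rfl, mul_pow]
      ring

end Crest.Agent.R65.Mn
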