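import Crest.Agent.R65.Mn.ParDefs

/-! Row 65, main module: consequences of extremality. -/

set_option autoImplicit false

open Finset MvPolynomial
open scoped Classical

namespace Crest.Agent.R65.Mn

namespace Par1Aux

variable {N D N₁ N₂ e A : ℝ}

theorem g1 (hA : 0 < A) (h1 : 0 < N₁) (h12 : N₁ ≤ N₂) (h2 : N₂ ≤ N) (he : 0 < e)
    (h : A ^ 8 * N ^ 6 * (N₁ * N₂) ≤ e ^ 8) : A * (N₁ * N₂) ≤ N * e := by
  have h2' : 0 < N₂ := h1.trans_le h12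
  have hN : 0 < N := h2'.trans_le h2
  have h1N : N₁ ≤ N := h12.trans h2
  refine le_of_pow_le_pow_left₀ (n := 8) (by norm_num) (by positivity) ?_
  calc (A * (N₁ * N₂)) ^ 8 = A ^ 8 * (N₁ * N₂) * (N₁ ^ 7 * N₂ ^ 7) := by ring
    _ ≤ A ^ 8 * (N₁ * N₂) * (N ^ 7 * N ^ 7) := by gcongr
    _ = N ^ 8 * (A ^ 8 * N ^ 6 * (N₁ * N₂)) := by ring
    _ ≤ N ^ 8 * e ^ 8 := by gcongr
    _ = (N * e) ^ 8 := by ring

theorem g2 (hA : 0 < A) (h1 : 0 < N₁) (h12 : N₁ ≤ N₂) (h2 : N₂ ≤ N) (he : 0 < e)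
    (h : A ^ 8 * N ^ 6 * (N₁ * N₂) ≤ e ^ 8) : A ^ 2 * (N₁ * N₂) ≤ e ^ 2 := by
  have h2' : 0 < N₂ := h1.trans_le h12
  have hN : 0 < N := h2'.trans_le h2
  have h1N : N₁ ≤ N := h12.trans h2
  refine le_of_pow_le_pow_left₀ (n := 4) (by norm_num) (by positivity) ?_
  calc (A ^ 2 * (N₁ * N₂)) ^ 4 = A ^ 8 * (N₁ * N₂) * (N₁ ^ 3 * N₂ ^ 3) := by ring
    _ ≤ A ^ 8 * (N₁ * N₂) * (N ^ 3 * N ^ 3) := by gcongr
    _ = A ^ 8 * N ^ 6 * (N₁ * N₂) := by ring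
    _ ≤ e ^ 8 := h
    _ = (e ^ 2) ^ 4 := by ring

theorem g3 (hA : 0 < A) (h1 : 0 < N₁) (h12 : N₁ ≤ N₂) (h2 : N₂ ≤ N) (he : 0 < e)
    (h : A ^ 8 * N ^ 6 * (N₁ * N₂) ≤ e ^ 8) : A ^ 3 * (N₁ * N₂ ^ 3) ≤ N * e ^ 3 := by
  have h2' : 0 < N₂ := h1.trans_le h12
  have hN : 0 < N := h2'.trans_le h2
  have h1N : N₁ ≤ N := h12.trans h2
  refine le_of_pow_le_pow_left₀ (n := 8) (by norm_num) (by positivity) ?_
  calc (A ^ 3 * (N₁ * N₂ ^ 3)) ^ 8 = (A ^ 8 * (N₁ * N₂)) ^ 3 * (N₁ ^ 5 * N₂ ^ 21) := by ring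
    _ ≤ (A ^ 8 * (N₁ * N₂)) ^ 3 * (N ^ 5 * N ^ 21) := by gcongr
    _ = N ^ 8 * (A ^ 8 * N ^ 6 * (N₁ * N₂)) ^ 3 := by ring
    _ ≤ N ^ 8 * (e ^ 8) ^ 3 := by gcongr
    _ = (N * e ^ 3) ^ 8 := by ring

theorem g4 (hA : 0 < A) (h1 : 0 < N₁) (h12 : N₁ ≤ N₂) (h2 : N₂ ≤ N) (he : 0 < e)
    (he' : e ≤ N₁ * N₂) (h : A ^ 8 * N ^ 6 * (N₁ * N₂) ≤ e ^ 8) :
    A ^ 8 * N₂ ^ 7 ≤ N * e ^ 7 := by
  have h2' : 0 < N₂ := h1.trans_le h12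
  have hN : 0 < N := h2'.trans_le h2
  have h3 : A ^ 8 * N ^ 6 ≤ e ^ 7 := by
    refine le_of_mul_le_mul_right (a := N₁ * N₂) (h.trans ?_) (by positivity)
    calc e ^ 8 = e ^ 7 * e := by ring
      _ ≤ e ^ 7 * (N₁ * N₂) := by gcongr
  calc A ^ 8 * N₂ ^ 7 ≤ A ^ 8 * N ^ 7 := by gcongr
    _ = N * (A ^ 8 * N ^ 6) := by ring
    _ ≤ N * e ^ 7 := by gcongr

end Par1Aux

open Par1Aux in
/-- `A₀ = N / (8 D) ≥ μ₀ D^(d-1) / 8`; the hypothesis reads `A₀^8 N^6 N₁ N₂ ≤ e^8`.  Compare suitable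
powers (`pow_le_pow_left`, `le_of_pow_le_pow_left₀`, `pow_le_pow_iff_left₀`), with `N₁ ≤ N₂ ≤ N`:
(f1) 8th powers; `A₀² N₁ N₂ ≤ e²` (4th powers), `A₀ N₁ ≤ e`, so f2, f3 from
`s^(d-1) ≤ min δ 1 · A₀`; `A₀² N₁ N₂² ≤ N e²` (4th powers) is f4 and gives f6;
`A₀³ N₁ N₂³ ≤ N e³` (8th powers) gives f5; with `A₂ = e / N₂ ≤ N₁`: `A₀^8 ≤ A₂^7 N`, so
`(n / A₂)^14 ≤ (8 D)^16 / N^7` and `(n s^(d-1) / A₂²)^14 ≤ x^(14(d-1)) 8^32 D^(14 d + 18) / N^21`,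
where `16 ≤ 7 d` and `14 d + 18 ≤ 21 d` (f7, f8). -/
theorem par1 (d : ℕ) (hd : 3 ≤ d) (x δ : ℝ) (hx : 1 ≤ x) (hδ : 0 < δ) :
    ∃ μ₀ : ℝ, 0 < μ₀ ∧ ∀ N D n N₁ N₂ e s : ℝ, 1 ≤ D → 0 ≤ n → n ^ 2 ≤ N → μ₀ * D ^ d ≤ N →
      0 < N₁ → N₁ ≤ N₂ → N₂ ≤ N → 0 < e → e ≤ N₁ * N₂ →
      (N ^ 2 / (8 * D)) ^ 8 * (N₁ * N₂) ≤ e ^ 8 * N ^ 2 → 0 ≤ s → s ≤ x * D →
      Facts d δ N D n N₁ N₂ e s := by
  obtain ⟨k, rfl⟩ : ∃ k, d = k + 1 := ⟨d - 1, by omega⟩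
  obtain ⟨δ', hδ'0, hδ'1, hδ'8⟩ : ∃ δ' : ℝ, 0 < δ' ∧ δ' ≤ 1 ∧ 8 * δ' ≤ δ :=
    ⟨min (δ / 8) 1, lt_min (by positivity) one_pos, min_le_right _ _, by
      have := min_le_left (δ / 8) 1
      linarith⟩
  have hx0 : 0 < x := one_pos.trans_le hx
  obtain ⟨μ₀, hμ1, hμ2, hμ3⟩ : ∃ μ₀ : ℝ, 1 ≤ μ₀ ∧ 8 * x ^ k ≤ δ' * μ₀ ∧
      x ^ (14 * k) * 8 ^ 32 ≤ δ ^ 14 * μ₀ := by
    have a1 : 0 ≤ 8 * x ^ k / δ' := by positivity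
    have a2 : 0 ≤ x ^ (14 * k) * 8 ^ 32 / δ ^ 14 := by positivity
    refine ⟨1 + 8 * x ^ k / δ' + x ^ (14 * k) * 8 ^ 32 / δ ^ 14, by linarith, ?_, ?_⟩
    · rw [← div_le_iff₀' hδ'0]
      linarith
    · rw [← div_le_iff₀' (by positivity)]
      linarith
  have hμ0 : 0 < μ₀ := one_pos.trans_le hμ1
  refine ⟨μ₀, hμ0, fun N D n N₁ N₂ e s hD hn hnN hμ h1 h12 h2 he he' h hs hsx => ?_⟩
  have h2' : 0 < N₂ := h1.trans_le h12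
  have hN : 0 < N := h2'.trans_le h2
  have hD0 : 0 < D := one_pos.trans_le hD
  obtain ⟨A, hA, hAN⟩ : ∃ A : ℝ, 0 < A ∧ N = 8 * D * A :=
    ⟨N / (8 * D), by positivity, by field_simp⟩
  have hh : A ^ 8 * N ^ 6 * (N₁ * N₂) ≤ e ^ 8 := by
    have e1 : N ^ 2 / (8 * D) = N * A := by
      rw [div_eq_iff (by positivity)]
      calc N ^ 2 = N * N := by ring
        _ = N * (8 * D * A) := by rw [← hAN]
        _ = _ := by ring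
    rw [e1] at h
    refine le_of_mul_le_mul_right (a := N ^ 2) (le_of_eq_of_le (by ring) h) (by positivity)
  have k1 := g1 hA h1 h12 h2 he hh
  have k2 := g2 hA h1 h12 h2 he hh
  have k3 := g3 hA h1 h12 h2 he hh
  have k4 := g4 hA h1 h12 h2 he he' hh
  obtain ⟨S, hS⟩ : ∃ S, S = s ^ k := ⟨_, rfl⟩
  have hS0 : 0 ≤ S := hS ▸ pow_nonneg hs _
  have hSx : S ≤ x ^ k * D ^ k := by
    rw [hS, ← mul_pow]
    exact pow_le_pow_left₀ hs hsx _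
  have hSA : S ≤ δ' * A := by
    refine hSx.trans (le_of_mul_le_mul_left (a := 8 * D) ?_ (by positivity))
    calc 8 * D * (x ^ k * D ^ k) = 8 * x ^ k * D ^ (k + 1) := by ring
      _ ≤ δ' * μ₀ * D ^ (k + 1) := by gcongr
      _ = δ' * (μ₀ * D ^ (k + 1)) := by ring
      _ ≤ δ' * N := by gcongr
      _ = 8 * D * (δ' * A) := by rw [hAN]; ring
  have hδ'δ : δ' ≤ δ := by linarith
  have hSA1 : S ≤ A := hSA.trans (mul_le_of_le_one_left hA.le hδ'1)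
  have hSAδ : S ≤ δ * A := hSA.trans (by gcongr)
  have k5 : A * N₁ ≤ e := by
    refine le_of_pow_le_pow_left₀ (n := 2) (by norm_num) he.le (le_trans ?_ k2)
    calc (A * N₁) ^ 2 = A ^ 2 * (N₁ * N₁) := by ring
      _ ≤ A ^ 2 * (N₁ * N₂) := by gcongr
  have k6 : A * (N₁ * N₂ ^ 2) ≤ 8 * D * e ^ 2 := by
    refine le_of_mul_le_mul_left (a := A) ?_ hA
    calc A * (A * (N₁ * N₂ ^ 2)) = A ^ 2 * (N₁ * N₂) * N₂ := by ring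
      _ ≤ e ^ 2 * N := by gcongr
      _ = A * (8 * D * e ^ 2) := by rw [hAN]; ring
  have k7 : N ^ 7 * N₂ ^ 7 ≤ (8 * D) ^ 8 * e ^ 7 := by
    refine le_of_mul_le_mul_left (a := N) ?_ hN
    calc N * (N ^ 7 * N₂ ^ 7) = N ^ 8 * N₂ ^ 7 := by ring
      _ = (8 * D * A) ^ 8 * N₂ ^ 7 := by rw [← hAN]
      _ = (8 * D) ^ 8 * (A ^ 8 * N₂ ^ 7) := by ring
      _ ≤ (8 * D) ^ 8 * (N * e ^ 7) := by gcongr
      _ = _ := by ring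
  have hn14 : n ^ 14 ≤ N ^ 7 := by
    calc n ^ 14 = (n ^ 2) ^ 7 := by ring
      _ ≤ N ^ 7 := by gcongr
  have hpow : ∀ j m : ℕ, j ≠ 0 → m ≤ (k + 1) * j → μ₀ * D ^ m ≤ N ^ j := fun j m hj hm =>
    calc μ₀ * D ^ m ≤ μ₀ ^ j * D ^ ((k + 1) * j) :=
          mul_le_mul (le_self_pow₀ hμ1 hj) (pow_le_pow_right₀ hD hm) (by positivity) (by positivity)
      _ = (μ₀ * D ^ (k + 1)) ^ j := by rw [mul_pow, pow_mul]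
      _ ≤ N ^ j := by gcongr
  have hx14 : (1 : ℝ) ≤ x ^ (14 * k) := one_le_pow₀ hx
  constructor
  · refine le_of_mul_le_mul_left (a := A) (k1.trans_eq ?_) hA
    rw [hAN]; ring
  · rw [Nat.add_sub_cancel, ← hS]
    calc S * N₁ ≤ δ * A * N₁ := by gcongr
      _ = δ * (A * N₁) := by ring
      _ ≤ δ * e := by gcongr
  · rw [Nat.add_sub_cancel, ← hS]
    calc S ^ 2 * (N₁ * N₂) = S * S * (N₁ * N₂) := by ring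
      _ ≤ δ * A * A * (N₁ * N₂) := by gcongr
      _ = δ * (A ^ 2 * (N₁ * N₂)) := by ring
      _ ≤ δ * e ^ 2 := by gcongr
  · calc N₁ * N₂ ^ 2 * N = N₁ * N₂ ^ 2 * (8 * D * A) := by rw [← hAN]
      _ = 8 * D * (A * (N₁ * N₂ ^ 2)) := by ring
      _ ≤ 8 * D * (8 * D * e ^ 2) := by gcongr
      _ = _ := by ring
  · rw [Nat.add_sub_cancel, ← hS]
    refine le_of_mul_le_mul_left (a := A ^ 2) ?_ (by positivity)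
    calc A ^ 2 * (S * N₁ * N₂ ^ 3 * N) ≤ A ^ 2 * (A * N₁ * N₂ ^ 3 * N) := by gcongr
      _ = N * (A ^ 3 * (N₁ * N₂ ^ 3)) := by ring
      _ ≤ N * (N * e ^ 3) := by gcongr
      _ = (8 * D * A) * ((8 * D * A) * e ^ 3) := by rw [← hAN]
      _ = _ := by ring
  · rw [Nat.add_sub_cancel, ← hS]
    calc S * N₁ * N₂ ^ 2 ≤ δ' * A * N₁ * N₂ ^ 2 := by gcongr
      _ = δ' * (A * (N₁ * N₂ ^ 2)) := by ring
      _ ≤ δ' * (8 * D * e ^ 2) := by gcongr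
      _ = 8 * δ' * D * e ^ 2 := by ring
      _ ≤ δ * D * e ^ 2 := by gcongr
  · refine le_of_pow_le_pow_left₀ (n := 14) (by norm_num) (by positivity)
      (le_of_mul_le_mul_left (a := N ^ 7) ?_ (by positivity))
    have a1 : (8 : ℝ) ^ 16 ≤ δ ^ 14 * μ₀ := by
      refine le_trans ?_ hμ3
      calc (8 : ℝ) ^ 16 ≤ 1 * 8 ^ 32 := by norm_num
        _ ≤ x ^ (14 * k) * 8 ^ 32 := by gcongr
    have a2 := hpow 7 16 (by norm_num) (by omega)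
    calc N ^ 7 * (n * N₂) ^ 14 = n ^ 14 * (N ^ 7 * N₂ ^ 14) := by ring
      _ ≤ N ^ 7 * (N ^ 7 * N₂ ^ 14) := by gcongr
      _ = (N ^ 7 * N₂ ^ 7) ^ 2 := by ring
      _ ≤ ((8 * D) ^ 8 * e ^ 7) ^ 2 := by gcongr
      _ = 8 ^ 16 * D ^ 16 * e ^ 14 := by ring
      _ ≤ δ ^ 14 * μ₀ * D ^ 16 * e ^ 14 := by gcongr
      _ = δ ^ 14 * (μ₀ * D ^ 16) * e ^ 14 := by ring
      _ ≤ δ ^ 14 * N ^ 7 * e ^ 14 := by gcongr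
      _ = _ := by ring
  · rw [Nat.add_sub_cancel, ← hS]
    refine le_of_pow_le_pow_left₀ (n := 14) (by norm_num) (by positivity)
      (le_of_mul_le_mul_left (a := N ^ 21) ?_ (by positivity))
    have a2 := hpow 21 (14 * k + 32) (by norm_num) (by omega)
    calc N ^ 21 * (n * S * N₂ ^ 2) ^ 14 = n ^ 14 * S ^ 14 * (N ^ 21 * N₂ ^ 28) := by ring
      _ ≤ N ^ 7 * (x ^ k * D ^ k) ^ 14 * (N ^ 21 * N₂ ^ 28) := by gcongr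
      _ = (x ^ k * D ^ k) ^ 14 * (N ^ 7 * N₂ ^ 7) ^ 4 := by ring
      _ ≤ (x ^ k * D ^ k) ^ 14 * ((8 * D) ^ 8 * e ^ 7) ^ 4 := by gcongr
      _ = x ^ (14 * k) * 8 ^ 32 * D ^ (14 * k + 32) * e ^ 28 := by ring
      _ ≤ δ ^ 14 * μ₀ * D ^ (14 * k + 32) * e ^ 28 := by gcongr
      _ = δ ^ 14 * (μ₀ * D ^ (14 * k + 32)) * e ^ 28 := by ring
      _ ≤ δ ^ 14 * N ^ 21 * e ^ 28 := by gcongr
      _ = _ := by ring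

end Crest.Agent.R65.Mn
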