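import Crest.Agent.R65.Mn.ParDefs

/-! Row 65, main module: choice of the parameters. -/

set_option autoImplicit false

open Finset MvPolynomial
open scoped Classical

namespace Crest.Agent.R65.Mn

namespace Par2Aux

theorem ex_lo {Q : ℝ} (hQ : 0 < Q) : ∃ j : ℤ, (2 : ℝ) ^ j ≤ Q ∧ (2 : ℝ) ^ (-j) ≤ 2 / Q := by
  obtain ⟨j, h1, h2⟩ := exists_mem_Ico_zpow hQ (one_lt_two (α := ℝ))
  refine ⟨j, h1, ?_⟩
  have hp : (0 : ℝ) < 2 ^ j := by positivity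
  rw [zpow_add₀ two_ne_zero, zpow_one] at h2
  rw [zpow_neg, inv_eq_one_div, div_le_div_iff₀ hp hQ]
  linarith

theorem ex_hi {Q : ℝ} (hQ : 0 < Q) : ∃ j : ℤ, (2 : ℝ) ^ (-j) ≤ 1 / Q ∧ (2 : ℝ) ^ j ≤ 2 * Q := by
  obtain ⟨j, h1, h2⟩ := exists_mem_Ioc_zpow hQ (one_lt_two (α := ℝ))
  refine ⟨j + 1, ?_, ?_⟩
  · rw [zpow_neg, inv_eq_one_div]
    exact one_div_le_one_div_of_le hQ h2
  · rw [zpow_add₀ two_ne_zero, zpow_one]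
    linarith

theorem ex_nat (Q : ℝ) :
    ∃ i : ℕ, Q ≤ 2 ^ i ∧ (i = 0 ∨ (2 : ℝ) ^ ((i : ℤ) - 1) ≤ Q) := by
  have hex : ∃ i : ℕ, Q ≤ 2 ^ i := by
    obtain ⟨i, hi⟩ := pow_unbounded_of_one_lt Q (one_lt_two (α := ℝ))
    exact ⟨i, hi.le⟩
  refine ⟨Nat.find hex, Nat.find_spec hex, ?_⟩
  rcases Nat.eq_zero_or_pos (Nat.find hex) with h | h
  · exact Or.inl h
  · right
    have h1 := Nat.find_min hex (Nat.sub_one_lt_of_lt h)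
    have h2 : ((Nat.find hex : ℕ) : ℤ) - 1 = ((Nat.find hex - 1 : ℕ) : ℤ) := by omega
    rw [h2, zpow_natCast]
    exact (not_le.1 h1).le

theorem ceil_two {a : ℝ} (ha : 1 ≤ a) : a ≤ (⌈a⌉₊ : ℝ) ∧ (⌈a⌉₊ : ℝ) ≤ 2 * a :=
  ⟨Nat.le_ceil a, by have := Nat.ceil_lt_add_one (show 0 ≤ a by linarith); linarith⟩

theorem pow_split {d : ℕ} (hd : 3 ≤ d) (E : ℝ) :
    E ^ d = E * E ^ (d - 1) ∧ E * E ^ (d - 2) = E ^ (d - 1) := by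
  obtain ⟨k, rfl⟩ : ∃ k, d = k + 2 := ⟨d - 2, by omega⟩
  refine ⟨?_, ?_⟩
  · rw [show k + 2 - 1 = k + 1 by omega]; ring
  · rw [show k + 2 - 1 = k + 1 by omega, show k + 2 - 2 = k by omega]; ring

theorem okV {d : ℕ} (hd : 3 ≤ d) {Ct σ N n s Ef E : ℝ} (hEf : 0 ≤ Ef) (hE : Ef ≤ E) (hs : 0 ≤ s)
    (hn : 0 ≤ n) (hCt : 0 ≤ Ct) (h1 : Ct * σ ≤ Ef * Ef ^ (d - 1))
    (ha : Ct * E * n ≤ N / 10 ^ 16 / 2) (hc : E * s ^ (d - 1) ≤ N / 10 ^ 16 / 2) :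
    Ok d Ct σ N n s Ef := by
  have hB : 0 ≤ Ef ^ (d - 1) := by positivity
  have hS : 0 ≤ s ^ (d - 1) := by positivity
  refine ⟨by rw [(pow_split hd Ef).1]; exact h1, ?_⟩
  have e1 : Ct * Ef * n ≤ N / 10 ^ 16 / 2 :=
    le_trans (mul_le_mul_of_nonneg_right (mul_le_mul_of_nonneg_left hE hCt) hn) ha
  have e2 : Ef * s ^ (d - 1) ≤ N / 10 ^ 16 / 2 := le_trans (mul_le_mul_of_nonneg_right hE hS) hc
  have e3 := mul_le_mul_of_nonneg_right h1 hS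
  have e4 := mul_le_mul_of_nonneg_right e1 hB
  have e5 := mul_le_mul_of_nonneg_right e2 hB
  calc Ct * (Ef * n * Ef ^ (d - 1) + σ * s ^ (d - 1))
      = Ct * Ef * n * Ef ^ (d - 1) + Ct * σ * s ^ (d - 1) := by ring
    _ ≤ N / 10 ^ 16 / 2 * Ef ^ (d - 1) + Ef * s ^ (d - 1) * Ef ^ (d - 1) := by
        have : Ef * Ef ^ (d - 1) * s ^ (d - 1) = Ef * s ^ (d - 1) * Ef ^ (d - 1) := by ring
        linarith
    _ ≤ N * Ef ^ (d - 1) / 10 ^ 16 := by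
        have : N * Ef ^ (d - 1) / 10 ^ 16 =
          N / 10 ^ 16 / 2 * Ef ^ (d - 1) + N / 10 ^ 16 / 2 * Ef ^ (d - 1) := by ring
        linarith

theorem vx_of {d : ℕ} (hd : 3 ≤ d) {Cs N e r E : ℝ} {j : ℤ} (hCs : 0 < Cs) (hN : 0 < N)
    (hE : 0 < E) (hj : (2 : ℝ) ^ j ≤ e / N / (200 * Cs * E ^ (d - 1)))
    (hb : E * r * N ≤ e / 200) : Vx d Cs N e r E E j := by
  unfold Vx
  have hB : 0 < E ^ (d - 1) := by positivity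
  rw [le_div_iff₀ (by positivity), le_div_iff₀ hN] at hj
  have : N * (Cs * (2 : ℝ) ^ j * E * E ^ (d - 2) + E * r) =
      (2 : ℝ) ^ j * (200 * Cs * E ^ (d - 1)) * N / 200 + E * r * N := by
    rw [← (pow_split hd E).2]; ring
  rw [this]
  linarith

/-- the consequences of `Facts` for `E ≤ 2 x₂ (1 + ψ) y₀` -/
theorem abc {δ N D n r N₁ N₂ e sB E x₂ : ℝ} (hN₁ : 0 < N₁) (hN₂ : 0 < N₂) (hN : 0 < N)
    (he : 0 < e) (hn : 0 ≤ n) (hr : 0 ≤ r) (hsB : 0 ≤ sB) (hx : 0 < x₂) (hδ1 : δ ≤ 1)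
    (hD : 0 < D) (f1 : N₁ * N₂ ≤ 8 * D * e) (f2 : sB * N₁ ≤ δ * e)
    (f3 : sB ^ 2 * (N₁ * N₂) ≤ δ * e ^ 2) (f4 : N₁ * N₂ ^ 2 * N ≤ 64 * D ^ 2 * e ^ 2)
    (f5 : sB * N₁ * N₂ ^ 3 * N ≤ 64 * D ^ 2 * e ^ 3) (f6 : sB * N₁ * N₂ ^ 2 ≤ δ * D * e ^ 2)
    (f7 : n * N₂ ≤ δ * e) (f8 : n * sB * N₂ ^ 2 ≤ δ * e ^ 2)
    (hE : E ≤ 2 * (x₂ * ((1 + sB * N₂ / e) * (N₁ * N₂ / e)))) :
    E ≤ 18 * x₂ * D ∧ E * n ≤ 4 * x₂ * δ * N₁ ∧ E * sB ≤ 4 * x₂ * δ * N₂ ∧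
      E * r * N₂ ≤ 256 * x₂ * (r * D ^ 2 / N) * e := by
  have hP : (1 + sB * N₂ / e) * (N₁ * N₂ / e) = N₁ * N₂ / e + sB * N₁ * N₂ ^ 2 / e ^ 2 := by
    field_simp
  rw [hP] at hE
  have g1 : N₁ * N₂ / e ≤ 8 * D := by rw [div_le_iff₀ he]; exact f1
  have g6 : sB * N₁ * N₂ ^ 2 / e ^ 2 ≤ D := by
    rw [div_le_iff₀ (by positivity)]
    exact f6.trans (mul_le_mul_of_nonneg_right (mul_le_of_le_one_left hD.le hδ1) (by positivity))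
  have g7 : N₁ * N₂ / e * n ≤ δ * N₁ := by
    rw [div_mul_eq_mul_div, div_le_iff₀ he]
    linarith [mul_le_mul_of_nonneg_left f7 hN₁.le]
  have g8 : sB * N₁ * N₂ ^ 2 / e ^ 2 * n ≤ δ * N₁ := by
    rw [div_mul_eq_mul_div, div_le_iff₀ (by positivity)]
    linarith [mul_le_mul_of_nonneg_left f8 hN₁.le]
  have g2 : N₁ * N₂ / e * sB ≤ δ * N₂ := by
    rw [div_mul_eq_mul_div, div_le_iff₀ he]
    linarith [mul_le_mul_of_nonneg_left f2 hN₂.le]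
  have g3 : sB * N₁ * N₂ ^ 2 / e ^ 2 * sB ≤ δ * N₂ := by
    rw [div_mul_eq_mul_div, div_le_iff₀ (by positivity)]
    linarith [mul_le_mul_of_nonneg_left f3 hN₂.le]
  have g4 : N₁ * N₂ / e * N₂ ≤ 64 * (D ^ 2 / N) * e := by
    rw [div_mul_eq_mul_div, div_le_iff₀ he]
    have : 64 * (D ^ 2 / N) * e * e = 64 * D ^ 2 * e ^ 2 / N := by ring
    rw [this, le_div_iff₀ hN]
    linarith
  have g5 : sB * N₁ * N₂ ^ 2 / e ^ 2 * N₂ ≤ 64 * (D ^ 2 / N) * e := by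
    rw [div_mul_eq_mul_div, div_le_iff₀ (by positivity)]
    have : 64 * (D ^ 2 / N) * e * e ^ 2 = 64 * D ^ 2 * e ^ 3 / N := by ring
    rw [this, le_div_iff₀ hN]
    linarith
  generalize N₁ * N₂ / e = a at *
  generalize sB * N₁ * N₂ ^ 2 / e ^ 2 = b at *
  have key : ∀ t u : ℝ, 0 ≤ t → a * t ≤ u → b * t ≤ u → E * t ≤ 4 * x₂ * u := by
    intro t u ht h1 h2
    calc E * t ≤ 2 * (x₂ * (a + b)) * t := mul_le_mul_of_nonneg_right hE ht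
      _ = 2 * x₂ * (a * t + b * t) := by ring
      _ ≤ 2 * x₂ * (u + u) := mul_le_mul_of_nonneg_left (add_le_add h1 h2) (by positivity)
      _ = _ := by ring
  refine ⟨?_, ?_, ?_, ?_⟩
  · calc E ≤ 2 * (x₂ * (a + b)) := hE
      _ ≤ 2 * (x₂ * (8 * D + D)) := by gcongr
      _ = _ := by ring
  · linarith [key _ _ hn g7 g8]
  · linarith [key _ _ hsB g2 g3]
  · have := mul_le_mul_of_nonneg_right (key _ _ hN₂.le g4 g5) hr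
    calc E * r * N₂ = E * N₂ * r := by ring
      _ ≤ _ := this
      _ = _ := by ring

theorem ex_ceil {a : ℝ} (ha : 1 ≤ a) : ∃ m : ℕ, a ≤ m ∧ (m : ℝ) ≤ 2 * a := ⟨_, ceil_two ha⟩

theorem ex_ceil2 {a b : ℝ} (ha : 1 ≤ a) (hab : a ≤ b) :
    ∃ m k : ℕ, m ≤ k ∧ a ≤ m ∧ (m : ℝ) ≤ 2 * a ∧ b ≤ k ∧ (k : ℝ) ≤ 2 * b :=
  ⟨_, _, Nat.ceil_mono hab, (ceil_two ha).1, (ceil_two ha).2, (ceil_two (ha.trans hab)).1,
    (ceil_two (ha.trans hab)).2⟩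

theorem s1 {Cs Ct ε N₁ N₂ e y E' B' T w : ℝ} (hCs : 0 < Cs) (hCt : 0 < Ct) (hε : 0 < ε)
    (hε1 : ε ≤ 1) (hN₂ : 0 < N₂) (he : 0 < e) (hyd : y = N₁ * N₂ / e) (hy : 1 ≤ y) (hB' : 1 ≤ B')
    (hT : 1 ≤ T) (hw : w ≤ 1 / (Cs * N₂ / ε ^ 3)) (h : 2 * T * Ct / ε * y ≤ E') :
    Ct * (N₁ * (T * B') * N₂ / (ε * e) + Cs * w * N₂ / ε ^ 3) ≤ E' * B' := by
  have e1 : N₁ * (T * B') * N₂ / (ε * e) = T * B' * y / ε := by rw [hyd]; field_simp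
  have e2 : Cs * w * N₂ / ε ^ 3 ≤ 1 := by
    calc Cs * w * N₂ / ε ^ 3 ≤ Cs * (1 / (Cs * N₂ / ε ^ 3)) * N₂ / ε ^ 3 := by gcongr
      _ = 1 := by field_simp
  have e3 : (1 : ℝ) ≤ T * B' * y / ε := by
    rw [le_div_iff₀ hε, one_mul]
    exact hε1.trans (one_le_mul_of_one_le_of_one_le (one_le_mul_of_one_le_of_one_le hT hB') hy)
  rw [e1]
  calc Ct * (T * B' * y / ε + Cs * w * N₂ / ε ^ 3)
      ≤ Ct * (T * B' * y / ε + T * B' * y / ε) :=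
        mul_le_mul_of_nonneg_left (by linarith) hCt.le
    _ = 2 * T * Ct / ε * y * B' := by ring
    _ ≤ E' * B' := mul_le_mul_of_nonneg_right h (by linarith)

theorem s2 {Cs ε c x₁ N₁ N₂ e y p E E' B₂ ρ w r : ℝ} (hCs : 0 < Cs) (hε : 0 < ε) (hc : 0 < c)
    (hx : 0 < x₁) (hN₁ : 0 < N₁) (hN₂ : 0 < N₂) (he : 0 < e) (hyd : y = N₁ * N₂ / e) (hp : 0 < p)
    (hE : 0 < E) (hE' : 0 ≤ E') (hB : 0 < B₂) (hρ : ρ = c * (E * B₂) * y / p)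
    (hw : w ≤ 4 * N₁ / (ε * ρ)) (a2 : E' ≤ 2 * (x₁ * y))
    (e2 : 1600 * Cs * x₁ / (ε * c) * (p * y) ≤ E) (e3 : E' * r * N₂ ≤ e / 200) :
    N₂ * (Cs * w * E' * B₂ + E' * r) ≤ e / 100 := by
  have hy : 0 < y := by rw [hyd]; positivity
  have hρ0 : 0 < ρ := by rw [hρ]; positivity
  have e1 : N₂ * (Cs * w * E' * B₂) ≤ e / 200 := by
    calc N₂ * (Cs * w * E' * B₂)
        ≤ N₂ * (Cs * (4 * N₁ / (ε * ρ)) * (2 * (x₁ * y)) * B₂) := by gcongr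
      _ = 1600 * Cs * x₁ / (ε * c) * (p * y) / E * (e / 200) := by
          rw [hρ, hyd]; field_simp; norm_num
      _ ≤ 1 * (e / 200) := by gcongr; rw [div_le_one hE]; exact e2
      _ = _ := one_mul _
  calc N₂ * (Cs * w * E' * B₂ + E' * r) = N₂ * (Cs * w * E' * B₂) + E' * r * N₂ := by ring
    _ ≤ e / 100 := by linarith

theorem s3 {Cs ε c N₁ N₂ e y p B ρ w u v : ℝ} (hCs : 0 < Cs) (hε : 0 < ε) (hc : 0 < c)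
    (hN₁ : 0 < N₁) (hN₂ : 0 < N₂) (he : 0 < e) (hyd : y = N₁ * N₂ / e) (hp : 0 < p)
    (hB : 0 < B) (hρ : ρ = c * B * y / p) (hw : 4 * N₁ / (ε * ρ) ≤ w) (hv0 : 0 ≤ v)
    (hu : u ≤ 2 / (e / N₁ / (200 * Cs * B)))
    (hv : v ≤ 1 / (800 * Cs ^ 2 * p * N₁ / (ε ^ 3 * c * N₂))) :
    2 * e / w * N₁ / (ε * e) + Cs * (u * v) * N₁ / ε ^ 3 ≤ ρ := by
  have hy : 0 < y := by rw [hyd]; positivity
  have hρ0 : 0 < ρ := by rw [hρ]; positivity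
  have e1 : 2 * e / w * N₁ / (ε * e) ≤ ρ / 2 := by
    calc 2 * e / w * N₁ / (ε * e) ≤ 2 * e / (4 * N₁ / (ε * ρ)) * N₁ / (ε * e) := by gcongr
      _ = ρ / 2 := by field_simp; norm_num
  have e2 : Cs * (u * v) * N₁ / ε ^ 3 ≤ ρ / 2 := by
    calc Cs * (u * v) * N₁ / ε ^ 3
        ≤ Cs * (2 / (e / N₁ / (200 * Cs * B)) *
          (1 / (800 * Cs ^ 2 * p * N₁ / (ε ^ 3 * c * N₂)))) * N₁ / ε ^ 3 := by gcongr
      _ = ρ / 2 := by rw [hρ, hyd]; field_simp; norm_num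
  linarith

theorem s4 {Ct c N₁ N₂ e y p E B ρ σ sB n : ℝ} (hCt : 0 < Ct) (hcCt : Ct * c = 1 / 10 ^ 16 / 2)
    (hN₁ : 0 < N₁) (hyd : y = N₁ * N₂ / e) (hy : 0 ≤ y) (hpd : p = 1 + sB * N₂ / e) (hp : 1 ≤ p)
    (hB : 0 < B) (hsB : 0 ≤ sB) (hρ : ρ = c * B * y / p) (e3 : σ ≤ ρ) (hE : y ≤ E)
    (ha1 : Ct * E * n ≤ N₁ / 10 ^ 16 / 2) :
    Ct * σ ≤ E * B ∧ Ct * (E * n * B + σ * sB) ≤ N₁ * B / 10 ^ 16 := by
  have e4 : Ct * ρ = 1 / 10 ^ 16 / 2 * (B * y / p) := by rw [hρ, ← hcCt]; ring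
  have hE0 : 0 ≤ E := hy.trans hE
  have hp0 : 0 < p := by linarith
  refine ⟨?_, ?_⟩
  · have e5 : y / p ≤ E := (div_le_self hy hp).trans hE
    calc Ct * σ ≤ Ct * ρ := by gcongr
      _ = 1 / 10 ^ 16 / 2 * (y / p * B) := by rw [e4]; ring
      _ ≤ 1 * (E * B) := by gcongr; norm_num
      _ = _ := one_mul _
  · have e5 : y / p * sB ≤ N₁ := by
      rw [div_mul_eq_mul_div, div_le_iff₀ hp0, hyd, hpd]
      have : N₁ * N₂ / e * sB = N₁ * (sB * N₂ / e) := by ring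
      rw [this]
      exact mul_le_mul_of_nonneg_left (by linarith) hN₁.le
    have e6 : Ct * σ * sB ≤ N₁ / 10 ^ 16 / 2 * B := by
      calc Ct * σ * sB ≤ Ct * ρ * sB := by gcongr
        _ = 1 / 10 ^ 16 / 2 * B * (y / p * sB) := by rw [e4]; ring
        _ ≤ 1 / 10 ^ 16 / 2 * B * N₁ := by gcongr
        _ = _ := by ring
    have e7 := mul_le_mul_of_nonneg_right ha1 hB.le
    calc Ct * (E * n * B + σ * sB) = Ct * E * n * B + Ct * σ * sB := by ring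
      _ ≤ N₁ / 10 ^ 16 / 2 * B + N₁ / 10 ^ 16 / 2 * B := by linarith
      _ = _ := by ring

theorem s5 {Cs Ct ε c N₁ N₂ e y p E B T K u v : ℝ} (hCs : 0 < Cs) (hCt : 0 < Ct) (hε : 0 < ε)
    (hc : 0 < c) (hN₁ : 0 < N₁) (hN₂ : 0 < N₂) (he : 0 < e) (hyd : y = N₁ * N₂ / e) (hp : 1 ≤ p)
    (hB : 0 < B) (hT : 0 < T) (hK : K = T / ε + 320000 * Cs ^ 4 / (ε ^ 6 * c)) (hv0 : 0 ≤ v)
    (hu : u ≤ 2 / (e / N₂ / (200 * Cs * B)))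
    (hv : v ≤ 2 * (800 * Cs ^ 2 * p * N₁ / (ε ^ 3 * c * N₂))) (e3 : Ct * K * (p * y) ≤ E) :
    Ct * (N₁ * (T * B) * N₂ / (ε * e) + Cs * (u * v / 2) * N₂ / ε ^ 3) ≤ E * B := by
  have hy : 0 < y := by rw [hyd]; positivity
  have hp0 : 0 < p := by linarith
  have e1 : N₁ * (T * B) * N₂ / (ε * e) ≤ T / ε * (p * y * B) := by
    calc N₁ * (T * B) * N₂ / (ε * e) = T / ε * (1 * y * B) := by rw [hyd]; field_simp
      _ ≤ _ := by gcongr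
  have e2 : Cs * (u * v / 2) * N₂ / ε ^ 3 ≤ 320000 * Cs ^ 4 / (ε ^ 6 * c) * (p * y * B) := by
    calc Cs * (u * v / 2) * N₂ / ε ^ 3
        ≤ Cs * (2 / (e / N₂ / (200 * Cs * B)) *
          (2 * (800 * Cs ^ 2 * p * N₁ / (ε ^ 3 * c * N₂))) / 2) * N₂ / ε ^ 3 := by gcongr
      _ = _ := by rw [hyd]; field_simp; norm_num
  calc Ct * (N₁ * (T * B) * N₂ / (ε * e) + Cs * (u * v / 2) * N₂ / ε ^ 3)
      ≤ Ct * (T / ε * (p * y * B) + 320000 * Cs ^ 4 / (ε ^ 6 * c) * (p * y * B)) := by gcongr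
    _ = Ct * K * (p * y) * B := by rw [hK]; ring
    _ ≤ E * B := by gcongr

end Par2Aux

open Par2Aux in
theorem par2 (d : ℕ) (hd : 3 ≤ d) (Cs Ct : ℝ) (hs : 1 ≤ Cs) (ht : 1 ≤ Ct) :
    ∃ x δ ε₀ : ℝ, 1 ≤ x ∧ 0 < δ ∧ 0 < ε₀ ∧ ∀ N D n r N₁ N₂ e : ℝ, 1 ≤ D → 0 ≤ n → 0 ≤ r →
      r * D ^ 2 ≤ ε₀ * N → 0 < N₁ → N₁ ≤ N₂ → N₂ ≤ N → 0 < e → e ≤ N₁ * N₂ →
      (∀ s, 0 ≤ s → s ≤ x * D → Facts d δ N D n N₁ N₂ e s) → Par d Cs Ct D n r N₁ N₂ e := by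
  have hCs : 0 < Cs := by linarith
  have hCt : 0 < Ct := by linarith
  obtain ⟨ε, hεd⟩ : ∃ ε : ℝ, ε = 1 / (100 * Cs) := ⟨_, rfl⟩
  have hε : 0 < ε := by rw [hεd]; positivity
  have hε1 : ε ≤ 1 := by rw [hεd, div_le_one (by positivity)]; linarith
  obtain ⟨c, hc, hcCt⟩ : ∃ c : ℝ, 0 < c ∧ Ct * c = 1 / 10 ^ 16 / 2 :=
    ⟨1 / 10 ^ 16 / (2 * Ct), by positivity, by field_simp⟩
  obtain ⟨T, hTd⟩ : ∃ T : ℝ, T = 2 ^ (d - 1) := ⟨_, rfl⟩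
  have hT : 1 ≤ T := by rw [hTd]; exact one_le_pow₀ one_le_two
  obtain ⟨x₁, hx1, hx2, hx3⟩ : ∃ x₁ : ℝ, 2 * T * Ct / ε ≤ x₁ ∧ Ct ≤ x₁ ∧ (d : ℝ) ≤ x₁ := by
    have h1 : (0 : ℝ) ≤ d := by positivity
    have h2 : (0 : ℝ) < 2 * T * Ct / ε := by positivity
    exact ⟨2 * T * Ct / ε + Ct + d, by linarith, by linarith, by linarith⟩
  have hx₁ : 1 ≤ x₁ := ht.trans hx2
  obtain ⟨K, hKd⟩ : ∃ K : ℝ, K = T / ε + 320000 * Cs ^ 4 / (ε ^ 6 * c) := ⟨_, rfl⟩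
  have hK : 0 < K := by rw [hKd]; positivity
  obtain ⟨x₂, hx12, hx5, hx6⟩ :
      ∃ x₂ : ℝ, x₁ ≤ x₂ ∧ Ct * K ≤ x₂ ∧ 1600 * Cs * x₁ / (ε * c) ≤ x₂ := by
    have h1 : 0 < Ct * K := by positivity
    have h2 : 0 < 1600 * Cs * x₁ / (ε * c) := by positivity
    exact ⟨x₁ + Ct * K + 1600 * Cs * x₁ / (ε * c), by linarith, by linarith, by linarith⟩
  have hx₂ : 1 ≤ x₂ := hx₁.trans hx12
  have hx₂0 : 0 < x₂ := by linarith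
  obtain ⟨δ, hδ, hδ'⟩ : ∃ δ : ℝ, 0 < δ ∧ 4 * x₂ * δ * Ct = 1 / 10 ^ 16 / 2 :=
    ⟨1 / 10 ^ 16 / (8 * Ct * x₂), by positivity, by field_simp; norm_num⟩
  have hδ2 : 4 * x₂ * δ ≤ 1 / 10 ^ 16 / 2 := by
    rw [← hδ']; exact le_mul_of_one_le_right (by positivity) ht
  have hδ1 : δ ≤ 1 := by
    have : 1 * δ ≤ x₂ * δ := mul_le_mul_of_nonneg_right hx₂ hδ.le
    linarith
  refine ⟨40 * x₂, δ, 1 / (51200 * x₂), by linarith, hδ, by positivity, ?_⟩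
  intro N D n r N₁ N₂ e hD hn hr hrD hN₁ h12 h2N he heN hF
  have hN₂ : 0 < N₂ := by linarith
  have hN : 0 < N := by linarith
  have hD0 : 0 < D := by linarith
  have hxD : D ≤ x₂ * D := le_mul_of_one_le_left hD0.le hx₂
  obtain ⟨s, s1', s2'⟩ := ex_ceil (show 1 ≤ 20 * (x₂ * D) by linarith)
  have hs0 : (0 : ℝ) ≤ s := by positivity
  obtain ⟨f1, f2, f3, f4, f5, f6, f7, f8⟩ := hF s hs0 (by linarith)
  obtain ⟨sB, hsBd⟩ : ∃ sB : ℝ, sB = (s : ℝ) ^ (d - 1) := ⟨_, rfl⟩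
  have hsB : 0 ≤ sB := by rw [hsBd]; positivity
  rw [← hsBd] at f2 f3 f5 f6 f8
  obtain ⟨y, hyd⟩ : ∃ y : ℝ, y = N₁ * N₂ / e := ⟨_, rfl⟩
  have hy : 1 ≤ y := by rw [hyd, le_div_iff₀ he]; linarith
  have hy0 : 0 ≤ y := by linarith
  obtain ⟨p, hpd⟩ : ∃ p : ℝ, p = 1 + sB * N₂ / e := ⟨_, rfl⟩
  have hp0 : 0 ≤ sB * N₂ / e := by positivity
  have hp : 1 ≤ p := by linarith
  have hp' : 0 < p := by linarith
  have hpy : y ≤ p * y := le_mul_of_one_le_left hy0 hp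
  have hpy0 : 0 ≤ p * y := by linarith
  obtain ⟨E', E, hEE, a1, a2, b1, b2⟩ := ex_ceil2 (one_le_mul_of_one_le_of_one_le hx₁ hy)
    (mul_le_mul hx12 hpy hy0 hx₂0.le)
  have hEE' : (E' : ℝ) ≤ E := by exact_mod_cast hEE
  have hE'x : x₁ ≤ E' := (le_mul_of_one_le_right (by linarith) hy).trans a1
  have hE'0 : (0 : ℝ) < E' := by linarith
  have hE0 : (0 : ℝ) < E := by linarith
  obtain ⟨g1, g2, g3, g4⟩ := abc (E := E) (r := r) hN₁ hN₂ hN he hn hr hsB hx₂0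
    hδ1 hD0 f1 f2 f3 f4 f5 f6 f7 f8 (by rw [← hyd, ← hpd]; exact b2)
  clear f1 f2 f3 f4 f5 f6 f7 f8 hF
  have ha1 : Ct * E * n ≤ N₁ / 10 ^ 16 / 2 := by
    have := mul_le_mul_of_nonneg_left g2 hCt.le
    calc Ct * E * n = Ct * (E * n) := by ring
      _ ≤ Ct * (4 * x₂ * δ * N₁) := this
      _ = 4 * x₂ * δ * Ct * N₁ := by ring
      _ = _ := by rw [hδ']; ring
  have ha2 : Ct * E * n ≤ N₂ / 10 ^ 16 / 2 := by linarith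
  have hc2 : E * (s : ℝ) ^ (d - 1) ≤ N₂ / 10 ^ 16 / 2 := by
    rw [← hsBd]
    refine g3.trans ?_
    calc 4 * x₂ * δ * N₂ ≤ 1 / 10 ^ 16 / 2 * N₂ := mul_le_mul_of_nonneg_right hδ2 hN₂.le
      _ = _ := by ring
  have hb2 : E * r * N₂ ≤ e / 200 := by
    refine g4.trans ?_
    have : r * D ^ 2 / N ≤ 1 / (51200 * x₂) := by rw [div_le_iff₀ hN]; exact hrD
    calc 256 * x₂ * (r * D ^ 2 / N) * e ≤ 256 * x₂ * (1 / (51200 * x₂)) * e := by gcongr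
      _ = e / 200 := by field_simp; norm_num
  have hb1 : E * r * N₁ ≤ e / 200 :=
    le_trans (mul_le_mul_of_nonneg_left h12 (mul_nonneg hE0.le hr)) hb2
  have hb3 : E' * r * N₂ ≤ e / 200 :=
    le_trans (mul_le_mul_of_nonneg_right (mul_le_mul_of_nonneg_right hEE' hr) hN₂.le) hb2
  obtain ⟨B, hBd⟩ : ∃ B : ℝ, B = (E : ℝ) ^ (d - 1) := ⟨_, rfl⟩
  have hB : 0 < B := by rw [hBd]; positivity
  obtain ⟨ρ, hρd⟩ : ∃ ρ : ℝ, ρ = c * B * y / p := ⟨_, rfl⟩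
  obtain ⟨i₀, i1, i2⟩ := ex_nat (4 * N₁ / (ε * ρ))
  obtain ⟨jU, u1, u2⟩ := ex_lo (show 0 < e / N₁ / (200 * Cs * B) by positivity)
  obtain ⟨jV, v1, v2⟩ := ex_lo (show 0 < e / N₂ / (200 * Cs * B) by positivity)
  obtain ⟨h, w1, w2⟩ := ex_hi (show 0 < 800 * Cs ^ 2 * p * N₁ / (ε ^ 3 * c * N₂) by positivity)
  obtain ⟨h₂, z1, -⟩ := ex_hi (show 0 < Cs * N₂ / ε ^ 3 by positivity)
  refine ⟨E', E, s, i₀, jU, jV, h, h₂ - ((i₀ : ℤ) - 1), hx2.trans hE'x, ?_, hEE, ?_, by linarith,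
    ?_, ?_, ?_, ?_, ?_, ?_⟩
  · exact_mod_cast hx3.trans hE'x
  · have : (E : ℝ) ≤ s := by linarith
    exact_mod_cast this
  · refine okV hd hE'0.le hEE' hs0 hn hCt.le ?_ ha2 hc2
    rw [← hεd, show -((i₀ : ℤ) - 1) - (h₂ - ((i₀ : ℤ) - 1)) = -h₂ by ring, mul_pow, ← hTd]
    exact s1 hCs hCt hε hε1 hN₂ he hyd hy (one_le_pow₀ (hx₁.trans hE'x)) hT z1
      ((mul_le_mul_of_nonneg_right hx1 hy0).trans a1)
  · rcases i2 with i2 | i2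
    · exact Or.inl i2
    right
    exact s2 hCs hε hc (by linarith) hN₁ hN₂ he hyd hp' hE0 hE'0.le (pow_pos hE0 _)
      (by rw [hρd, hBd, (pow_split hd (E : ℝ)).2]) i2 a2
      ((mul_le_mul_of_nonneg_right hx6 hpy0).trans b1) hb3
  · rw [← hεd, sub_eq_add_neg (-jU), zpow_add₀ two_ne_zero]
    have e3 := s3 hCs hε hc hN₁ hN₂ he hyd hp' hB hρd i1 (by positivity) u2 w1
    have e4 := s4 hCt hcCt hN₁ hyd hy0 hpd hp hB hsB hρd e3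
      (hpy.trans ((le_mul_of_one_le_left hpy0 hx₂).trans b1)) ha1
    unfold Ok
    rw [(pow_split hd (E : ℝ)).1, ← hBd, ← hsBd]
    exact e4
  · exact vx_of hd hCs hN₁ hE0 (by rw [← hBd]; exact u1) hb1
  · refine okV hd hE0.le le_rfl hs0 hn hCt.le ?_ ha2 hc2
    rw [← hεd, mul_pow, ← hBd, ← hTd, show -jV - (1 - h) = -jV + h - 1 by ring,
      zpow_sub₀ two_ne_zero, zpow_add₀ two_ne_zero, zpow_one]
    exact s5 hCs hCt hε hc hN₁ hN₂ he hyd hp hB (by linarith) hKd (by positivity) v2 w2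
      ((mul_le_mul_of_nonneg_right hx5 hpy0).trans b1)
  · exact vx_of hd hCs hN₂ hE0 (by rw [← hBd]; exact v1) hb2

end Crest.Agent.R65.Mn
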