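import Crest.Agent.R65.Mn.Mult

/-! Row 65, main module: the side lemma. -/

set_option autoImplicit false

open Finset MvPolynomial
open scoped Classical

namespace Crest.Agent.R65.Mn

/-- `S₁` from `sampT` (`W = Val τ Ef`, edges `H`, cost `1`, `θ = ε |G|`), `S₂, H'` from
`mult_sample`, `S = S₁ ∪ S₂`, `H''` = the edges of `H'` determined by `S₁`.  For `y ∈ U` not in
`TS Ef S` take a form `f` with `res s f = 0` on `S`, `g = res y f ≠ 0` (`res_homog`); every edge of
`atT H'' y` has `OrdGe g _ 1` (`mem_Val`, `ordGe_one`) and the multiplicity of `mult_sample`.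
`PVFor` and `vertex_count` bound `|atT H'' y|`; sum over `y ∈ U` (`sum_atT`). -/
theorem side {d : ℕ} [NeZero d] {C : ℕ} (hP : PVFor d C) : ∃ C' : ℝ, 1 ≤ C' ∧ SideFor d C' := by
  obtain ⟨Cm, hCm, hms⟩ := mult_sample d
  have hC0 : (0 : ℝ) ≤ C := Nat.cast_nonneg _
  refine ⟨Cm + 1 + 4 * C, by linarith, ?_⟩
  intro τ U V G H layT layH Ef E r j₀ h M ε hG hH hne hE hEf hE1 hε hε1 hlT hlH hsh hM hr
  have hG0 : (0 : ℝ) < G.card := by exact_mod_cast hne.card_pos
  have hθ : 0 < ε * G.card := mul_pos hε hG0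
  obtain ⟨S₁, hS₁, a1, a2⟩ := sampT (Val τ Ef) U V H (hH.trans hG) (fun _ => 1)
    (fun _ => zero_le_one) _ hθ
  obtain ⟨S₂, hS₂, H', hH', b1, b2, b3⟩ := hms τ U V G H layT layH Ef E j₀ h ε hG hH hne hE hEf
    hε hε1 hlT hlH hsh
  have hU0 : (0 : ℝ) ≤ U.card := Nat.cast_nonneg _
  refine ⟨S₁ ∪ S₂, union_subset hS₁ hS₂, ?_, ?_⟩
  · have c1 : ((S₁ ∪ S₂).card : ℝ) ≤ S₁.card + S₂.card := by exact_mod_cast card_union_le _ _
    have c2 : (S₁.card : ℝ) ≤ M * U.card / (ε * G.card) := by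
      rw [le_div_iff₀ hθ, mul_comm]
      simp only [sum_const, nsmul_eq_mul, mul_one] at a2
      refine a2.trans (mul_le_mul_of_nonneg_right (le_trans (le_of_eq ?_) hM) hU0)
      refine sum_congr rfl fun x _ => ?_
      congr
    have c3 : Cm * (2 : ℝ) ^ (-j₀ - h) * U.card / ε ^ 3 ≤
        (Cm + 1 + 4 * C) * (2 : ℝ) ^ (-j₀ - h) * U.card / ε ^ 3 := by
      gcongr
      linarith
    linarith
  · set H'' := H'.filter fun e =>
      ¬∃ φ ∈ van (Val τ Ef) (H.filter fun e' => e'.1 ∈ S₁), φ e ≠ 0 with hH''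
    have hsub : H'' ⊆ G := (filter_subset _ _).trans (hH'.trans hH)
    have c1 : (H'.card : ℝ) ≤ H''.card + ε * G.card := by
      have d1 := card_filter_add_card_filter_not (s := H') fun e =>
        ∃ φ ∈ van (Val τ Ef) (H.filter fun e' => e'.1 ∈ S₁), φ e ≠ 0
      have d2 : (H'.filter fun e =>
          ∃ φ ∈ van (Val τ Ef) (H.filter fun e' => e'.1 ∈ S₁), φ e ≠ 0).card ≤
          (H.filter fun e =>
            ∃ φ ∈ van (Val τ Ef) (H.filter fun e' => e'.1 ∈ S₁), φ e ≠ 0).card :=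
        card_le_card (filter_subset_filter _ hH')
      have d3 : H'.card ≤ H''.card + (H.filter fun e =>
          ∃ φ ∈ van (Val τ Ef) (H.filter fun e' => e'.1 ∈ S₁), φ e ≠ 0).card := by
        rw [hH'']; omega
      have d4 : (H'.card : ℝ) ≤ H''.card + ((H.filter fun e =>
          ∃ φ ∈ van (Val τ Ef) (H.filter fun e' => e'.1 ∈ S₁), φ e ≠ 0).card : ℝ) := by
        exact_mod_cast d3
      refine d4.trans (add_le_add le_rfl (le_trans (le_of_eq ?_) a1))
      congr
    set GT := G.filter fun e => e.1 ∈ TS Ef (S₁ ∪ S₂) with hGT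
    set B : ℝ := (Cm + 1 + 4 * C) * (2 : ℝ) ^ j₀ * Ef * (E : ℝ) ^ (d - 2) + Ef * r with hB
    have hB0 : 0 ≤ B := by positivity
    have c2 : ∀ y ∈ U, ((atT H'' y).card : ℝ) ≤ (atT GT y).card + B := by
      intro y _
      by_cases hy : y ∈ TS Ef (S₁ ∪ S₂)
      · have d1 : (atT H'' y).card ≤ (atT GT y).card := by
          refine card_le_card fun e he => ?_
          obtain ⟨e1, e2⟩ := mem_filter.1 he
          exact mem_filter.2 ⟨mem_filter.2 ⟨hsub e1, e2 ▸ hy⟩, e2⟩
        have d2 : ((atT H'' y).card : ℝ) ≤ (atT GT y).card := by exact_mod_cast d1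
        linarith
      · have hy' : ∃ f : MvPolynomial (Ix d) (LL d), f.IsHomogeneous Ef ∧
            (∀ s ∈ S₁ ∪ S₂, res s f = 0) ∧ res y f ≠ 0 := by
          by_contra hn
          refine hy fun f hf hf0 => ?_
          by_contra h0
          exact hn ⟨f, hf, hf0, h0⟩
        obtain ⟨f, hf, hf0, hfy⟩ := hy'
        have hA : atT H'' y ⊆ atT G y := filter_subset_filter _ hsub
        obtain ⟨A', hA', d1, d2⟩ := hP τ y (atT H'' y) (res y f) Ef E r
          (fun e he => ⟨hE e (hsub (mem_filter.1 he).1), (mem_filter.1 he).2⟩) hfy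
          (res_homog y hf) hEf hE1 fun Q hQ => hr y Q (hQ.trans hA)
        have d3 := vertex_count τ G A' layT E hlT y (hA'.trans hA) j₀
          (fun k e => OrdGe (res y f) (pz (dr τ e)) (2 ^ k)) (C * Ef * E ^ (d - 2))
          (fun e he => ?_) (fun e he hj => ?_) d2
        · have d4 : ((atT H'' y).card : ℝ) ≤ A'.card + Ef * r := by exact_mod_cast d1
          push_cast at d3
          have d5 : 0 ≤ (Cm + 1) * ((2 : ℝ) ^ j₀ * Ef * (E : ℝ) ^ (d - 2)) := by positivity
          have d6 : (0 : ℝ) ≤ (atT GT y).card := Nat.cast_nonneg _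
          rw [hB]
          linarith
        · obtain ⟨e1, e2⟩ := mem_filter.1 (hA' he)
          rw [pow_zero, ordGe_one]
          by_contra h0
          refine (mem_filter.1 e1).2 ⟨fun e => eval (pz (dr τ e)) (res e.1 f),
            mem_van.2 ⟨mem_Val.2 ⟨f, hf, rfl⟩, fun e' he' => ?_⟩, ?_⟩
          · rw [hf0 e'.1 (mem_union_left _ (mem_filter.1 he').2), map_zero]
          · exact fun h1 => h0 (e2 ▸ h1)
        · obtain ⟨e1, e2⟩ := mem_filter.1 (hA' he)
          have := b3 f hf.totalDegree_le (fun s hs => hf0 s (mem_union_right _ hs)) e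
            (mem_filter.1 e1).1 hj
          rwa [e2] at this
    have c3 : (H''.card : ℝ) ≤ GT.card + U.card * B := by
      have d1 : (H''.card : ℝ) = ∑ y ∈ U, ((atT H'' y).card : ℝ) := by
        exact_mod_cast (sum_atT (hsub.trans hG)).symm
      have d2 : (GT.card : ℝ) = ∑ y ∈ U, ((atT GT y).card : ℝ) := by
        exact_mod_cast (sum_atT ((filter_subset _ _).trans hG)).symm
      rw [d1, d2, ← nsmul_eq_mul, ← sum_const, ← sum_add_distrib]
      exact sum_le_sum c2
    have c4 : 0 ≤ 4 * C * (ε * G.card) := by positivity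
    linarith

end Crest.Agent.R65.Mn
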