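import Crest.Agent.R65.Mn.TB2b
import Crest.Agent.R65.Mn.Cone

/-! Row 65, main module: few vertices are determined by a small sample. -/

set_option autoImplicit false

open Finset MvPolynomial
open scoped Classical

namespace Crest.Agent.R65.Mn

variable {d : ℕ} [NeZero d]

/-- common step: split `T` into the points with `sw y` on a flat of `Exc F` (`≤ deg F · n` points,
`IsoFlat.nul`, `QQ_sw_sub`) and the rest `T'`; `KLFor` for `T'.image sw`, `frk_sw`,
`frk_full_sub`, `frk_pol_comp`, `frk_mono`. -/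
theorem tb_core (hF : FlatStmt d) {C R : ℕ} (hK : KLFor d C R) (T : Finset (Pt d)) (t s n : ℕ)
    (F : MvPolynomial (Fin d) (LL d)) (hF0 : F ≠ 0) (hR : R * (F.totalDegree + 1) ≤ t) (hts : t ≤ s)
    (hv : ∀ y ∈ T, eval (pz (sw y)) F = 0) (hs : frk (pol s up) T = T.card)
    (hn : ∀ Z ⊆ T, Nul Z → Z.card ≤ n) :
    T.card * t ^ (d - 1) ≤ F.totalDegree * n * t ^ (d - 1) +
      C * frk (pol t fun y => pz (sw y)) T * s ^ (d - 1) := by
  obtain ⟨hfin, hcard⟩ := hF F hF0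
  rw [Set.ncard_eq_toFinset_card _ hfin] at hcard
  set T' := T.filter fun y => ¬ ∃ Φ ∈ Exc F, sw y ∈ Φ with hT'
  have h1 : (T.filter fun y => ∃ Φ ∈ Exc F, sw y ∈ Φ).card ≤ F.totalDegree * n := by
    have hsub : (T.filter fun y => ∃ Φ ∈ Exc F, sw y ∈ Φ) ⊆
        hfin.toFinset.biUnion fun Φ => T.filter fun y => sw y ∈ Φ := by
      intro y hy
      obtain ⟨hy, Φ, hΦ, h⟩ := mem_filter.1 hy
      exact mem_biUnion.2 ⟨Φ, hfin.mem_toFinset.2 hΦ, mem_filter.2 ⟨hy, h⟩⟩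
    refine (card_le_card hsub).trans ((card_biUnion_le_card_mul _ _ n ?_).trans
      (Nat.mul_le_mul_right n hcard))
    intro Φ hΦ
    refine hn _ (filter_subset _ _) fun x hx y hy => ?_
    rw [← QQ_sw_sub]
    exact (hfin.mem_toFinset.1 hΦ).1.nul (mem_filter.1 hx).2 (mem_filter.1 hy).2
  have h2 := hK F t s (T'.image sw) hF0 hR hts (by
      intro y hy
      obtain ⟨x, hx, rfl⟩ := mem_image.1 hy
      exact hv x (mem_filter.1 hx).1) (by
      intro y hy Φ hΦ h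
      obtain ⟨x, hx, rfl⟩ := mem_image.1 hy
      exact (mem_filter.1 hx).2 ⟨Φ, hΦ, h⟩)
  rw [frk_sw, frk_full_sub hs (filter_subset _ _), ← frk_pol_comp] at h2
  have h3 := frk_mono (pol t fun y => pz (sw y)) (show T' ⊆ T from filter_subset _ _)
  have h4 := card_filter_add_card_filter_not (s := T) fun y => ∃ Φ ∈ Exc F, sw y ∈ Φ
  rw [← h4, add_mul]
  exact add_le_add (Nat.mul_le_mul_right _ h1)
    (h2.trans (Nat.mul_le_mul_right _ (Nat.mul_le_mul_left _ h3)))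

/-- `t = E / 2`, `ρ = frk (pol t (pz ∘ sw)) T ≤ 2^(d-1) |S|` (`rank_le_sample`, `choose_double`).
`t₀ = t / R - 1`: `ρ < C(t₀ + d, d)` when `C` is large (`pow_le_choose'`, `E ≤ 4 R (t₀ + 1)`), so
`frk_pol_lt_iff` gives `F`; then `tb_core` and `E ≤ 3 t`. -/
theorem tb (hF : FlatStmt d) (hK : KLStmt d) : ∃ C, 1 ≤ C ∧ TBFor d C := by
  obtain ⟨C₀, R, hR, hK⟩ := hK
  set m := d - 1 with hm
  obtain ⟨C, C1, C2, C3, C4⟩ : ∃ C : ℕ, (4 * R) ^ d * (d.factorial * 2 ^ m) < C ∧ 3 ^ m ≤ C ∧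
      3 ^ m * (C₀ * 2 ^ m) ≤ C ∧ 2 * R + 2 ≤ C := by
    generalize (4 * R) ^ d * (d.factorial * 2 ^ m) = a
    generalize 3 ^ m * (C₀ * 2 ^ m) = b
    generalize 3 ^ m = c
    exact ⟨a + b + c + 2 * R + 2, by omega, by omega, by omega, by omega⟩
  refine ⟨C, by omega, fun T S E s n hE hEs hs hn hS hT => ?_⟩
  rw [← hm]
  have E1 : 2 * R + 2 ≤ E := by omega
  set t := E / 2 with ht
  have t1 : t ≤ E := by omega
  have t2 : R ≤ t := by omega
  set ρ := frk (pol t fun y => pz (sw y)) T with hρ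
  have r1 : ρ ≤ 2 ^ m * S.card := by
    have a1 := rank_le_sample T S t1 hT
    have a2 := choose_double (E - t) E m (by omega)
    have a3 : 0 < (E - t + m).choose m := Nat.choose_pos (by omega)
    refine Nat.le_of_mul_le_mul_right (a1.trans ((Nat.mul_le_mul_left _ a2).trans ?_)) a3
    exact le_of_eq (by ring)
  obtain ⟨q, hq⟩ : ∃ q, t / R = q + 1 := ⟨t / R - 1, by have := Nat.div_pos t2 hR; omega⟩
  have q1 : R * (q + 1) ≤ t := hq ▸ Nat.mul_div_le t R
  have q2 : t < R * (q + 1 + 1) := hq ▸ Nat.lt_mul_div_succ t hR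
  have q3 : E ≤ 4 * R * (q + 1) := by
    have : R * (q + 1 + 1) ≤ 2 * (R * (q + 1)) := by nlinarith
    have e : 4 * R * (q + 1) = 4 * (R * (q + 1)) := by ring
    omega
  have q4 : q ≤ t := by nlinarith
  have lt : frk (pol q fun y => pz (sw y)) T <
      (q + Fintype.card (Fin d)).choose (Fintype.card (Fin d)) := by
    rw [Fintype.card_fin]
    by_contra hle
    have a1 : (q + d).choose d ≤ ρ := (not_lt.1 hle).trans (frk_mono_left (pol_mono q4 _) T)
    have a2 : (q + 1) ^ d ≤ d.factorial * 2 ^ m * S.card := by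
      refine (pow_le_choose' q d).trans ?_
      rw [mul_assoc]
      exact Nat.mul_le_mul_left _ (a1.trans r1)
    have a3 : 0 < S.card := by
      rcases Nat.eq_zero_or_pos S.card with h | h
      · rw [h, mul_zero] at a2
        exact absurd a2 (not_le.2 (by positivity))
      · exact h
    have a4 : C * S.card ≤ (4 * R) ^ d * (d.factorial * 2 ^ m) * S.card := by
      calc C * S.card ≤ E ^ d := hS
        _ ≤ (4 * R * (q + 1)) ^ d := Nat.pow_le_pow_left q3 d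
        _ = (4 * R) ^ d * (q + 1) ^ d := mul_pow _ _ _
        _ ≤ (4 * R) ^ d * (d.factorial * 2 ^ m * S.card) := Nat.mul_le_mul_left _ a2
        _ = _ := by ring
    have := Nat.le_of_mul_le_mul_right a4 a3
    omega
  obtain ⟨F, F0, F1, F2⟩ := (frk_pol_lt_iff _ _ _).1 lt
  have core := tb_core hF hK T t s n F F0 ((Nat.mul_le_mul_left R (by omega)).trans q1)
    (t1.trans hEs) F2 hs hn
  rw [← hm, ← hρ] at core
  have p1 : E ^ m ≤ 3 ^ m * t ^ m := by
    rw [← mul_pow]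
    exact Nat.pow_le_pow_left (by omega) m
  have p2 : F.totalDegree * n * t ^ m ≤ E * n * E ^ m :=
    Nat.mul_le_mul (Nat.mul_le_mul_right n (by omega)) (Nat.pow_le_pow_left t1 m)
  have p3 : C₀ * ρ * s ^ m ≤ C₀ * (2 ^ m * S.card) * s ^ m := by gcongr
  calc T.card * E ^ m ≤ T.card * (3 ^ m * t ^ m) := Nat.mul_le_mul_left _ p1
    _ = 3 ^ m * (T.card * t ^ m) := by ring
    _ ≤ 3 ^ m * (E * n * E ^ m + C₀ * (2 ^ m * S.card) * s ^ m) :=
        Nat.mul_le_mul_left _ (core.trans (add_le_add p2 p3))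
    _ = 3 ^ m * (E * n * E ^ m) + 3 ^ m * (C₀ * 2 ^ m) * (S.card * s ^ m) := by ring
    _ ≤ C * (E * n * E ^ m) + C * (S.card * s ^ m) :=
        add_le_add (Nat.mul_le_mul_right _ C2) (Nat.mul_le_mul_right _ C3)
    _ = _ := by ring

/-- hypersurface version: `exists_hyp`, `t = R (E + 1)`, `s' = max s t`, `frk_pol_hyp`,
`choose_le_pow'`, `tb_core`. -/
theorem tbh (hF : FlatStmt d) (hK : KLStmt d) :
    ∃ C : ℕ, 1 ≤ C ∧ ∀ (T : Finset (Pt d)) (E s n : ℕ) (f : MvPolynomial (Ix d) (LL d)), f ≠ 0 →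
      f.IsHomogeneous E → 1 ≤ E → frk (pol s up) T = T.card → (∀ Z ⊆ T, Nul Z → Z.card ≤ n) →
      (∀ y ∈ T, res y f = 0) → T.card ≤ C * E * ((E + s) ^ (d - 1) + n) := by
  obtain ⟨C₀, R, hR, hK⟩ := hK
  set m := d - 1 with hm
  refine ⟨1 + C₀ * 2 ^ m * (2 * R) ^ m, by omega, fun T E s n f f0 fE hE hs hn hT => ?_⟩
  obtain ⟨F, F0, F1, F2⟩ := exists_hyp T f f0 fE hT
  set t := R * (E + 1) with ht
  have t1 : 1 ≤ t := by nlinarith
  have hs' : frk (pol (max s t) up) T = T.card :=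
    le_antisymm (frk_le_card _ _) (hs ▸ frk_mono_left (pol_mono (le_max_left _ _) _) T)
  have core := tb_core hF hK T t (max s t) n F F0 (Nat.mul_le_mul_left R (by omega))
    (le_max_right _ _) F2 hs' hn
  have : Nonempty (Fin d) := ⟨0⟩
  have a1 := frk_pol_hyp t (fun y => pz (sw y)) T F F0 F2
  rw [Fintype.card_fin, ← hm] at a1
  rw [← hm] at core
  have a2 : (t + m).choose m ≤ 2 ^ m * t ^ m := by
    rw [← mul_pow]
    exact (choose_le_pow' t m).trans (Nat.pow_le_pow_left (by omega) m)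
  have a3 : max s t ^ m ≤ (2 * R) ^ m * (E + s) ^ m := by
    rw [← mul_pow]
    refine Nat.pow_le_pow_left (max_le ?_ ?_) m
    · nlinarith
    · rw [ht]; nlinarith
  have a4 : frk (pol t fun y => pz (sw y)) T ≤ E * (2 ^ m * t ^ m) :=
    a1.trans (Nat.mul_le_mul F1 a2)
  refine Nat.le_of_mul_le_mul_right (core.trans ?_) (show 0 < t ^ m by positivity)
  calc F.totalDegree * n * t ^ m + C₀ * frk (pol t fun y => pz (sw y)) T * max s t ^ m
      ≤ E * n * t ^ m + C₀ * (E * (2 ^ m * t ^ m)) * ((2 * R) ^ m * (E + s) ^ m) := by gcongr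
    _ = (1 * (E * n) + C₀ * 2 ^ m * (2 * R) ^ m * (E * (E + s) ^ m)) * t ^ m := by ring
    _ ≤ ((1 + C₀ * 2 ^ m * (2 * R) ^ m) * (E * n) +
          (1 + C₀ * 2 ^ m * (2 * R) ^ m) * (E * (E + s) ^ m)) * t ^ m := by
        gcongr <;> omega
    _ = _ := by ring

end Crest.Agent.R65.Mn
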