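import Crest.Agent.R65.Mn.Max
import Crest.Agent.R65.Mn.Side
import Crest.Agent.R65.Mn.PV
import Crest.Agent.R65.Mn.TB3
import Crest.Agent.R65.Mn.Par1
import Crest.Agent.R65.Mn.Par2

/-! Row 65, main module: the main theorem. -/

set_option autoImplicit false

open Finset MvPolynomial
open scoped Classical

namespace Crest.Agent.R65.Mn

namespace MainAux

variable {d : ℕ}

/-- an extremal bipartite configuration -/
structure Cfg (τ : Pt d →ₗ[ℂ] ℂ) (X U V : Finset (Pt d)) (G : Finset (Ed d)) (r : ℕ) : Prop where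
  hU : U ⊆ X
  hV : V ⊆ X
  hG : G ⊆ U ×ˢ V
  hne : G.Nonempty
  hE : ∀ e ∈ G, IsEd τ e
  rT : ∀ y, ∀ Q ⊆ atT G y, Nul (Q.image Prod.snd) → Q.card ≤ r
  rH : ∀ x, ∀ Q ⊆ atH G x, Nul (Q.image Prod.fst) → Q.card ≤ r
  mU : ∀ T ⊆ U, (G.filter fun e => e.1 ∈ T).card ^ 8 * U.card ≤ G.card ^ 8 * T.card
  mV : ∀ T ⊆ V, (G.filter fun e => e.2 ∈ T).card ^ 8 * V.card ≤ G.card ^ 8 * T.card

theorem card_swap (G : Finset (Ed d)) : (G.image Prod.swap).card = G.card :=
  card_image_of_injective _ Prod.swap_injective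

theorem swap_swap (G : Finset (Ed d)) : (G.image Prod.swap).image Prod.swap = G := by
  rw [image_image]; simp

theorem filter_swap (G : Finset (Ed d)) (p : Ed d → Prop) [DecidablePred p]
    [DecidablePred fun e : Ed d => p e.swap] :
    ((G.image Prod.swap).filter p).card = (G.filter fun e => p e.swap).card := by
  rw [filter_image, card_swap]
  congr

theorem Cfg.swap {τ : Pt d →ₗ[ℂ] ℂ} {X U V : Finset (Pt d)} {G : Finset (Ed d)} {r : ℕ}
    (h : Cfg τ X U V G r) : Cfg τ X V U (G.image Prod.swap) r where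
  hU := h.hV
  hV := h.hU
  hG := by
    intro e he
    obtain ⟨e', he', rfl⟩ := mem_image.1 he
    have := mem_product.1 (h.hG he')
    exact mem_product.2 ⟨this.2, this.1⟩
  hne := h.hne.image _
  hE := by
    intro e he
    obtain ⟨e', he', rfl⟩ := mem_image.1 he
    exact (h.hE e' he').swap
  rT := by
    intro y Q hQ hN
    rw [atT_swap] at hQ
    have h1 : Q.image Prod.swap ⊆ atH G y := by
      have := image_subset_image (f := Prod.swap) hQ
      rwa [swap_swap] at this
    have h2 := h.rH y _ h1 (by rw [image_image]; exact hN)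
    rwa [card_swap] at h2
  rH := by
    intro y Q hQ hN
    rw [atH_swap] at hQ
    have h1 : Q.image Prod.swap ⊆ atT G y := by
      have := image_subset_image (f := Prod.swap) hQ
      rwa [swap_swap] at this
    have h2 := h.rT y _ h1 (by rw [image_image]; exact hN)
    rwa [card_swap] at h2
  mU := by
    intro T hT
    rw [filter_swap, card_swap]
    exact h.mV T hT
  mV := by
    intro T hT
    rw [filter_swap, card_swap]
    exact h.mU T hT

variable [NeZero d]

theorem val_sum_le (τ : Pt d →ₗ[ℂ] ℂ) (V : Finset (Pt d)) (H : Finset (Ed d))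
    (hE : ∀ e ∈ H, IsEd τ e) {E : ℕ} (h1 : 1 ≤ E) :
    (∑ x ∈ V, (frk (Val τ E) (atH H x) : ℝ)) ≤ V.card * (2 * E) ^ (d - 1) := by
  have : ∀ x ∈ V, (frk (Val τ E) (atH H x) : ℝ) ≤ (2 * E) ^ (d - 1) := by
    intro x _
    have h2 := frk_Val_choose τ E x (atH H x)
      (fun e he => ⟨hE e (mem_filter.1 he).1, (mem_filter.1 he).2⟩)
    have h3 := choose_le_pow' E (d - 1)
    have h4 : (E + 1) ^ (d - 1) ≤ (2 * E) ^ (d - 1) := Nat.pow_le_pow_left (by omega) _
    exact_mod_cast h2.trans (h3.trans h4)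
  simpa using sum_le_card_nsmul _ _ _ this

theorem val_sum_lay {τ : Pt d →ₗ[ℂ] ℂ} {U V : Finset (Pt d)} {G H : Finset (Ed d)}
    (hG : G ⊆ U ×ˢ V) (hH : H ⊆ G) (hE : ∀ e ∈ G, IsEd τ e) {E : ℕ} {lay : Ed d → ℕ}
    (hl : LayT τ E (G.image Prod.swap) lay) (i : ℕ) (hi : ∀ e ∈ H, i ≤ lay e.swap) :
    (∑ x ∈ V, (frk (Val τ E) (atH H x) : ℝ)) ≤ 2 * G.card / 2 ^ i := by
  have : ∀ x ∈ V, (frk (Val τ E) (atH H x) : ℝ) ≤ 2 * (atH G x).card / 2 ^ i := by
    intro x _
    have h2 := frk_Val_Dir τ (le_refl E) x (atH H x)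
      (fun e he => ⟨hE e (hH (mem_filter.1 he).1), (mem_filter.1 he).2⟩)
    rw [← frk_Dir_swap] at h2
    have h3 : (atH H x).image Prod.swap ⊆
        (atT (G.image Prod.swap) x).filter fun e => i ≤ lay e := by
      intro e he
      obtain ⟨e', he', rfl⟩ := mem_image.1 he
      have he2 := mem_filter.1 he'
      exact mem_filter.2 ⟨mem_filter.2 ⟨mem_image_of_mem _ (hH he2.1), he2.2⟩, hi e' he2.1⟩
    have h4 := frk_mono (Dir τ E) h3
    have h5 := hl.single x i
    rw [atT_swap G x, card_swap, ← atT_swap] at h5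
    have h6 : 2 ^ i * frk (Val τ E) (atH H x) ≤ 2 * (atH G x).card :=
      (Nat.mul_le_mul_left _ (h2.trans h4)).trans h5
    rw [le_div_iff₀ (by positivity), mul_comm]
    exact_mod_cast h6
  refine (sum_le_sum this).trans (le_of_eq ?_)
  rw [← sum_div, ← mul_sum, ← Nat.cast_sum, sum_atH hG]

theorem core {Cs : ℝ} {Ct : ℕ} (hs : 1 ≤ Cs) (ht : 1 ≤ Ct) (hS : SideFor d Cs) (hT : TBFor d Ct)
    {τ : Pt d →ₗ[ℂ] ℂ} {X U V : Finset (Pt d)} {G : Finset (Ed d)} {D n r : ℕ}
    (c : Cfg τ X U V G r) (hsep : frk (pol (4 * D) up) X = X.card)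
    (hn : ∀ Z ⊆ X, Nul Z → Z.card ≤ n)
    (hP : Par d Cs Ct D n r U.card V.card G.card) : False := by
  obtain ⟨E', E, s, i₀, jU, jV, h, h₁, h1, -, h3, h4, h5, ok1, vx1, ok2, vx2, ok3, vx3⟩ := hP
  have h1' : Ct ≤ E' := by exact_mod_cast h1
  have h5' : 4 * D ≤ s := by exact_mod_cast h5
  have hsepX : frk (pol s up) X = X.card :=
    le_antisymm (frk_le_card _ _) (hsep ▸ frk_mono_left (pol_mono h5' _) X)
  obtain ⟨lU, hlU⟩ := exists_layT τ E G
  obtain ⟨lV, hlV⟩ := exists_layT τ E (G.image Prod.swap)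
  have c' := c.swap
  have hlU' : LayT τ E ((G.image Prod.swap).image Prod.swap) fun e => lU e.swap.swap := by
    rw [swap_swap]; exact hlU
  set H1 := G.filter fun e => lV e.swap < i₀ with hH1
  set H2 := G.filter fun e => i₀ ≤ lV e.swap ∧ (lU e : ℤ) + h ≤ lV e.swap with hH2
  set H3 := G.filter fun e => ¬ ((lU e : ℤ) + h ≤ lV e.swap) with hH3
  have hcov : G ⊆ H1 ∪ H2 ∪ H3 := by
    intro e he
    simp only [hH1, hH2, hH3, mem_union, mem_filter]
    by_cases ha : lV e.swap < i₀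
    · exact Or.inl (Or.inl ⟨he, ha⟩)
    · by_cases hb : (lU e : ℤ) + h ≤ lV e.swap
      · exact Or.inl (Or.inr ⟨he, not_lt.1 ha, hb⟩)
      · exact Or.inr ⟨he, hb⟩
  have hsw : ∀ H ⊆ G, ∀ e ∈ H.image Prod.swap, IsEd τ e := fun H hH e he =>
    c'.hE e (image_subset_image hH he)
  have b1 : (H1.card : ℝ) ≤ 3 / 100 * G.card := by
    rcases vx1 with h0 | vx1
    · have : H1 = ∅ := by
        rw [hH1, filter_eq_empty_iff]; intro e _; omega
      rw [this]; simp
    · have := side2 hs hS hT τ V U (G.image Prod.swap) (H1.image Prod.swap) lV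
        (fun e => lU e.swap) E' E s n r ((i₀ : ℤ) - 1) h₁ (U.card * (2 * E') ^ (d - 1)) c'.hG
        (image_subset_image (filter_subset _ _)) c'.hne c'.hE h3 (ht.trans h1') h1' h4 hlV hlU'
        (by
          intro e he hlt
          obtain ⟨e', he', rfl⟩ := mem_image.1 he
          have := (mem_filter.1 he').2
          omega)
        (val_sum_le τ U _ (hsw _ (filter_subset _ _)) (ht.trans h1')) c'.rT
        (frk_full_sub hsepX c.hV) (fun Z hZ => hn Z (hZ.trans c.hV)) c'.mU
        (by rw [card_swap]; exact ok1) (by rw [card_swap]; exact vx1)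
      rwa [card_swap, card_swap] at this
  have b2 : (H2.card : ℝ) ≤ 3 / 100 * G.card :=
    side2 hs hS hT τ U V G H2 lU (fun e => lV e.swap) E E s n r jU h (2 * G.card / 2 ^ i₀) c.hG
      (filter_subset _ _) c.hne c.hE le_rfl (ht.trans (h1'.trans h3)) (h1'.trans h3) h4 hlU hlV
      (fun e he _ => (mem_filter.1 he).2.2)
      (val_sum_lay c.hG (filter_subset _ _) c.hE hlV i₀ fun e he => (mem_filter.1 he).2.1) c.rT
      (frk_full_sub hsepX c.hU) (fun Z hZ => hn Z (hZ.trans c.hU)) c.mU ok2 vx2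
  have b3 : (H3.card : ℝ) ≤ 3 / 100 * G.card := by
    have := side2 hs hS hT τ V U (G.image Prod.swap) (H3.image Prod.swap) lV
      (fun e => lU e.swap) E E s n r jV (1 - h) (U.card * (2 * E) ^ (d - 1)) c'.hG
      (image_subset_image (filter_subset _ _)) c'.hne c'.hE le_rfl (ht.trans (h1'.trans h3))
      (h1'.trans h3) h4 hlV hlU'
      (by
        intro e he _
        obtain ⟨e', he', rfl⟩ := mem_image.1 he
        have := (mem_filter.1 he').2
        simp only [Prod.swap_swap]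
        omega)
      (val_sum_le τ U _ (hsw _ (filter_subset _ _)) (ht.trans (h1'.trans h3))) c'.rT
      (frk_full_sub hsepX c.hV) (fun Z hZ => hn Z (hZ.trans c.hV)) c'.mU
      (by rw [card_swap]; exact ok3) (by rw [card_swap]; exact vx3)
    rwa [card_swap, card_swap] at this
  have hc : G.card ≤ H1.card + H2.card + H3.card :=
    (card_le_card hcov).trans ((card_union_le _ _).trans
      (Nat.add_le_add_right (card_union_le _ _) _))
  have hc' : (G.card : ℝ) ≤ H1.card + H2.card + H3.card := by exact_mod_cast hc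
  have hpos : (0 : ℝ) < G.card := by exact_mod_cast c.hne.card_pos
  linarith

end MainAux

open MainAux in
theorem mainStmt {d : ℕ} (hd : 3 ≤ d) (hF : FlatStmt d) (hK : KLStmt d) (hM : MBStmt d) :
    MainStmt d := by
  have : NeZero d := ⟨by omega⟩
  obtain ⟨Cp, hP⟩ := pv (by omega) hF hK hM
  obtain ⟨Cs, hs, hS⟩ := side hP
  obtain ⟨Ct, ht, hT⟩ := tb hF hK
  obtain ⟨x, δ, ε₀, hx, hδ, hε, h2⟩ := par2 d hd Cs Ct hs (by exact_mod_cast ht)
  obtain ⟨μ₀, hμ, h1⟩ := par1 d hd x δ hx hδ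
  refine ⟨ε₀, μ₀, hε, fun X G D n r hD hsep hn hnN hG hE rT rH hr hN => ?_⟩
  by_contra hlt
  rw [not_lt] at hlt
  have hD' : (1 : ℝ) ≤ D := by exact_mod_cast hD
  have hNpos : (0 : ℝ) < X.card := lt_of_lt_of_le (by positivity) hN
  have hne : G.Nonempty := by
    rw [nonempty_iff_ne_empty]
    rintro rfl
    simp only [card_empty, Nat.cast_zero, zero_mul] at hlt
    nlinarith
  obtain ⟨τ, hτ⟩ := exists_tau G hE
  obtain ⟨U, hU, V, hV, G', hG', hG'', hne', hext, mU, mV⟩ := exists_max X G hG hne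
  have c : Cfg τ X U V G' r :=
    ⟨hU, hV, hG'', hne', fun e he => hτ e (hG' he),
      fun y Q hQ => rT y Q (hQ.trans (filter_subset_filter _ hG')),
      fun y Q hQ => rH y Q (hQ.trans (filter_subset_filter _ hG')), mU, mV⟩
  have hext' : ((X.card : ℝ) ^ 2 / (8 * D)) ^ 8 * (U.card * V.card) ≤
      (G'.card : ℝ) ^ 8 * (X.card : ℝ) ^ 2 := by
    have h3 : (G.card : ℝ) ^ 8 * (U.card * V.card) ≤ (G'.card : ℝ) ^ 8 * (X.card : ℝ) ^ 2 := by
      exact_mod_cast hext
    refine le_trans (mul_le_mul_of_nonneg_right (pow_le_pow_left₀ (by positivity) ?_ 8)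
      (by positivity)) h3
    rw [div_le_iff₀ (by positivity)]
    exact hlt
  have key : ∀ (U V : Finset (Pt d)) (G' : Finset (Ed d)), Cfg τ X U V G' r → U.card ≤ V.card →
      ((X.card : ℝ) ^ 2 / (8 * D)) ^ 8 * (U.card * V.card) ≤
        (G'.card : ℝ) ^ 8 * (X.card : ℝ) ^ 2 → False := by
    intro U V G' c hUV hx8
    have he : (0 : ℝ) < G'.card := by exact_mod_cast c.hne.card_pos
    have hUpos : (0 : ℝ) < U.card := by
      obtain ⟨e, he⟩ := c.hne
      exact_mod_cast card_pos.2 ⟨_, (mem_product.1 (c.hG he)).1⟩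
    have hUV' : (U.card : ℝ) ≤ V.card := by exact_mod_cast hUV
    have hVX : (V.card : ℝ) ≤ X.card := by exact_mod_cast card_le_card c.hV
    have heUV : (G'.card : ℝ) ≤ U.card * V.card := by
      have := card_le_card c.hG
      rw [card_product] at this
      exact_mod_cast this
    refine core hs ht hS hT c hsep hn (h2 X.card D n r U.card V.card G'.card hD' (by positivity)
      (by positivity) hr hUpos hUV' hVX he heUV fun s hs0 hs1 => ?_)
    exact h1 X.card D n U.card V.card G'.card s hD' (by positivity) (by exact_mod_cast hnN) hN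
      hUpos hUV' hVX he heUV hx8 hs0 hs1
  rcases le_total U.card V.card with h | h
  · exact key U V G' c h hext'
  · refine key V U _ c.swap h ?_
    rw [card_swap, mul_comm (V.card : ℝ)]
    exact hext'

end Crest.Agent.R65.Mn
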