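import Crest.Agent.R65.Mn.Flag

/-! Row 65, main module: restriction to the sections `F_y` and values at edge points. -/

set_option autoImplicit false

open Finset MvPolynomial
open scoped Classical

namespace Crest.Agent.R65.Mn

variable {d : ℕ} [NeZero d]

namespace ValAux

theorem eval_aeval {K σ τ : Type} [Field K] (v : τ → K) (g : σ → MvPolynomial τ K)
    (f : MvPolynomial σ K) : eval v (aeval g f) = eval (fun k => eval v (g k)) f := by
  induction f using MvPolynomial.induction_on with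
  | C a => simp
  | add p q hp hq => simp only [map_add, hp, hq]
  | mul_X p i hp => simp only [map_mul, hp, aeval_X, eval_X]

omit [NeZero d] in
theorem prj_C {K τ : Type} [Field K] (S : Fin d → Fin d → K) (x : Ix d → K) (i : Fin d) :
    prj (fun i j => (C (S i j) : MvPolynomial τ K)) (fun k => C (x k)) i = C (prj S x i) := by
  simp [prj]

theorem val_head {τ : Pt d →ₗ[ℂ] ℂ} {e : Ed d}
    (h : sec (SS d) (up e.2) (pz (dr τ e)) = sec (SS d) (up e.1) (pz (dr τ e)))
    (hr : ∀ (y : Pt d) (f : MvPolynomial (Ix d) (LL d)) (v : Fin d → LL d),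
      eval v (res y f) = eval (sec (SS d) (up y) v) f) (f : MvPolynomial (Ix d) (LL d)) :
    eval (pz (dr τ e)) (res e.1 f) = eval (pz (dr τ e)) (res e.2 f) := by
  rw [hr, hr, h]

end ValAux

theorem res_homog (y : Pt d) {f : MvPolynomial (Ix d) (LL d)} {E : ℕ} (hf : f.IsHomogeneous E) :
    (res y f).IsHomogeneous E := by
  have h := hf.aeval (sec (fun i j => (C (SS d i j) : MvPolynomial (Fin d) (LL d)))
    (fun k => C (up y k)) X) (n := 1) (by
      rintro (i | i)
      · exact isHomogeneous_X _ _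
      · simp only [sec, Sum.elim_inr]
        split_ifs
        · exact IsHomogeneous.sum _ _ _ fun j _ => isHomogeneous_C_mul_X _ _
        · rw [ValAux.prj_C, ValAux.prj_C]
          exact (isHomogeneous_C_mul_X _ _).sub (isHomogeneous_C_mul_X _ _))
  rwa [one_mul] at h

theorem eval_res (y : Pt d) (f : MvPolynomial (Ix d) (LL d)) (v : Fin d → LL d) :
    eval v (res y f) = eval (sec (SS d) (up y) v) f := by
  rw [res, ValAux.eval_aeval]
  congr 2
  funext k
  rcases k with i | i
  · simp [sec]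
  · simp only [sec, Sum.elim_inr]
    split_ifs
    · simp
    · rw [ValAux.prj_C, ValAux.prj_C]
      simp

/-- the sections of the two ends of an edge meet: `ζ(v, w) = 0` for `v = pz w`, `QQ w = 0`
(`sum_inr_pz`, `head_eq`). -/
theorem sec_head {τ : Pt d →ₗ[ℂ] ℂ} {e : Ed d} (h : IsEd τ e) :
    sec (SS d) (up e.2) (pz (dr τ e)) = sec (SS d) (up e.1) (pz (dr τ e)) := by
  funext k
  rcases k with i | i
  · simp [sec]
  · have h1 : up e.2 = up e.1 + algebraMap ℂ (LL d) (τ (e.2 - e.1)) • up (dr τ e) := by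
      conv_lhs => rw [head_eq h]
      rw [up_add, up_smul]
    have h2 : pz e.2 = pz e.1 + algebraMap ℂ (LL d) (τ (e.2 - e.1)) • pz (dr τ e) := by
      conv_lhs => rw [head_eq h]
      rw [pz_add, pz_smul]
    have h3 := sum_inr_pz (dr τ e)
    rw [QQ_dr h, map_zero] at h3
    simp only [sec, Sum.elim_inr]
    split_ifs
    · rw [h1]
      simp only [Pi.add_apply, Pi.smul_apply, smul_eq_mul, add_mul, sum_add_distrib, mul_assoc]
      rw [← mul_sum, h3, mul_zero, add_zero]
    · change pz e.2 i * _ - pz e.2 0 * _ = pz e.1 i * _ - pz e.1 0 * _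
      rw [h2]
      simp only [Pi.add_apply, Pi.smul_apply, smul_eq_mul]
      ring

theorem mem_Val {τ : Pt d →ₗ[ℂ] ℂ} {E : ℕ} {φ : Ed d → LL d} :
    φ ∈ Val τ E ↔ ∃ f : MvPolynomial (Ix d) (LL d), f.IsHomogeneous E ∧
      φ = fun e => eval (pz (dr τ e)) (res e.1 f) := by
  simp only [Val, Submodule.mem_map, mem_homogeneousSubmodule]
  refine exists_congr fun f => and_congr_right fun _ => ?_
  rw [eq_comm]
  refine Eq.congr_right ?_
  funext e
  simp [aeval_eq_eval]

/-- at a fixed head `x` the values factor through `res x f`, a form of degree `E` in `d` variables -/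
theorem frk_Val_choose (τ : Pt d →ₗ[ℂ] ℂ) (E : ℕ) (x : Pt d) (Q : Finset (Ed d))
    (hQ : ∀ e ∈ Q, IsEd τ e ∧ e.2 = x) : frk (Val τ E) Q ≤ (E + (d - 1)).choose (d - 1) := by
  have h1 : frk (Val τ E) Q ≤
      frk ((homogeneousSubmodule (Fin d) (LL d) E).map (evs fun e : Ed d => pz (dr τ e))) Q := by
    refine frk_le_of_forall Q fun φ hφ => ?_
    obtain ⟨f, hf, rfl⟩ := mem_Val.mp hφ
    refine ⟨_, Submodule.mem_map_of_mem ((mem_homogeneousSubmodule _ _).mpr (res_homog x hf)),
      fun e he => ?_⟩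
    beta_reduce
    rw [evs_apply, ValAux.val_head (sec_head (hQ e he).1) eval_res, (hQ e he).2]
  refine h1.trans ((frk_map_le _ _ Q).trans (le_of_eq ?_))
  rw [finrank_homog, Fintype.card_fin]

/-- ... and `w ↦ (res x f)(pz w)` is a polynomial of degree `≤ Ef` in the direction -/
theorem frk_Val_Dir (τ : Pt d →ₗ[ℂ] ℂ) {Ef E : ℕ} (hE : Ef ≤ E) (x : Pt d) (Q : Finset (Ed d))
    (hQ : ∀ e ∈ Q, IsEd τ e ∧ e.2 = x) : frk (Val τ Ef) Q ≤ frk (Dir τ E) Q := by
  have h1 : frk (Val τ Ef) Q ≤ frk (pol Ef fun e : Ed d => pz (dr τ e)) Q := by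
    refine frk_le_of_forall Q fun φ hφ => ?_
    obtain ⟨f, hf, rfl⟩ := mem_Val.mp hφ
    refine ⟨_, mem_pol.mpr ⟨res x f, (res_homog x hf).totalDegree_le, rfl⟩, fun e he => ?_⟩
    beta_reduce
    rw [ValAux.val_head (sec_head (hQ e he).1) eval_res, (hQ e he).2]
  have h2 : frk (pol Ef fun e : Ed d => pz (dr τ e)) Q ≤
      frk (pol Ef fun e : Ed d => up (dr τ e)) Q := by
    refine frk_pol_subst Ef _ _ Q (prj (fun i j => C (SS d i j)) X) (fun k => ?_) fun e _ k => ?_
    · refine IsHomogeneous.totalDegree_le ?_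
      exact (isHomogeneous_X _ _).add
        (IsHomogeneous.sum _ _ _ fun j _ => isHomogeneous_C_mul_X _ _)
    · simp [pz, prj]
  exact h1.trans (h2.trans (frk_mono_left (pol_mono hE _) Q))

theorem TS_mono (E : ℕ) {S S' : Finset (Pt d)} (h : S ⊆ S') : TS E S ⊆ TS E S' := by
  exact fun y hy f hf h0 => hy f hf fun s hs => h0 s (h hs)

omit [NeZero d] in
theorem ordGe_one {K σ : Type} [Field K] (g : MvPolynomial σ K) (p : σ → K) :
    OrdGe g p 1 ↔ eval p g = 0 := by
  have e : coeff 0 (aeval (fun i => X i + C (p i) : σ → MvPolynomial σ K) g) = eval p g := by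
    rw [← constantCoeff_eq, ← eval_zero, ValAux.eval_aeval]
    simp
  constructor
  · intro h
    rw [← e]
    exact h 0 (by simp)
  · intro h α hα
    have : α = 0 := by
      rw [← Finsupp.degree_eq_zero_iff]; omega
    rw [this, e, h]

omit [NeZero d] in
theorem OrdGe.mono {K σ : Type} [Field K] {g : MvPolynomial σ K} {p : σ → K} {m m' : ℕ}
    (h : OrdGe g p m) (hm : m' ≤ m) : OrdGe g p m' := by
  exact fun α hα => h α (hα.trans_le hm)

end Crest.Agent.R65.Mn
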