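import Crest.Agent.R65.Mn.ParDefs
import Crest.Agent.R65.Mn.Val

/-! Row 65, main module: the extremal pair, and the side lemma for it. -/

set_option autoImplicit false

open Finset MvPolynomial
open scoped Classical

namespace Crest.Agent.R65.Mn

variable {d : ℕ}

/-- maximise `e(U, V)^8 / (|U| |V|)` over pairs of nonempty subsets of `X`
(`Finset.exists_max_image`; for `T = ∅` the left side is `0`). -/
theorem exists_max (X : Finset (Pt d)) (G : Finset (Ed d)) (hG : G ⊆ X ×ˢ X) (hne : G.Nonempty) :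
    ∃ U ⊆ X, ∃ V ⊆ X, ∃ G' ⊆ G, G' ⊆ U ×ˢ V ∧ G'.Nonempty ∧
      G.card ^ 8 * (U.card * V.card) ≤ G'.card ^ 8 * X.card ^ 2 ∧
      (∀ T ⊆ U, (G'.filter fun e => e.1 ∈ T).card ^ 8 * U.card ≤ G'.card ^ 8 * T.card) ∧
      (∀ T ⊆ V, (G'.filter fun e => e.2 ∈ T).card ^ 8 * V.card ≤ G'.card ^ 8 * T.card) := by
  set ee : Finset (Pt d) × Finset (Pt d) → Finset (Ed d) := fun p =>
    G.filter fun e => e.1 ∈ p.1 ∧ e.2 ∈ p.2 with hee
  set val : Finset (Pt d) × Finset (Pt d) → ℝ := fun p =>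
    ((ee p).card : ℝ) ^ 8 / (p.1.card * p.2.card) with hval
  obtain ⟨⟨U, V⟩, hUV, hmax⟩ := exists_max_image (X.powerset ×ˢ X.powerset) val
    ⟨(∅, ∅), by simp⟩
  simp only [mem_product, mem_powerset] at hUV
  have hX : (0 : ℝ) < X.card := by
    obtain ⟨e, he⟩ := hne
    exact_mod_cast card_pos.mpr ⟨e.1, (mem_product.mp (hG he)).1⟩
  have hG0 : (0 : ℝ) < G.card := by exact_mod_cast hne.card_pos
  have hXX : ee (X, X) = G := filter_true_of_mem fun e he => mem_product.mp (hG he)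
  have h1 : (G.card : ℝ) ^ 8 / (X.card * X.card) ≤ ((ee (U, V)).card : ℝ) ^ 8 / (U.card * V.card) := by
    have := hmax (X, X) (by simp)
    simp only [hval, hXX] at this
    exact this
  have hne' : (ee (U, V)).Nonempty := by
    by_contra h0
    rw [not_nonempty_iff_eq_empty.mp h0] at h1
    have : (0 : ℝ) < (G.card : ℝ) ^ 8 / (X.card * X.card) := by positivity
    simp only [card_empty, Nat.cast_zero, ne_eq, OfNat.ofNat_ne_zero, not_false_eq_true, zero_pow,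
      zero_div] at h1
    linarith
  obtain ⟨e₀, he₀⟩ := hne'
  have hU : (0 : ℝ) < U.card := by exact_mod_cast card_pos.mpr ⟨e₀.1, (mem_filter.mp he₀).2.1⟩
  have hV : (0 : ℝ) < V.card := by exact_mod_cast card_pos.mpr ⟨e₀.2, (mem_filter.mp he₀).2.2⟩
  refine ⟨U, hUV.1, V, hUV.2, ee (U, V), filter_subset _ _,
    fun e he => mem_product.mpr (mem_filter.mp he).2, ⟨e₀, he₀⟩, ?_, fun T hT => ?_, fun T hT => ?_⟩
  · rw [div_le_div_iff₀ (by positivity) (by positivity), ← pow_two] at h1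
    exact_mod_cast h1
  · rcases T.eq_empty_or_nonempty with rfl | hT0
    · simp
    have hT1 : (0 : ℝ) < T.card := by exact_mod_cast hT0.card_pos
    have h2 := hmax (T, V) (by simp [hT.trans hUV.1, hUV.2])
    have e : ee (T, V) = (ee (U, V)).filter fun e => e.1 ∈ T := by
      ext e
      simp only [hee, mem_filter]
      exact ⟨fun h => ⟨⟨h.1, hT h.2.1, h.2.2⟩, h.2.1⟩, fun h => ⟨h.1.1, h.2, h.1.2.2⟩⟩
    simp only [hval, e] at h2
    rw [div_le_div_iff₀ (by positivity) (by positivity), ← mul_assoc, ← mul_assoc] at h2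
    exact_mod_cast le_of_mul_le_mul_right h2 hV
  · rcases T.eq_empty_or_nonempty with rfl | hT0
    · simp
    have hT1 : (0 : ℝ) < T.card := by exact_mod_cast hT0.card_pos
    have h2 := hmax (U, T) (by simp [hT.trans hUV.2, hUV.1])
    have e : ee (U, T) = (ee (U, V)).filter fun e => e.2 ∈ T := by
      ext e
      simp only [hee, mem_filter]
      exact ⟨fun h => ⟨⟨h.1, h.2.1, hT h.2.2⟩, h.2.2⟩, fun h => ⟨h.1.1, h.1.2.1, h.2⟩⟩
    simp only [hval, e] at h2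
    rw [div_le_div_iff₀ (by positivity) (by positivity), mul_comm (U.card : ℝ),
      mul_comm (U.card : ℝ), ← mul_assoc, ← mul_assoc] at h2
    exact_mod_cast le_of_mul_le_mul_right h2 hU

/-- `SideFor` with `ε = 1 / (100 Cs)` gives `S`; `T = U.filter (· ∈ TS Ef S)` has
`|T| ≤ |U| / 10^16` by `TBFor` (`frk_full_sub`) and `Ok`, so `e(T, V) ≤ |G| / 100` by `hmax`. -/
theorem side2 [NeZero d] {Cs : ℝ} {Ct : ℕ} (hs : 1 ≤ Cs) (hS : SideFor d Cs) (hT : TBFor d Ct)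
    (τ : Pt d →ₗ[ℂ] ℂ) (U V : Finset (Pt d)) (G H : Finset (Ed d)) (layT layH : Ed d → ℕ)
    (Ef E s n r : ℕ) (j₀ h : ℤ) (M : ℝ) (hG : G ⊆ U ×ˢ V) (hH : H ⊆ G) (hne : G.Nonempty)
    (hE : ∀ e ∈ G, IsEd τ e) (hEf : Ef ≤ E) (hE1 : 1 ≤ Ef) (hCt : Ct ≤ Ef) (hEs : E ≤ s)
    (hlT : LayT τ E G layT) (hlH : LayT τ E (G.image Prod.swap) fun e => layH e.swap)
    (hsh : ∀ e ∈ H, j₀ < layT e → layT e + h ≤ layH e)
    (hM : (∑ x ∈ V, (frk (Val τ Ef) (atH H x) : ℝ)) ≤ M)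
    (hr : ∀ y, ∀ Q ⊆ atT G y, Nul (Q.image Prod.snd) → Q.card ≤ r)
    (hsep : frk (pol s up) U = U.card) (hn : ∀ Z ⊆ U, Nul Z → Z.card ≤ n)
    (hmax : ∀ T ⊆ U, (G.filter fun e => e.1 ∈ T).card ^ 8 * U.card ≤ G.card ^ 8 * T.card)
    (hOk : Ok d Ct (M * U.card / (1 / (100 * Cs) * G.card) +
      Cs * (2 : ℝ) ^ (-j₀ - h) * U.card / (1 / (100 * Cs)) ^ 3) U.card n s Ef)
    (hVx : Vx d Cs U.card G.card r Ef E j₀) :
    (H.card : ℝ) ≤ 3 / 100 * G.card := by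
  have hs0 : 0 < Cs := by linarith
  obtain ⟨S, hSU, hS1, hS2⟩ := hS τ U V G H layT layH Ef E r j₀ h M (1 / (100 * Cs)) hG hH hne hE
    hEf (hE1.trans hEf) (by positivity) (by rw [div_le_one (by positivity)]; linarith) hlT hlH hsh
    hM hr
  obtain ⟨hO1, hO2⟩ := hOk
  set σ := M * U.card / (1 / (100 * Cs) * G.card) +
    Cs * (2 : ℝ) ^ (-j₀ - h) * U.card / (1 / (100 * Cs)) ^ 3 with hσ
  set T := U.filter (· ∈ TS Ef S) with hTdef
  have hTU : T ⊆ U := filter_subset _ _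
  have h1 : Ct * S.card ≤ Ef ^ d := by
    have : (Ct : ℝ) * S.card ≤ (Ef : ℝ) ^ d :=
      (mul_le_mul_of_nonneg_left hS1 (Nat.cast_nonneg _)).trans hO1
    exact_mod_cast this
  have h2 := hT T S Ef s n hCt (hEf.trans hEs) (frk_full_sub hsep hTU)
    (fun Z hZ => hn Z (hZ.trans hTU)) h1 fun y hy => (mem_filter.mp hy).2
  have hEf0 : (0 : ℝ) < (Ef : ℝ) ^ (d - 1) := by
    have : (0 : ℝ) < Ef := by exact_mod_cast hE1
    positivity
  have h3 : (T.card : ℝ) * (Ef : ℝ) ^ (d - 1) ≤ U.card / 10 ^ 16 * (Ef : ℝ) ^ (d - 1) := by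
    calc (T.card : ℝ) * (Ef : ℝ) ^ (d - 1)
        ≤ Ct * (Ef * n * (Ef : ℝ) ^ (d - 1) + S.card * (s : ℝ) ^ (d - 1)) := by exact_mod_cast h2
      _ ≤ Ct * (Ef * n * (Ef : ℝ) ^ (d - 1) + σ * (s : ℝ) ^ (d - 1)) := by gcongr
      _ ≤ _ := hO2.trans (le_of_eq (by ring))
  have h4 : (T.card : ℝ) ≤ U.card / 10 ^ 16 := le_of_mul_le_mul_right h3 hEf0
  have hU : (0 : ℝ) < U.card := by
    obtain ⟨e, he⟩ := hne
    exact_mod_cast card_pos.mpr ⟨e.1, (mem_product.mp (hG he)).1⟩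
  have e1 : (G.filter fun e => e.1 ∈ TS Ef S) = G.filter fun e => e.1 ∈ T :=
    filter_congr fun e he => by
      simp only [hTdef, mem_filter, (mem_product.mp (hG he)).1, true_and]
  have h5 : ((G.filter fun e => e.1 ∈ T).card : ℝ) ^ 8 * U.card ≤ (G.card / 100 : ℝ) ^ 8 * U.card := by
    calc ((G.filter fun e => e.1 ∈ T).card : ℝ) ^ 8 * U.card ≤ (G.card : ℝ) ^ 8 * T.card := by
          exact_mod_cast hmax T hTU
      _ ≤ (G.card : ℝ) ^ 8 * (U.card / 10 ^ 16) := by gcongr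
      _ = _ := by ring
  have h6 : ((G.filter fun e => e.1 ∈ T).card : ℝ) ≤ G.card / 100 :=
    le_of_pow_le_pow_left₀ (by norm_num) (by positivity) (le_of_mul_le_mul_right h5 hU)
  have e2 : Cs * (1 / (100 * Cs)) = 1 / 100 := by field_simp
  rw [e1, e2] at hS2
  unfold Vx at hVx
  linarith

end Crest.Agent.R65.Mn
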