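import Crest.Agent.R65.Mn.Val

/-! Row 65, main module: Taylor coefficients of `f|F_y` at an edge point are flag functions. -/

set_option autoImplicit false

open Finset MvPolynomial
open scoped Classical

namespace Crest.Agent.R65.Mn

variable {d : ℕ} [NeZero d]

namespace TaylorAux

/-- all Taylor coefficients are flag functions -/
def AA (τ : Pt d →ₗ[ℂ] ℂ) (k : ℕ) (Ψ : Ed d → MvPolynomial (Fin d) (LL d)) : Prop :=
  ∀ α : Fin d →₀ ℕ, (fun e => coeff α (Ψ e)) ∈ Flg τ (α.degree + 1) k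

omit [NeZero d]

variable {τ : Pt d →ₗ[ℂ] ℂ}

theorem AA_zero (k : ℕ) : AA τ k fun _ => 0 := by
  intro α
  simp only [coeff_zero]
  exact Submodule.zero_mem _

theorem AA.add {k : ℕ} {Ψ Φ : Ed d → MvPolynomial (Fin d) (LL d)} (h : AA τ k Ψ) (h' : AA τ k Φ) :
    AA τ k fun e => Ψ e + Φ e := by
  intro α
  simp only [coeff_add]
  exact Submodule.add_mem _ (h α) (h' α)

theorem AA.sub {k : ℕ} {Ψ Φ : Ed d → MvPolynomial (Fin d) (LL d)} (h : AA τ k Ψ) (h' : AA τ k Φ) :
    AA τ k fun e => Ψ e - Φ e := by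
  intro α
  simp only [coeff_sub]
  exact Submodule.sub_mem _ (h α) (h' α)

theorem AA.mono {k l : ℕ} {Ψ : Ed d → MvPolynomial (Fin d) (LL d)} (h : AA τ k Ψ) (hk : k ≤ l) :
    AA τ l Ψ := fun α => Flg_mono τ le_rfl hk (h α)

theorem AA_sum {ι : Type} {k : ℕ} (s : Finset ι) {Ψ : ι → Ed d → MvPolynomial (Fin d) (LL d)}
    (h : ∀ i ∈ s, AA τ k (Ψ i)) : AA τ k fun e => ∑ i ∈ s, Ψ i e := by
  induction s using Finset.induction_on with
  | empty => simpa using AA_zero k
  | insert a s ha ih =>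
    simp only [Finset.sum_insert ha]
    exact (h a (mem_insert_self _ _)).add (ih fun i hi => h i (mem_insert_of_mem hi))

theorem AA.mul {k l : ℕ} {Ψ Φ : Ed d → MvPolynomial (Fin d) (LL d)} (h : AA τ k Ψ)
    (h' : AA τ l Φ) : AA τ (k + l) fun e => Ψ e * Φ e := by
  intro α
  have e1 : (fun e => coeff α (Ψ e * Φ e)) = ∑ p ∈ antidiagonal α,
      (fun e => coeff p.1 (Ψ e)) * (fun e => coeff p.2 (Φ e)) := by
    funext e
    rw [coeff_mul, Finset.sum_apply]
    rfl
  rw [e1]
  refine Submodule.sum_mem _ fun p hp => ?_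
  have hp' : α.degree = p.1.degree + p.2.degree := by
    rw [← mem_antidiagonal.1 hp, map_add]
  rw [hp']
  exact Flg_mul τ (h p.1) (h' p.2)

theorem AA_C {k : ℕ} {φ : Ed d → LL d} (h : φ ∈ pol k (lin τ)) : AA τ k fun e => C (φ e) := by
  intro α
  by_cases hα : α = 0
  · subst hα
    simp only [coeff_zero_C]
    exact Flg_mono τ (by omega) le_rfl (pol_lin_le_Flg τ k h)
  · have : (fun e => coeff α (C (φ e) : MvPolynomial (Fin d) (LL d))) = 0 := by
      funext e
      rw [coeff_C, if_neg (Ne.symm hα)]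
      rfl
    rw [this]
    exact Submodule.zero_mem _

theorem AA_const (p : MvPolynomial (Fin d) (LL d)) : AA τ 0 fun _ => p := by
  intro α
  exact Flg_mono τ (by omega) le_rfl (pol_lin_le_Flg τ 0 (const_mem_pol 0 _ _))

theorem AA_tX (j : Fin d) :
    AA τ 0 fun e => C (algebraMap ℂ (LL d) (τ e.1)) * X j := by
  intro α
  by_cases hα : Finsupp.single j 1 = α
  · subst hα
    simp only [coeff_C_mul, coeff_X, Finsupp.degree_single]
    refine Submodule.subset_span ⟨1, by omega, fun _ => 1, const_mem_pol 0 _ _, ?_⟩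
    funext e
    simp
  · have : (fun e : Ed d => coeff α (C (algebraMap ℂ (LL d) (τ e.1)) * X j :
        MvPolynomial (Fin d) (LL d))) = 0 := by
      funext e
      rw [coeff_C_mul, coeff_X, if_neg hα, mul_zero]
      rfl
    rw [this]
    exact Submodule.zero_mem _

theorem AA.pow {k : ℕ} {Ψ : Ed d → MvPolynomial (Fin d) (LL d)} (h : AA τ k Ψ) (n : ℕ) :
    AA τ (k * n) fun e => Ψ e ^ n := by
  induction n with
  | zero => simpa using AA_const 1
  | succ n ih =>
    simp only [pow_succ, Nat.mul_succ]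
    exact ih.mul h

theorem AA_prod {ι : Type} (s : Finset ι) {k : ι → ℕ}
    {Ψ : ι → Ed d → MvPolynomial (Fin d) (LL d)} (h : ∀ i ∈ s, AA τ (k i) (Ψ i)) :
    AA τ (∑ i ∈ s, k i) fun e => ∏ i ∈ s, Ψ i e := by
  induction s using Finset.induction_on with
  | empty => simpa using AA_const 1
  | insert a s ha ih =>
    simp only [Finset.sum_insert ha, Finset.prod_insert ha]
    exact (h a (mem_insert_self _ _)).mul (ih fun i hi => h i (mem_insert_of_mem hi))

theorem AA_aeval {σ : Type} {k Ef : ℕ} {co : Ed d → σ → MvPolynomial (Fin d) (LL d)}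
    (h : ∀ i, AA τ k fun e => co e i) (f : MvPolynomial σ (LL d)) (hf : f.totalDegree ≤ Ef) :
    AA τ (k * Ef) fun e => aeval (co e) f := by
  have e1 : (fun e => aeval (co e) f) = fun e => ∑ β ∈ f.support,
      C (coeff β f) * ∏ i ∈ β.support, co e i ^ β i := by
    funext e
    rw [aeval_def, eval₂_eq]
    rfl
  rw [e1]
  refine AA_sum _ fun β hβ => ?_
  have h1 := (AA_const (τ := τ) (C (coeff β f))).mul
    (AA_prod β.support (k := fun i => k * β i) (Ψ := fun i e => co e i ^ β i)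
      fun i _ => (h i).pow (β i))
  refine h1.mono ?_
  rw [zero_add, ← Finset.mul_sum]
  exact Nat.mul_le_mul_left k ((le_totalDegree hβ).trans hf)

theorem prj_mem {x : Ed d → Ix d → LL d} (hx : ∀ k, (fun e => x e k) ∈ pol 1 (lin τ)) (i : Fin d) :
    (fun e => prj (SS d) (x e) i) ∈ pol 1 (lin τ) := by
  have e1 : (fun e => prj (SS d) (x e) i) =
      (fun e => x e (Sum.inl i)) + ∑ j, SS d i j • fun e => x e (Sum.inr j) := by
    funext e
    simp [prj, Finset.sum_apply]
  rw [e1]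
  exact Submodule.add_mem _ (hx _) (Submodule.sum_mem _ fun j _ => Submodule.smul_mem _ _ (hx _))

theorem w_mem (k : Ix d) : (fun e => up (dr τ e) k) ∈ pol 1 (lin τ) :=
  coord_mem_pol (lin τ) (Sum.inl k)

theorem y_mem (k : Ix d) : (fun e : Ed d => up (e.1 - τ e.1 • dr τ e) k) ∈ pol 1 (lin τ) :=
  coord_mem_pol (lin τ) (Sum.inr k)

theorem v_mem (i : Fin d) : (fun e => pz (dr τ e) i) ∈ pol 1 (lin τ) := prj_mem w_mem i

theorem z_mem (i : Fin d) : (fun e : Ed d => pz (e.1 - τ e.1 • dr τ e) i) ∈ pol 1 (lin τ) :=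
  prj_mem y_mem i

theorem AA_Xv (i : Fin d) : AA τ 1 fun e => X i + C (pz (dr τ e) i) :=
  ((AA_const (X i)).mono (by omega)).add (AA_C (v_mem i))

end TaylorAux

namespace TaylorAux

/-- the coordinates of the section at `X + v` -/
noncomputable def co (τ : Pt d →ₗ[ℂ] ℂ) (e : Ed d) : Ix d → MvPolynomial (Fin d) (LL d) :=
  Sum.elim (fun i => X i + C (pz (dr τ e) i)) fun i =>
    if i = 0 then
      (∑ j, C (up (e.1 - τ e.1 • dr τ e) (Sum.inr j)) * (X j + C (pz (dr τ e) j))) +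
        ∑ j, C (up (dr τ e) (Sum.inr j)) * (C (algebraMap ℂ (LL d) (τ e.1)) * X j)
    else
      (C (pz (e.1 - τ e.1 • dr τ e) i) * (X 0 + C (pz (dr τ e) 0)) -
        C (pz (e.1 - τ e.1 • dr τ e) 0) * (X i + C (pz (dr τ e) i))) +
      (C (pz (dr τ e) i) * (C (algebraMap ℂ (LL d) (τ e.1)) * X 0) -
        C (pz (dr τ e) 0) * (C (algebraMap ℂ (LL d) (τ e.1)) * X i))

theorem AA_co (τ : Pt d →ₗ[ℂ] ℂ) (k : Ix d) : AA τ 2 fun e => co τ e k := by
  rcases k with i | i
  · exact (AA_Xv i).mono (by omega)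
  · by_cases hi : i = 0
    · simp only [co, Sum.elim_inr, if_pos hi]
      have g1 := fun j : Fin d => (AA_C (y_mem (τ := τ) (Sum.inr j))).mul (AA_Xv j)
      have g2 := fun j : Fin d => ((AA_C (w_mem (τ := τ) (Sum.inr j))).mul (AA_tX j)).mono
        (show 1 + 0 ≤ 1 + 1 by omega)
      have h1 := AA_sum univ fun j _ => g1 j
      have h2 := AA_sum univ fun j _ => g2 j
      exact h1.add h2
    · simp only [co, Sum.elim_inr, if_neg hi]
      have h1 := ((AA_C (z_mem (τ := τ) i)).mul (AA_Xv 0)).sub ((AA_C (z_mem 0)).mul (AA_Xv i))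
      have h2 := (((AA_C (v_mem (τ := τ) i)).mul (AA_tX 0)).sub
        ((AA_C (v_mem 0)).mul (AA_tX i))).mono (show 1 + 0 ≤ 1 + 1 by omega)
      exact h1.add h2

omit [NeZero d] in
theorem prj_C (y : Pt d) (i : Fin d) :
    prj (fun i j => (C (SS d i j) : MvPolynomial (Fin d) (LL d))) (fun k => C (up y k)) i =
      C (pz y i) := by
  simp [prj, pz]

theorem co_eq {τ : Pt d →ₗ[ℂ] ℂ} {e : Ed d} (h : IsEd τ e) (k : Ix d) :
    aeval (fun i => X i + C (pz (dr τ e) i) : Fin d → MvPolynomial (Fin d) (LL d))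
      (sec (fun i j => (C (SS d i j) : MvPolynomial (Fin d) (LL d))) (fun k => C (up e.1 k)) X k) =
      co τ e k := by
  have hy : e.1 = (e.1 - τ e.1 • dr τ e) + τ e.1 • dr τ e := by simp
  have hu : ∀ k, up e.1 k =
      up (e.1 - τ e.1 • dr τ e) k + algebraMap ℂ (LL d) (τ e.1) * up (dr τ e) k := by
    intro k
    conv_lhs => rw [hy, up_add, up_smul]
    rfl
  have hz : ∀ i, pz e.1 i =
      pz (e.1 - τ e.1 • dr τ e) i + algebraMap ℂ (LL d) (τ e.1) * pz (dr τ e) i := by
    intro k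
    conv_lhs => rw [hy, pz_add, pz_smul]
    rfl
  have h0 : ∑ j, up (dr τ e) (Sum.inr j) * pz (dr τ e) j = 0 := by
    rw [sum_inr_pz, QQ_dr h, map_zero]
  rcases k with i | i
  · simp [sec, co]
  · by_cases hi : i = 0
    · simp only [sec, co, Sum.elim_inr, if_pos hi, map_sum, map_mul, aeval_C, aeval_X,
        algebraMap_eq]
      have h1 : ∑ j, (C (up (dr τ e) (Sum.inr j)) * C (pz (dr τ e) j) :
          MvPolynomial (Fin d) (LL d)) = 0 := by
        simp only [← C_mul, ← map_sum, h0, map_zero]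
      have h2 : ∀ j, (C (up e.1 (Sum.inr j)) * (X j + C (pz (dr τ e) j)) :
          MvPolynomial (Fin d) (LL d)) =
          (C (up (e.1 - τ e.1 • dr τ e) (Sum.inr j)) * (X j + C (pz (dr τ e) j)) +
            C (up (dr τ e) (Sum.inr j)) * (C (algebraMap ℂ (LL d) (τ e.1)) * X j)) +
          C (algebraMap ℂ (LL d) (τ e.1)) *
            (C (up (dr τ e) (Sum.inr j)) * C (pz (dr τ e) j)) := by
        intro j
        rw [hu, C_add, C_mul]
        ring
      simp only [h2, Finset.sum_add_distrib, ← Finset.mul_sum, h1, mul_zero, add_zero]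
    · simp only [sec, co, Sum.elim_inr, if_neg hi, prj_C, map_sub, map_mul, aeval_C, aeval_X,
        algebraMap_eq]
      rw [hz i, hz 0, C_add, C_add, C_mul, C_mul]
      ring

end TaylorAux

/-- Let `𝒜 k` be the set of `Ψ : Ed d → MvPolynomial (Fin d) (LL d)` with
`∀ α, (fun e => coeff α (Ψ e)) ∈ Flg τ (α.degree + 1) k`.  It is a submodule, monotone in `k`,
contains the constants, and `𝒜 k * 𝒜 l ⊆ 𝒜 (k + l)` (`coeff_mul`, `Flg_mul`).  With `w = dr τ e`,
`y₀ = e.1 - τ e.1 • w`, `t = τ e.1`, `v = pz w`, the coordinates of `sec S e.1 (X + v)` are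
`X i + v i` and `ζ(X + v, y₀) + t ζ(X, w)` (because `ζ(v, w) = 0` when `IsEd τ e`); these
functions of `e` lie in `𝒜 2`.  So `e ↦ aeval (those coordinates) f` lies in `𝒜 (2 * Ef)`
(induct on monomials), and it equals `aeval (X + C v) (res e.1 f)` when `IsEd τ e`. -/
theorem taylor_mem (τ : Pt d →ₗ[ℂ] ℂ) {Ef : ℕ} (f : MvPolynomial (Ix d) (LL d))
    (hf : f.totalDegree ≤ Ef) (α : Fin d →₀ ℕ) :
    ∃ φ ∈ Flg τ (α.degree + 1) (2 * Ef), ∀ e, IsEd τ e →
      φ e = coeff α (aeval (fun i => X i + C (pz (dr τ e) i) : Fin d → MvPolynomial (Fin d) (LL d))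
        (res e.1 f)) := by
  refine ⟨fun e => coeff α (aeval (TaylorAux.co τ e) f),
    TaylorAux.AA_aeval (TaylorAux.AA_co τ) f hf α, fun e he => ?_⟩
  have : (aeval (TaylorAux.co τ e) : MvPolynomial (Ix d) (LL d) →ₐ[LL d] _) =
      (aeval (fun i => X i + C (pz (dr τ e) i) : Fin d → MvPolynomial (Fin d) (LL d))).comp
        (res e.1) := by
    refine MvPolynomial.algHom_ext fun k => ?_
    rw [AlgHom.comp_apply, res, aeval_X, aeval_X, TaylorAux.co_eq he]
  simp only [this, AlgHom.comp_apply]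

end Crest.Agent.R65.Mn
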