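import Crest.Agent.R65.Mn.MultA
import Crest.Agent.R65.Mn.Taylor
import Crest.Agent.R65.Mn.DL

/-! Row 65, main module: the sample that forces multiplicities. -/

set_option autoImplicit false

open Finset MvPolynomial
open scoped Classical

namespace Crest.Agent.R65.Mn

/-- `J = (range (G.sup layT + 1)).filter (j₀ < j)`, `m j = 2 ^ (j - j₀).toNat`.  For `j ∈ J` take
`H'_j` from `layer_rank` (`Hj = H.filter (layT = j)`); losses `≤ ε |G| + 2 ε |G|` (`LayT.2`,
`sum_atT`).  `W j = Flg τ (m j) (3 E)` has `frk (W j) H'_j ≤ m j 3^(4d) frk (pol E lin) H'_j`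
(`frk_Flg`, `frk_pol_dl`), so the potential is `≤ 3^(4d) 2^(-j₀) ∑ 2^j R'_j / ε² ≤
3^(4d+1) 2^(-j₀-h) |G| / ε²` (`LayT.shift`).  `sampM` with `θ = ε |G|`; `undet_le` bounds the
undetermined flags by `4 ε |G|`.  `H'` = edges of `H` with `layT ≤ j₀` together with the determined
edges of the `H'_j`.  For these every Taylor coefficient of order `< m j` vanishes (`taylor_mem`,
`Flg_mono`; it vanishes on the edges with tail in `S` because `res s f = 0`). -/
theorem mult_sample (d : ℕ) [NeZero d] :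
    ∃ C : ℝ, 0 ≤ C ∧ ∀ (τ : Pt d →ₗ[ℂ] ℂ) (U V : Finset (Pt d)) (G H : Finset (Ed d))
      (layT layH : Ed d → ℕ) (Ef E : ℕ) (j₀ h : ℤ) (ε : ℝ),
      G ⊆ U ×ˢ V → H ⊆ G → G.Nonempty → (∀ e ∈ G, IsEd τ e) → Ef ≤ E → 0 < ε → ε ≤ 1 →
      LayT τ E G layT → LayT τ E (G.image Prod.swap) (fun e => layH e.swap) →
      (∀ e ∈ H, j₀ < layT e → layT e + h ≤ layH e) →
      ∃ S ⊆ U, ∃ H' ⊆ H, (S.card : ℝ) ≤ C * (2 : ℝ) ^ (-j₀ - h) * U.card / ε ^ 3 ∧
        (H.card : ℝ) ≤ H'.card + C * ε * G.card ∧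
        ∀ f : MvPolynomial (Ix d) (LL d), f.totalDegree ≤ Ef → (∀ s ∈ S, res s f = 0) →
          ∀ e ∈ H', j₀ < layT e →
            OrdGe (res e.1 f) (pz (dr τ e)) (2 ^ ((layT e : ℤ) - j₀).toNat) := by
  obtain ⟨c, hc⟩ : ∃ c : ℕ, c = 3 ^ Fintype.card (Ix d ⊕ Ix d) := ⟨_, rfl⟩
  have hc0 : (0 : ℝ) ≤ c := Nat.cast_nonneg _
  refine ⟨3 * c + 7, by positivity, ?_⟩
  intro τ U V G H layT layH Ef E j₀ h ε hG hH hne hE hEf hε hε1 hT hS hlay
  obtain ⟨N, hN⟩ : ∃ N : ℕ, ∀ e ∈ G, layT e < N :=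
    ⟨G.sup layT + 1, fun e he => Nat.lt_succ_of_le (Finset.le_sup he)⟩
  obtain ⟨J, hJ⟩ : ∃ J : Finset ℕ, J = (range N).filter fun j : ℕ => j₀ < (j : ℤ) := ⟨_, rfl⟩
  have hJs : J ⊆ range N := hJ ▸ Finset.filter_subset _ _
  have hJm : ∀ j ∈ J, j₀ < (j : ℤ) := fun j hj => by
    rw [hJ] at hj
    exact (Finset.mem_filter.1 hj).2
  obtain ⟨m, hm⟩ : ∃ m : ℕ → ℕ, ∀ j, m j = 2 ^ ((j : ℤ) - j₀).toNat := ⟨_, fun _ => rfl⟩
  have hmr : ∀ j ∈ J, (m j : ℝ) = 2 ^ j * (2 : ℝ) ^ (-j₀) := by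
    intro j hj
    rw [hm, Nat.cast_pow, Nat.cast_ofNat, ← zpow_natCast, ← zpow_natCast,
      Int.toNat_of_nonneg (sub_nonneg.2 (hJm j hj).le), ← zpow_add₀ two_ne_zero, sub_eq_add_neg]
  have key : ∀ j ∈ J, ∃ H' ⊆ H.filter (fun e => layT e = j),
      ((H.filter fun e => layT e = j).card : ℝ) ≤ H'.card +
        ε * (H.filter fun e => layT e = j).card + ε * ∑ y ∈ U, (2 : ℝ) ^ j *
          (frk (Dir τ E) ((atT G y).filter fun e => j ≤ layT e) : ℝ) ∧
      ε ^ 2 * 2 ^ j * (frk (pol E (lin τ)) H' : ℝ) ≤ ∑ x ∈ V,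
        (frk (Dir τ E) ((atT (G.image Prod.swap) x).filter
          fun e => (j : ℤ) + h ≤ layH e.swap) : ℝ) := by
    intro j hj
    refine layer_rank τ U V G _ layT layH E j h ε hG ((Finset.filter_subset _ _).trans hH) hE hε
      fun e he => ?_
    obtain ⟨a1, a2⟩ := Finset.mem_filter.1 he
    refine ⟨a2, ?_⟩
    have := hlay e a1 (by rw [a2]; exact hJm j hj)
    rwa [a2] at this
  choose! H' hH1 hH2 hH3 using key
  have hG0 : (0 : ℝ) < G.card := Nat.cast_pos.2 hne.card_pos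
  have hH'G : ∀ j ∈ J, H' j ⊆ G := fun j hj =>
    (hH1 j hj).trans ((Finset.filter_subset _ _).trans hH)
  have hH'l : ∀ j ∈ J, ∀ e ∈ H' j, layT e = j := fun j hj e he =>
    (Finset.mem_filter.1 (hH1 j hj he)).2
  obtain ⟨S, hSU, hS1, hS2⟩ := sampM J (fun j => Flg τ (m j) (3 * E)) H' U (ε * G.card)
    (mul_pos hε hG0)
  -- the potential
  have hpot : ε ^ 2 * ∑ j ∈ J, (2 : ℝ) ^ j * (frk (Flg τ (m j) (3 * E)) (H' j) : ℝ) ≤
      3 * c * (2 : ℝ) ^ (-j₀ - h) * G.card := by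
    have hsw : G.image Prod.swap ⊆ V ×ˢ U := by
      intro e he
      obtain ⟨e', he', rfl⟩ := Finset.mem_image.1 he
      have := Finset.mem_product.1 (hG he')
      exact Finset.mem_product.2 ⟨this.2, this.1⟩
    have a1 : ∑ x ∈ V, ((atT (G.image Prod.swap) x).card : ℝ) = G.card := by
      rw [← Nat.cast_sum, sum_atT hsw, Finset.card_image_of_injective _ Prod.swap_injective]
    have a2 : ∀ j ∈ J, ε ^ 2 * ((2 : ℝ) ^ j * (frk (Flg τ (m j) (3 * E)) (H' j) : ℝ)) ≤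
        c * (2 : ℝ) ^ (-j₀) * ∑ x ∈ V, (2 : ℝ) ^ j *
          (frk (Dir τ E) ((atT (G.image Prod.swap) x).filter
            fun e => (j : ℤ) + h ≤ layH e.swap) : ℝ) := by
      intro j hj
      have b1 : frk (Flg τ (m j) (3 * E)) (H' j) ≤ m j * (c * frk (pol E (lin τ)) (H' j)) :=
        (frk_Flg τ _ _ _).trans (Nat.mul_le_mul_left _
          (hc ▸ frk_pol_dl 3 E (by norm_num) (lin τ) (H' j)))
      have b2 : (frk (Flg τ (m j) (3 * E)) (H' j) : ℝ) ≤
          m j * (c * frk (pol E (lin τ)) (H' j)) := by exact_mod_cast b1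
      rw [hmr j hj] at b2
      rw [← Finset.mul_sum]
      calc _ ≤ ε ^ 2 * ((2 : ℝ) ^ j * (2 ^ j * (2 : ℝ) ^ (-j₀) *
              (c * frk (pol E (lin τ)) (H' j)))) := by gcongr
        _ = c * (2 : ℝ) ^ (-j₀) * (2 ^ j * (ε ^ 2 * 2 ^ j * (frk (pol E (lin τ)) (H' j) : ℝ))) := by
          ring
        _ ≤ _ := by
          gcongr
          exact hH3 j hj
    rw [Finset.mul_sum]
    refine (Finset.sum_le_sum a2).trans ?_
    rw [← Finset.mul_sum, Finset.sum_comm]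
    have a3 : ∀ x ∈ V, ∑ j ∈ J, (2 : ℝ) ^ j *
        (frk (Dir τ E) ((atT (G.image Prod.swap) x).filter
          fun e => (j : ℤ) + h ≤ layH e.swap) : ℝ) ≤
        3 * (2 : ℝ) ^ (-h) * (atT (G.image Prod.swap) x).card := fun x _ =>
      (Finset.sum_le_sum_of_subset_of_nonneg hJs fun _ _ _ => by positivity).trans
        (hS.shift x N h)
    calc _ ≤ c * (2 : ℝ) ^ (-j₀) * ∑ x ∈ V,
            3 * (2 : ℝ) ^ (-h) * (atT (G.image Prod.swap) x).card :=
          mul_le_mul_of_nonneg_left (Finset.sum_le_sum a3) (by positivity)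
      _ = _ := by
          rw [← Finset.mul_sum, a1, sub_eq_add_neg, zpow_add₀ two_ne_zero]
          ring
  -- undetermined flags
  obtain ⟨un, hun⟩ : ∃ un : ℕ → Ed d → Prop, ∀ j e, un j e ↔
      ∃ φ ∈ van (Flg τ (m j) (2 * Ef)) ((H' j).filter fun e => e.1 ∈ S), φ e ≠ 0 :=
    ⟨_, fun _ _ => Iff.rfl⟩
  have hund : ∑ j ∈ J, (((H' j).filter (un j)).card : ℝ) ≤ 4 * (ε * G.card) := by
    refine le_trans ?_ (mul_le_mul_of_nonneg_left hS1 (by norm_num))
    rw [Finset.sum_comm, Finset.mul_sum]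
    refine Finset.sum_le_sum fun j hj => ?_
    rw [Finset.card_eq_sum_card_fiberwise (f := Prod.fst) (t := U) (fun e he =>
      (Finset.mem_product.1 (hG (hH'G j hj (Finset.mem_filter.1 he).1))).1), Nat.cast_sum,
      Finset.mul_sum]
    refine Finset.sum_le_sum fun y _ => ?_
    have b1 := undet_le τ G (H' j) ((H' j).filter fun e => e.1 ∈ S) layT hEf hT j (m j)
      (hH'G j hj) (hH'l j hj) y
    have b2 : (((H' j).filter (un j)).filter fun e => e.1 = y).card ≤ _ :=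
      le_trans (Finset.card_le_card fun e he => by
        simp only [Finset.mem_filter, hun] at he ⊢
        exact ⟨⟨he.1.1, he.2⟩, he.1.2⟩) b1
    have b3 : ((((H' j).filter (un j)).filter fun e => e.1 = y).card : ℝ) ≤ 2 ^ (j + 2) *
        (frk (van (Flg τ (m j) (3 * E)) ((H' j).filter fun e => e.1 ∈ S))
          ((H' j).filter fun e => e.1 = y) : ℝ) := by exact_mod_cast b2
    rw [pow_add] at b3
    linarith
  -- losses in the layers
  have hloss : ∑ j ∈ J, (((H.filter fun e => layT e = j) \ H' j).card : ℝ) ≤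
      3 * (ε * G.card) := by
    have a1 : ∀ j ∈ J, (((H.filter fun e => layT e = j) \ H' j).card : ℝ) ≤
        ε * (H.filter fun e => layT e = j).card + ε * ∑ y ∈ U, (2 : ℝ) ^ j *
          (frk (Dir τ E) ((atT G y).filter fun e => j ≤ layT e) : ℝ) := by
      intro j hj
      have b1 := Finset.card_sdiff_add_card_eq_card (hH1 j hj)
      have b2 : (((H.filter fun e => layT e = j) \ H' j).card : ℝ) + (H' j).card =
          (H.filter fun e => layT e = j).card := by exact_mod_cast b1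
      have b3 := hH2 j hj
      linarith
    have a2 : ∑ j ∈ J, ((H.filter fun e => layT e = j).card : ℝ) ≤ G.card := by
      rw [← Nat.cast_sum, Finset.sum_card_fiberwise_eq_card_filter, Nat.cast_le]
      exact Finset.card_le_card ((Finset.filter_subset _ _).trans hH)
    have a3 : ∑ j ∈ J, ∑ y ∈ U, (2 : ℝ) ^ j *
        (frk (Dir τ E) ((atT G y).filter fun e => j ≤ layT e) : ℝ) ≤ 2 * G.card := by
      rw [Finset.sum_comm, ← sum_atT hG, Nat.cast_sum, Finset.mul_sum]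
      refine Finset.sum_le_sum fun y _ =>
        (Finset.sum_le_sum_of_subset_of_nonneg hJs fun _ _ _ => by positivity).trans ?_
      exact_mod_cast hT.2 y N
    refine (Finset.sum_le_sum a1).trans ?_
    rw [Finset.sum_add_distrib, ← Finset.mul_sum, ← Finset.mul_sum]
    nlinarith [mul_le_mul_of_nonneg_left a2 hε.le, mul_le_mul_of_nonneg_left a3 hε.le]
  refine ⟨S, hSU, H.filter fun e => j₀ < layT e → e ∈ H' (layT e) ∧ ¬ un (layT e) e,
    Finset.filter_subset _ _, ?_, ?_, ?_⟩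
  · rw [le_div_iff₀ (by positivity)]
    have a1 : (0 : ℝ) ≤ U.card := Nat.cast_nonneg _
    have a2 : (0 : ℝ) < (2 : ℝ) ^ (-j₀ - h) := by positivity
    have a3 := mul_le_mul_of_nonneg_left hS2 (sq_nonneg ε)
    have a4 := mul_le_mul_of_nonneg_right hpot a1
    have a5 : (S.card : ℝ) * ε ^ 3 * G.card ≤ 3 * c * (2 : ℝ) ^ (-j₀ - h) * U.card * G.card := by
      nlinarith
    have a6 := le_of_mul_le_mul_right a5 hG0
    nlinarith [mul_nonneg a2.le a1]
  · have a1 := Finset.card_filter_add_card_filter_not (s := H)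
      fun e => j₀ < layT e → e ∈ H' (layT e) ∧ ¬ un (layT e) e
    have a2 : (H.filter fun e => ¬ (j₀ < layT e → e ∈ H' (layT e) ∧ ¬ un (layT e) e)).card ≤
        ∑ j ∈ J, (((H.filter fun e => layT e = j) \ H' j).card + ((H' j).filter (un j)).card) := by
      refine le_trans (Finset.card_le_card fun e he => ?_) (Finset.card_biUnion_le.trans
        (Finset.sum_le_sum fun j _ => Finset.card_union_le
          ((H.filter fun e => layT e = j) \ H' j) ((H' j).filter (un j))))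
      obtain ⟨b1, b2⟩ := Finset.mem_filter.1 he
      rw [Classical.not_imp, not_and, not_not] at b2
      refine Finset.mem_biUnion.2 ⟨layT e, ?_, ?_⟩
      · rw [hJ]
        exact Finset.mem_filter.2 ⟨Finset.mem_range.2 (hN e (hH b1)), b2.1⟩
      · by_cases b3 : e ∈ H' (layT e)
        · exact Finset.mem_union_right _ (Finset.mem_filter.2 ⟨b3, b2.2 b3⟩)
        · exact Finset.mem_union_left _
            (Finset.mem_sdiff.2 ⟨Finset.mem_filter.2 ⟨b1, rfl⟩, b3⟩)
    have a3 : ((H.filter fun e => ¬ (j₀ < layT e → e ∈ H' (layT e) ∧ ¬ un (layT e) e)).card : ℝ) ≤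
        ∑ j ∈ J, (((H.filter fun e => layT e = j) \ H' j).card : ℝ) +
          ∑ j ∈ J, (((H' j).filter (un j)).card : ℝ) := by
      rw [← Finset.sum_add_distrib]
      exact_mod_cast a2
    have a4 : ((H.filter fun e => j₀ < layT e → e ∈ H' (layT e) ∧ ¬ un (layT e) e).card : ℝ) +
        (H.filter fun e => ¬ (j₀ < layT e → e ∈ H' (layT e) ∧ ¬ un (layT e) e)).card =
          H.card := by exact_mod_cast a1
    nlinarith [mul_nonneg hc0 (mul_pos hε hG0).le]
  · intro f hf hfS e he hj α hα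
    obtain ⟨b1, b2⟩ := Finset.mem_filter.1 he
    obtain ⟨b3, b4⟩ := b2 hj
    have hjJ : layT e ∈ J := by
      rw [hJ]
      exact Finset.mem_filter.2 ⟨Finset.mem_range.2 (hN e (hH b1)), hj⟩
    obtain ⟨φ, hφ, hφ'⟩ := taylor_mem τ f hf α
    rw [← hφ' e (hE e (hH b1))]
    by_contra h0
    refine b4 ((hun _ _).2 ⟨φ, mem_van.2 ⟨Flg_mono τ (by rw [hm]; exact hα) le_rfl hφ,
      fun e' he' => ?_⟩, h0⟩)
    obtain ⟨c1, c2⟩ := Finset.mem_filter.1 he'
    rw [hφ' e' (hE e' (hH'G _ hjJ c1)), hfS _ c2, map_zero, coeff_zero]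

end Crest.Agent.R65.Mn
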