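import Crest.Agent.R65.Mn.Flag
import Crest.Agent.R65.Mn.Lay
import Crest.Agent.R65.Mn.Greedy

/-! Row 65, main module: one layer. -/

set_option autoImplicit false

open Finset MvPolynomial
open scoped Classical

namespace Crest.Agent.R65.Mn

variable {d : ℕ}

/-- Rank of the lines of layer `j`.  `Hj` = edges of layer `j` at the tail and `≥ j + h` at the
head, `R = ∑_y frk Dir (B_j(y))`, `R' = ∑_x frk Dir (B_{j+h}(x))`.  If `|Hj| < ε 2^j R` or
`Hj = ∅` take `H' = ∅`.  Otherwise `line_rank` for `W = pol E (lin τ)`, `θ = ε |Hj|`, with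
`frk_lin_atT`, `frk_lin_atH`, `frk_mono`, `frk_Dir_swap`, `atT_swap`:
`ε |Hj| frk ≤ R R'` and `ε 2^j R ≤ |Hj|`. -/
theorem layer_rank (τ : Pt d →ₗ[ℂ] ℂ) (U V : Finset (Pt d)) (G Hj : Finset (Ed d))
    (layT layH : Ed d → ℕ) (E j : ℕ) (h : ℤ) (ε : ℝ) (hG : G ⊆ U ×ˢ V) (hH : Hj ⊆ G)
    (hE : ∀ e ∈ G, IsEd τ e) (hε : 0 < ε)
    (hj : ∀ e ∈ Hj, layT e = j ∧ (j : ℤ) + h ≤ layH e) :
    ∃ H' ⊆ Hj, (Hj.card : ℝ) ≤ H'.card + ε * Hj.card + ε * ∑ y ∈ U, (2 : ℝ) ^ j *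
        (frk (Dir τ E) ((atT G y).filter fun e => j ≤ layT e) : ℝ) ∧
      ε ^ 2 * 2 ^ j * (frk (pol E (lin τ)) H' : ℝ) ≤ ∑ x ∈ V,
        (frk (Dir τ E) ((atT (G.image Prod.swap) x).filter fun e => (j : ℤ) + h ≤ layH e.swap) : ℝ) := by
  rw [← Finset.mul_sum]
  set R : ℝ := ∑ y ∈ U, (frk (Dir τ E) ((atT G y).filter fun e => j ≤ layT e) : ℝ) with hR
  set R' : ℝ := ∑ x ∈ V, (frk (Dir τ E)
    ((atT (G.image Prod.swap) x).filter fun e => (j : ℤ) + h ≤ layH e.swap) : ℝ) with hR'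
  have hR0 : 0 ≤ R := Finset.sum_nonneg fun _ _ => Nat.cast_nonneg _
  have hR0' : 0 ≤ R' := Finset.sum_nonneg fun _ _ => Nat.cast_nonneg _
  have hp : (0 : ℝ) < 2 ^ j := by positivity
  by_cases hc : (Hj.card : ℝ) ≤ ε * (2 ^ j * R)
  · refine ⟨∅, Finset.empty_subset _, ?_, ?_⟩
    · have : 0 ≤ ε * (Hj.card : ℝ) := by positivity
      simp only [Finset.card_empty, Nat.cast_zero]
      linarith
    · rw [frk_empty]
      simpa using hR0'
  push Not at hc
  have hpos : (0 : ℝ) < Hj.card := lt_of_le_of_lt (by positivity) hc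
  obtain ⟨H', hH', h1, h2⟩ := line_rank (pol E (lin τ)) U V Hj (hH.trans hG) (ε * Hj.card)
    (by positivity)
  have e1 : (∑ y ∈ U, (frk (pol E (lin τ)) (Hj.filter fun e => e.1 = y) : ℝ)) ≤ R := by
    refine Finset.sum_le_sum fun y _ => Nat.cast_le.2 ?_
    refine (frk_lin_atT τ E y _ fun e he => (Finset.mem_filter.1 he).2).trans (frk_mono _ ?_)
    intro e he
    obtain ⟨a, b⟩ := Finset.mem_filter.1 he
    exact Finset.mem_filter.2 ⟨Finset.mem_filter.2 ⟨hH a, b⟩, (hj e a).1.ge⟩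
  have e2 : (∑ x ∈ V, (frk (pol E (lin τ)) (Hj.filter fun e => e.2 = x) : ℝ)) ≤ R' := by
    refine Finset.sum_le_sum fun x _ => Nat.cast_le.2 ?_
    refine (frk_lin_atH τ E x _ fun e he =>
      ⟨hE e (hH (Finset.mem_filter.1 he).1), (Finset.mem_filter.1 he).2⟩).trans ?_
    rw [← frk_Dir_swap]
    refine frk_mono _ ?_
    intro e he
    obtain ⟨e', he', rfl⟩ := Finset.mem_image.1 he
    obtain ⟨a, b⟩ := Finset.mem_filter.1 he'
    refine Finset.mem_filter.2 ⟨Finset.mem_filter.2 ⟨Finset.mem_image_of_mem _ (hH a), b⟩, ?_⟩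
    rw [Prod.swap_swap]
    exact (hj e' a).2
  have h3 : ε * Hj.card * (frk (pol E (lin τ)) H' : ℝ) ≤ R * R' :=
    h2.trans (mul_le_mul e1 e2 (Finset.sum_nonneg fun _ _ => Nat.cast_nonneg _) hR0)
  refine ⟨H', hH', ?_, ?_⟩
  · have : 0 ≤ ε * (2 ^ j * R) := by positivity
    linarith
  · refine le_of_mul_le_mul_left ?_ hpos
    calc (Hj.card : ℝ) * (ε ^ 2 * 2 ^ j * (frk (pol E (lin τ)) H' : ℝ))
        = ε * 2 ^ j * (ε * Hj.card * (frk (pol E (lin τ)) H' : ℝ)) := by ring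
      _ ≤ ε * 2 ^ j * (R * R') := mul_le_mul_of_nonneg_left h3 (by positivity)
      _ = ε * (2 ^ j * R) * R' := by ring
      _ ≤ _ := mul_le_mul_of_nonneg_right hc.le hR0'

/-- undetermined flags at a vertex: `frk_mul_le` with `Flg_mul_Dir`, `Flg_mono`, then the layer
inequality and `frk_mono`. -/
theorem undet_le (τ : Pt d →ₗ[ℂ] ℂ) (G H' Z : Finset (Ed d)) (layT : Ed d → ℕ) {Ef E : ℕ}
    (hE : Ef ≤ E) (hl : LayT τ E G layT) (j m : ℕ) (hH : H' ⊆ G) (hj : ∀ e ∈ H', layT e = j)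
    (y : Pt d) :
    ((H'.filter fun e => e.1 = y).filter fun e =>
        ∃ φ ∈ van (Flg τ m (2 * Ef)) Z, φ e ≠ 0).card ≤
      2 ^ (j + 2) * frk (van (Flg τ m (3 * E)) Z) (H'.filter fun e => e.1 = y) := by
  set Q := (H'.filter fun e => e.1 = y).filter fun e =>
    ∃ φ ∈ van (Flg τ m (2 * Ef)) Z, φ e ≠ 0 with hQ
  have h1 : Q.card ≤ 2 ^ (j + 2) * frk (Dir τ E) Q := by
    refine hl.1 y j Q (fun e he => ?_) fun e he => ?_
    · have := Finset.mem_filter.1 (Finset.mem_filter.1 he).1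
      exact Finset.mem_filter.2 ⟨hH this.1, this.2⟩
    · exact (hj e (Finset.mem_filter.1 (Finset.mem_filter.1 he).1).1).le
  have h2 : frk (Dir τ E) Q ≤ frk (van (Flg τ m (3 * E)) Z) Q := by
    refine frk_mul_le (A := van (Flg τ m (2 * Ef)) Z) Q
      (fun e he => (Finset.mem_filter.1 he).2) fun φ hφ ψ hψ => ?_
    refine ⟨Flg_mono τ le_rfl (by omega) (Flg_mul_Dir τ hφ.1 hψ), fun i hi => ?_⟩
    rw [Pi.mul_apply, hφ.2 i hi, zero_mul]
  exact h1.trans (Nat.mul_le_mul_left _ (h2.trans (frk_mono _ (Finset.filter_subset _ _))))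

/-- counting the good edges at a vertex by layers: the layers `≤ j₀` together (if there is one then
`0 ≤ j₀`), and each layer `j > j₀` with `k = j - j₀ ≥ 1`. -/
theorem vertex_count (τ : Pt d →ₗ[ℂ] ℂ) (G A : Finset (Ed d)) (lay : Ed d → ℕ) (E : ℕ)
    (hl : LayT τ E G lay) (y : Pt d) (hA : A ⊆ atT G y) (j₀ : ℤ) (P : ℕ → Ed d → Prop) (B : ℕ)
    (h0 : ∀ e ∈ A, P 0 e) (h1 : ∀ e ∈ A, j₀ < lay e → P ((lay e : ℤ) - j₀).toNat e)
    (hB : ∀ J : ℕ, ∑ k ∈ range J, 2 ^ k * frk (Dir τ E) (A.filter (P k)) ≤ B) :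
    (A.card : ℝ) ≤ 4 * (2 : ℝ) ^ j₀ * B := by
  set κ : Ed d → ℕ := fun e => ((lay e : ℤ) - j₀).toNat with hκ
  have e1 : A.card = ∑ k ∈ range (A.sup κ + 1), (A.filter fun e => κ e = k).card :=
    Finset.card_eq_sum_card_fiberwise fun e he =>
      Finset.mem_coe.2 (Finset.mem_range.2 (Nat.lt_succ_of_le
        (Finset.le_sup (f := κ) (Finset.mem_coe.1 he))))
  have e2 : ∀ k : ℕ, ((A.filter fun e => κ e = k).card : ℝ) ≤
      4 * (2 : ℝ) ^ j₀ * ((2 ^ k * frk (Dir τ E) (A.filter (P k)) : ℕ) : ℝ) := by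
    intro k
    rcases (A.filter fun e => κ e = k).eq_empty_or_nonempty with he | ⟨e₀, he₀⟩
    · rw [he, Finset.card_empty, Nat.cast_zero]
      positivity
    have hle : ∀ e ∈ A.filter fun e => κ e = k, (lay e : ℤ) ≤ j₀ + k := by
      intro e he
      have : ((lay e : ℤ) - j₀).toNat = k := (Finset.mem_filter.1 he).2
      omega
    have hn : 0 ≤ j₀ + k := le_trans (Int.natCast_nonneg _) (hle e₀ he₀)
    obtain ⟨n, hn'⟩ := Int.eq_ofNat_of_zero_le hn
    have h2 := hl.1 y n (A.filter fun e => κ e = k) ((Finset.filter_subset _ _).trans hA)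
      fun e he => by
        have := hle e he
        omega
    have h3 : frk (Dir τ E) (A.filter fun e => κ e = k) ≤ frk (Dir τ E) (A.filter (P k)) := by
      refine frk_mono _ fun e he => ?_
      obtain ⟨a, b⟩ := Finset.mem_filter.1 he
      refine Finset.mem_filter.2 ⟨a, ?_⟩
      by_cases hlt : j₀ < lay e
      · rw [← b]
        exact h1 e a hlt
      · have b' : ((lay e : ℤ) - j₀).toNat = k := b
        have : k = 0 := by omega
        rw [this]
        exact h0 e a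
    have h4 : (2 : ℝ) ^ (n + 2) = 4 * (2 : ℝ) ^ j₀ * 2 ^ k := by
      have : (2 : ℝ) ^ n = (2 : ℝ) ^ j₀ * 2 ^ k := by
        rw [← zpow_natCast, ← hn', zpow_add₀ two_ne_zero, zpow_natCast]
      rw [pow_add, this]
      ring
    have h5 : ((A.filter fun e => κ e = k).card : ℝ) ≤
        (2 : ℝ) ^ (n + 2) * frk (Dir τ E) (A.filter (P k)) := by
      exact_mod_cast h2.trans (Nat.mul_le_mul_left _ h3)
    rw [h4] at h5
    push_cast
    linarith
  rw [e1]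
  push_cast
  refine (Finset.sum_le_sum fun k _ => e2 k).trans ?_
  rw [← Finset.mul_sum, ← Nat.cast_sum]
  exact mul_le_mul_of_nonneg_left (Nat.cast_le.2 (hB _)) (by positivity)

end Crest.Agent.R65.Mn
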