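import Crest.Agent.R65.Mn.Defs

/-! Row 65, main module: numerical conditions. -/

set_option autoImplicit false

open Finset MvPolynomial
open scoped Classical

namespace Crest.Agent.R65.Mn

/-- a sample of size `≤ σ` determines at most a `10⁻¹⁶` fraction of `N` vertices -/
def Ok (d : ℕ) (Ct σ N n s E : ℝ) : Prop :=
  Ct * σ ≤ E ^ d ∧ Ct * (E * n * E ^ (d - 1) + σ * s ^ (d - 1)) ≤ N * E ^ (d - 1) / 10 ^ 16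

/-- the per-vertex terms are small -/
def Vx (d : ℕ) (Cs N e r Ef E : ℝ) (j : ℤ) : Prop :=
  N * (Cs * (2 : ℝ) ^ j * Ef * E ^ (d - 2) + Ef * r) ≤ e / 100

/-- consequences of extremality (`A₁ = e / N₁`, `A₂ = e / N₂`, `y₀ = N₁ N₂ / e`) -/
structure Facts (d : ℕ) (δ N D n N₁ N₂ e s : ℝ) : Prop where
  f1 : N₁ * N₂ ≤ 8 * D * e
  f2 : s ^ (d - 1) * N₁ ≤ δ * e
  f3 : (s ^ (d - 1)) ^ 2 * (N₁ * N₂) ≤ δ * e ^ 2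
  f4 : N₁ * N₂ ^ 2 * N ≤ 64 * D ^ 2 * e ^ 2
  f5 : s ^ (d - 1) * N₁ * N₂ ^ 3 * N ≤ 64 * D ^ 2 * e ^ 3
  f6 : s ^ (d - 1) * N₁ * N₂ ^ 2 ≤ δ * D * e ^ 2
  f7 : n * N₂ ≤ δ * e
  f8 : n * s ^ (d - 1) * N₂ ^ 2 ≤ δ * e ^ 2

/-- the parameters of the three applications of the side lemma, `ε = 1 / (100 Cs)` -/
def Par (d : ℕ) (Cs Ct D n r N₁ N₂ e : ℝ) : Prop :=
  ∃ (E' E s i₀ : ℕ) (jU jV h h₁ : ℤ), Ct ≤ E' ∧ d ≤ E' ∧ E' ≤ E ∧ E ≤ s ∧ 4 * D ≤ s ∧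
    Ok d Ct (N₁ * (2 * E') ^ (d - 1) * N₂ / (1 / (100 * Cs) * e) +
      Cs * (2 : ℝ) ^ (-((i₀ : ℤ) - 1) - h₁) * N₂ / (1 / (100 * Cs)) ^ 3) N₂ n s E' ∧
    (i₀ = 0 ∨ Vx d Cs N₂ e r E' E ((i₀ : ℤ) - 1)) ∧
    Ok d Ct (2 * e / 2 ^ i₀ * N₁ / (1 / (100 * Cs) * e) +
      Cs * (2 : ℝ) ^ (-jU - h) * N₁ / (1 / (100 * Cs)) ^ 3) N₁ n s E ∧
    Vx d Cs N₁ e r E E jU ∧
    Ok d Ct (N₁ * (2 * E) ^ (d - 1) * N₂ / (1 / (100 * Cs) * e) +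
      Cs * (2 : ℝ) ^ (-jV - (1 - h)) * N₂ / (1 / (100 * Cs)) ^ 3) N₂ n s E ∧
    Vx d Cs N₂ e r E E jV

end Crest.Agent.R65.Mn
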