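import Crest.Agent.R65.Mn.TBDefs

/-! Row 65, main module: the projection along `Λ_u` is again a generic isotropic projection. -/

set_option autoImplicit false

open Finset MvPolynomial
open scoped Classical

namespace Crest.Agent.R65.Mn

variable {d : ℕ} [NeZero d]

namespace TB1Aux

variable {R R' : Type} [CommRing R] [CommRing R']

theorem swap_inl {i : Fin d} (h : i ≠ 0) :
    Equiv.swap (Sum.inl 0 : Ix d) (Sum.inr 0) (Sum.inl i) = Sum.inl i :=
  Equiv.swap_apply_of_ne_of_ne (by simpa using h) (by simp)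

theorem swap_inr {i : Fin d} (h : i ≠ 0) :
    Equiv.swap (Sum.inl 0 : Ix d) (Sum.inr 0) (Sum.inr i) = Sum.inr i :=
  Equiv.swap_apply_of_ne_of_ne (by simp) (by simpa using h)

theorem sum_split (f : Fin d → R) : ∑ j, f j = f 0 + ∑ j ∈ univ.erase 0, f j :=
  (add_sum_erase univ f (mem_univ 0)).symm

omit [NeZero d] in
theorem map_sk (f : R →+* R') (θ : SI d → R) (i j : Fin d) :
    f (sk θ i j) = sk (fun p => f (θ p)) i j := by
  unfold sk
  split_ifs <;> simp

omit [NeZero d] in
theorem sk_self (θ : SI d → R) (i : Fin d) : sk θ i i = 0 := by simp [sk]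

omit [NeZero d] in
theorem sk_skew (θ : SI d → R) (i j : Fin d) : sk θ j i = -sk θ i j := by
  rcases lt_trichotomy i j with h | rfl | h
  · simp [sk, h, h.not_gt]
  · simp [sk]
  · simp [sk, h, h.not_gt]

omit [NeZero d] in
theorem sk_of_skew {M : Fin d → Fin d → R} (h0 : ∀ i, M i i = 0) (h1 : ∀ i j, M j i = -M i j)
    (i j : Fin d) : sk (fun p => M p.1.1 p.1.2) i j = M i j := by
  rcases lt_trichotomy i j with h | rfl | h
  · simp [sk, h]
  · simp [sk, h0]
  · simp [sk, h, h.not_gt, h1 j i]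

/-- the new skew matrix -/
noncomputable def MM (S : Fin d → Fin d → R) (u : Fin d → R) (i j : Fin d) : R :=
  if i = 0 then (if j = 0 then 0 else u j)
  else if j = 0 then -u i else S i j - u i * S 0 j - S i 0 * u j

theorem map_MM (f : R →+* R') (S : Fin d → Fin d → R) (u : Fin d → R) (i j : Fin d) :
    f (MM S u i j) = MM (fun i j => f (S i j)) (fun i => f (u i)) i j := by
  unfold MM
  split_ifs <;> simp

theorem sk_MM {S : Fin d → Fin d → R} (h0 : ∀ i, S i i = 0) (h1 : ∀ i j, S j i = -S i j)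
    (u : Fin d → R) (i j : Fin d) : sk (fun p => MM S u p.1.1 p.1.2) i j = MM S u i j := by
  refine sk_of_skew (fun i => ?_) (fun i j => ?_) i j
  · unfold MM
    split_ifs
    · rfl
    · rw [h0, h1 i 0]
      ring
  · unfold MM
    split_ifs
    · simp
    · simp
    · simp
    · rw [h1 i j, h1 i 0, h1 0 j]
      ring

theorem prj_MM {S : Fin d → Fin d → R} (h0 : S 0 0 = 0) (u : Fin d → R) (x : Ix d → R) (i : Fin d) :
    prj (MM S u) (fun k => x (Equiv.swap (Sum.inl 0) (Sum.inr 0) k)) i =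
      sec S x (fun i => if i = 0 then 1 else u i) (Sum.inr i) -
        S i 0 * sec S x (fun i => if i = 0 then 1 else u i) (Sum.inr 0) := by
  have e1 : ∑ j ∈ univ.erase 0, x (Sum.inr j) * (if j = 0 then 1 else u j) =
      ∑ j ∈ univ.erase 0, x (Sum.inr j) * u j :=
    sum_congr rfl fun j hj => by rw [if_neg (ne_of_mem_erase hj)]
  by_cases hi : i = 0
  · subst hi
    have e2 : ∑ j ∈ univ.erase 0, MM S u 0 j * x (Equiv.swap (Sum.inl 0) (Sum.inr 0) (Sum.inr j)) =
        ∑ j ∈ univ.erase 0, x (Sum.inr j) * u j :=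
      sum_congr rfl fun j hj => by
        rw [swap_inr (ne_of_mem_erase hj), MM, if_pos rfl, if_neg (ne_of_mem_erase hj), mul_comm]
    simp only [prj, sec, Sum.elim_inr, if_true, sum_split, e1, e2, h0, Equiv.swap_apply_left]
    simp [MM]
  · have e2 : ∑ j ∈ univ.erase 0, MM S u i j * x (Equiv.swap (Sum.inl 0) (Sum.inr 0) (Sum.inr j)) =
        ∑ j ∈ univ.erase 0, S i j * x (Sum.inr j) - u i * ∑ j ∈ univ.erase 0, S 0 j * x (Sum.inr j) -
          S i 0 * ∑ j ∈ univ.erase 0, x (Sum.inr j) * u j := by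
      simp only [mul_sum, ← sum_sub_distrib]
      refine sum_congr rfl fun j hj => ?_
      rw [swap_inr (ne_of_mem_erase hj), MM, if_neg hi, if_neg (ne_of_mem_erase hj)]
      ring
    simp only [prj, sec, Sum.elim_inr, if_true, if_neg hi, sum_split, e1, e2, h0, swap_inl hi,
      Equiv.swap_apply_right]
    rw [MM, if_neg hi, if_pos rfl]
    ring

/-- the substitution -/
noncomputable def psi (d : ℕ) [NeZero d] :
    MvPolynomial (SI d) ℂ →+* MvPolynomial (Fin d) (MvPolynomial (SI d) ℂ) :=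
  eval₂Hom (C.comp C) fun p => MM (fun i j => C (sk X i j)) X p.1.1 p.1.2

theorem psi_injective : Function.Injective (psi d) := by
  let κ : MvPolynomial (SI d) ℂ →+* MvPolynomial (SI d) ℂ :=
    eval₂Hom C fun p => if p.1.1 = 0 then 0 else X p
  have k0 : ∀ j, κ (sk X 0 j) = 0 := fun j => by
    by_cases h : 0 < j
    · simp [sk, h, κ]
    · simp [sk, h]
  have h : (eval₂Hom κ fun j => sk X 0 j).comp (psi d) = RingHom.id _ := by
    refine ringHom_ext (fun c => by simp [psi, κ]) ?_
    rintro ⟨⟨i, j⟩, hij⟩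
    have hj : j ≠ 0 := ne_zero_of_lt hij
    rw [RingHom.comp_apply, psi, eval₂Hom_X', map_MM]
    simp only [eval₂Hom_C, eval₂Hom_X', MM, if_neg hj, sk_skew X 0 i, map_neg, k0, RingHom.id_apply]
    split_ifs with hi
    · subst hi
      exact dif_pos hij
    · have h1 : sk X i j = (X ⟨(i, j), hij⟩ : MvPolynomial (SI d) ℂ) := dif_pos hij
      simp [h1, κ, hi]
  exact Function.LeftInverse.injective (g := eval₂Hom κ fun j => sk X 0 j) (RingHom.congr_fun h)

theorem psi_sk (i j : Fin d) :
    psi d (sk X i j) = MM (fun i j => C (sk X i j : MvPolynomial (SI d) ℂ)) X i j := by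
  rw [map_sk]
  simp only [psi, eval₂Hom_X']
  exact sk_MM (S := fun i j => C (sk X i j : MvPolynomial (SI d) ℂ)) (fun i => by rw [sk_self, C_0])
    (fun i j => by rw [sk_skew, C_neg]) X i j

end TB1Aux

open TB1Aux

theorem sw_sw (x : Pt d) : sw (sw x) = x := by
  funext k
  simp [sw]

theorem QQ_sw_sub (x y : Pt d) : QQ (sw x - sw y) = QQ (x - y) := by
  rw [QQ, QQ, sum_split, sum_split fun i => (x - y) (Sum.inl i) * (x - y) (Sum.inr i)]
  congr 1
  · simp [sw, mul_comm]
  · exact sum_congr rfl fun j hj => by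
      simp [sw, swap_inl (ne_of_mem_erase hj), swap_inr (ne_of_mem_erase hj)]

theorem frk_sw (s : ℕ) (T : Finset (Pt d)) :
    frk (pol s up) (T.image sw) = frk (pol s up) T := by
  rw [← frk_pol_comp]
  refine le_antisymm ?_ ?_
  · exact frk_pol_subst s _ _ T (fun k => X (Equiv.swap (Sum.inl 0) (Sum.inr 0) k))
      (fun k => (totalDegree_X _).le) fun y _ k => by simp [up, sw]
  · exact frk_pol_subst s _ _ T (fun k => X (Equiv.swap (Sum.inl 0) (Sum.inr 0) k))
      (fun k => (totalDegree_X _).le) fun y _ k => by simp [up, sw]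

/-- Let `A = MvPolynomial (SI d) ℂ`.  `ψ₀ : A →ₐ[ℂ] MvPolynomial (Fin d) A` sends `X (0,j)` to
`X j` and `X (i,j)` (`0 < i < j`) to `C S_ij - X i * C S_0j - C S_i0 * X j` (`S = sk X`).  It has the
left inverse `eval₂` (`X j ↦ X (0,j)`, coefficients by `X (0,j) ↦ 0`, `X (i,j) ↦ X (i,j)`), so the
composite `A → MvPolynomial (Fin d) (LL d) → LU d` is injective and extends to `φ` on `LL d`
(`IsFractionRing.lift`).  First compute `φ (SS d i j)` for all `i j`, then expand. -/
theorem exists_emb (d : ℕ) [NeZero d] :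
    ∃ φ : LL d →+* LU d, ∀ (y : Pt d) (i : Fin d),
      φ (pz (sw y) i) = algebraMap (MvPolynomial (Fin d) (LL d)) (LU d) (zc y i) := by
  have hg : Function.Injective ((algebraMap (MvPolynomial (Fin d) (LL d)) (LU d)).comp
      ((MvPolynomial.map (algebraMap (MvPolynomial (SI d) ℂ) (LL d))).comp (psi d))) := by
    rw [RingHom.coe_comp, RingHom.coe_comp]
    exact (IsFractionRing.injective _ _).comp
      ((map_injective _ (IsFractionRing.injective _ _)).comp psi_injective)
  have hS : ∀ i j, SS d i j = algebraMap (MvPolynomial (SI d) ℂ) (LL d) (sk X i j) := fun i j =>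
    (map_sk _ _ i j).symm
  refine ⟨IsFractionRing.lift hg, fun y i => ?_⟩
  have h1 : ∀ i j, IsFractionRing.lift hg (SS d i j) =
      algebraMap (MvPolynomial (Fin d) (LL d)) (LU d) (MM (fun i j => C (SS d i j)) X i j) := by
    intro i j
    rw [hS, IsFractionRing.lift_algebraMap, RingHom.comp_apply, RingHom.comp_apply, psi_sk, map_MM]
    simp only [map_C, map_X, hS]
  have h2 : ∀ c : ℂ, IsFractionRing.lift hg (algebraMap ℂ (LL d) c) =
      algebraMap (MvPolynomial (Fin d) (LL d)) (LU d) (C (algebraMap ℂ (LL d) c)) := by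
    intro c
    rw [IsScalarTower.algebraMap_apply ℂ (MvPolynomial (SI d) ℂ) (LL d),
      IsFractionRing.lift_algebraMap]
    simp [psi]
  have h3 := prj_MM (S := fun i j => (C (SS d i j) : MvPolynomial (Fin d) (LL d)))
    (by rw [hS, sk_self, map_zero, C_0]) X (fun k => C (up y k)) i
  have h4 : zc y i = _ := h3.symm
  rw [h4]
  simp only [pz, prj, up, sw, map_add, map_sum, map_mul, h1, h2]

/-- consequence (with `frk_pol_field`) -/
theorem frk_pz_sw (t : ℕ) (T : Finset (Pt d)) :
    frk (pol t fun y i => algebraMap (MvPolynomial (Fin d) (LL d)) (LU d) (zc y i)) T =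
      frk (pol t fun y => pz (sw y)) T := by
  obtain ⟨φ, hφ⟩ := exists_emb d
  rw [← frk_pol_field φ t (fun y => pz (sw y)) T]
  simp only [hφ]

end Crest.Agent.R65.Mn
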