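import Crest.Agent.R65.Mn.TB1

/-! Row 65, main module: rank of the projected set versus the size of the sample. -/

set_option autoImplicit false

open Finset MvPolynomial
open scoped Classical

namespace Crest.Agent.R65.Mn

variable {d : ℕ} [NeZero d]

namespace TB2Aux

theorem eval_scale {K σ : Type} [Field K] {g : MvPolynomial σ K} {n : ℕ} (h : g.IsHomogeneous n)
    (c : K) (v : σ → K) : eval (fun i => c * v i) g = c ^ n * eval v g := by
  rw [eval_eq, eval_eq, mul_sum]
  refine sum_congr rfl fun α hα => ?_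
  simp only [mul_pow, prod_mul_distrib, prod_pow_eq_pow_sum]
  rw [h.degree_eq_sum_deg_support hα]
  ring

theorem dehom {g : MvPolynomial (Fin d) (LL d)} {n : ℕ} (h : g.IsHomogeneous n)
    (h0 : aeval (chart d) g = 0) : g = 0 := by
  have : CharZero (LL d) := algebraRat.charZero _
  have h1 : X 0 * g = 0 := MvPolynomial.funext fun v => by
    rw [map_mul, eval_X, map_zero]
    by_cases hv : v 0 = 0
    · rw [hv, zero_mul]
    have h2 := congrArg (eval fun i => (v 0)⁻¹ * v i) h0
    rw [map_zero, aeval_def, algebraMap_eq, ← eval_assoc] at h2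
    have h3 : (eval fun i => (v 0)⁻¹ * v i) ∘ chart d = fun i => (v 0)⁻¹ * v i := by
      funext i
      by_cases hi : i = 0 <;> simp [chart, hi, hv]
    rw [h3, eval_scale h] at h2
    rw [(mul_eq_zero.1 h2).resolve_left (pow_ne_zero _ (inv_ne_zero hv)), mul_zero]
  exact (mul_eq_zero.1 h1).resolve_left (X_ne_zero 0)

theorem cmp {K σ ι κ : Type} [Field K] [Fintype σ] [Nonempty σ] [Fintype ι] [Fintype κ] {a b : ℕ}
    (Θ : (ι → homogeneousSubmodule σ K a) →ₗ[K] (κ → homogeneousSubmodule σ K b))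
    (h : ∀ g, Θ g = 0 → g = 0) :
    Fintype.card ι * (a + (Fintype.card σ - 1)).choose (Fintype.card σ - 1) ≤
      Fintype.card κ * (b + (Fintype.card σ - 1)).choose (Fintype.card σ - 1) := by
  have := LinearMap.finrank_le_finrank_of_injective ((injective_iff_map_eq_zero Θ).2 h)
  rw [Module.finrank_pi_fintype, Module.finrank_pi_fintype] at this
  simpa [finrank_homog] using this

end TB2Aux

theorem chart_res (y : Pt d) (f : MvPolynomial (Ix d) (LL d)) :
    aeval (chart d) (res y f) = aeval (Sum.elim (chart d) (zh y)) f := by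
  unfold res
  rw [← AlgHom.comp_apply, comp_aeval]
  congr 2
  funext k
  rcases k with i | i
  · simp [sec]
  · by_cases h : i = 0 <;> simp [sec, zh, prj, h]

/-- Let `M` be the forms of degree `E` and `ev_T : M → (T → L[v])`, `f ↦ (res y f)_y`.  By
hypothesis `ker ev_S ≤ ker ev_T`, so `rank ev_T ≤ rank ev_S ≤ |S| C(E + d - 1, d - 1)`
(`res_homog`, `finrank_homog`).  Lower bound: choose `ρ` monomials `z^{α_k}`, `|α_k| ≤ t`,
independent over `LU d` on `T` (`frk_pz_sw`, `pol_eq_span`, `exists_li_span`).  For `γ` of degree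
`E - t` in the variables `v` put `f_{k,γ} = ∏ (ζ_i - S_{i0} ζ_0)^{α_k i} · v^γ · v_0^{t - |α_k|}`
(a form of degree `E`; `ζ_i = X (inr i)`, `v_i = X (inl i)`).  In the chart (`chart_res`) it restricts
to `zc y ^ α_k · aeval chart (v^γ)`, and the `aeval chart (v^γ)`, `|γ| = E - t`, are distinct
monomials.  So the `ev_T f_{k,γ}` are independent over `LL d`. -/
theorem rank_le_sample (T S : Finset (Pt d)) {E t : ℕ} (ht : t ≤ E) (hT : ∀ y ∈ T, y ∈ TS E S) :
    frk (pol t fun y => pz (sw y)) T * (E - t + (d - 1)).choose (d - 1) ≤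
      S.card * (E + (d - 1)).choose (d - 1) := by
  rw [← frk_pz_sw, pol_eq_span]
  obtain ⟨φ, hφ, li⟩ := exists_li_span {φ : Pt d → LU d | ∃ α : Fin d →₀ ℕ, α.degree ≤ t ∧
    φ = fun y => eval (fun i => algebraMap (MvPolynomial (Fin d) (LL d)) (LU d) (zc y i))
      (monomial α 1)} T
  choose α hα hφ using hφ
  generalize frk (K := LU d) _ T = ρ at φ α hα hφ li
  let m : Fin ρ → MvPolynomial (Ix d) (LL d) := fun k =>
    aeval (fun i => X (Sum.inr i) - C (SS d i 0) * X (Sum.inr 0)) (monomial (α k) (1 : LL d)) *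
      X (Sum.inl 0) ^ (t - (α k).degree)
  have hm : ∀ k, (m k).IsHomogeneous t := fun k => by
    have h1 := (isHomogeneous_monomial (1 : LL d) (rfl : (α k).degree = _)).aeval
      (fun i => (X (Sum.inr i) - C (SS d i 0) * X (Sum.inr 0) : MvPolynomial (Ix d) (LL d)))
      fun i => (isHomogeneous_X _ _).sub (isHomogeneous_C_mul_X _ _)
    have h2 := h1.mul (isHomogeneous_X_pow (R := LL d) (Sum.inl 0 : Ix d) (t - (α k).degree))
    rwa [one_mul, Nat.add_sub_cancel' (hα k)] at h2
  let Ψ : (Fin ρ → homogeneousSubmodule (Fin d) (LL d) (E - t)) →ₗ[LL d]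
      MvPolynomial (Ix d) (LL d) :=
    ∑ k, LinearMap.mulLeft (LL d) (m k) ∘ₗ (rename Sum.inl).toLinearMap ∘ₗ
      (Submodule.subtype _) ∘ₗ LinearMap.proj k
  have eΨ : ∀ g, Ψ g = ∑ k, m k * rename Sum.inl (g k : MvPolynomial (Fin d) (LL d)) := fun g => by
    simp [Ψ]
  have hΨ : ∀ g, (Ψ g).IsHomogeneous E := fun g => by
    rw [eΨ]
    refine IsHomogeneous.sum _ _ _ fun k _ => ?_
    have := (hm k).mul (IsHomogeneous.rename_isHomogeneous (f := (Sum.inl : Fin d → Ix d)) (g k).2)
    rwa [Nat.add_sub_cancel' ht] at this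
  let Θ : (Fin ρ → homogeneousSubmodule (Fin d) (LL d) (E - t)) →ₗ[LL d]
      (S → homogeneousSubmodule (Fin d) (LL d) E) :=
    LinearMap.pi fun s => LinearMap.codRestrict _ ((res s.1).toLinearMap ∘ₗ Ψ)
      fun g => res_homog _ (hΨ g)
  have inj : ∀ g, Θ g = 0 → g = 0 := fun g hg => by
    have h0 : ∀ y ∈ T, res y (Ψ g) = 0 := fun y hy => hT y hy _ (hΨ g) fun s hs =>
      congrArg Subtype.val (congrFun hg ⟨s, hs⟩)
    have h1 := li (fun k => algebraMap (MvPolynomial (Fin d) (LL d)) (LU d)
      (aeval (chart d) (g k : MvPolynomial (Fin d) (LL d)))) fun y hy => by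
        have h2 := congrArg (fun q => algebraMap (MvPolynomial (Fin d) (LL d)) (LU d)
          (aeval (chart d) q)) (h0 y hy)
        simp only [chart_res, eΨ, map_sum, map_mul, map_zero] at h2
        rw [← h2]
        refine sum_congr rfl fun k _ => ?_
        rw [mul_comm, aeval_rename, hφ]
        congr 1
        simp [m, bind₁_monomial, eval_monomial, Finsupp.prod, chart, zc]
    funext k
    exact Subtype.ext (TB2Aux.dehom (g k).2
      (IsFractionRing.injective (MvPolynomial (Fin d) (LL d)) (LU d)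
        ((congrFun h1 k).trans (map_zero _).symm)))
  simpa using TB2Aux.cmp Θ inj

end Crest.Agent.R65.Mn
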