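import Crest.Agent.R65.Mn.TB2

/-! Row 65, main module: one form vanishing on the sections gives a hypersurface. -/

set_option autoImplicit false

open Finset MvPolynomial
open scoped Classical

namespace Crest.Agent.R65.Mn

namespace TB2bAux

theorem deg_aeval {K R σ τ : Type} [CommRing K] [CommRing R] [Algebra K R]
    (g : σ → MvPolynomial τ R) (hg : ∀ k, (g k).totalDegree ≤ 1) (f : MvPolynomial σ K) :
    (aeval g f).totalDegree ≤ f.totalDegree := by
  rw [aeval_def, eval₂_eq]
  refine (totalDegree_finsetSum _ _).trans (Finset.sup_le fun α hα => ?_)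
  refine (totalDegree_mul _ _).trans ?_
  rw [MvPolynomial.algebraMap_apply, totalDegree_C, zero_add]
  refine (totalDegree_finsetProd _ _).trans (le_trans ?_ (le_totalDegree hα))
  refine Finset.sum_le_sum fun k _ => (totalDegree_pow _ _).trans ?_
  simpa using Nat.mul_le_mul_left (α k) (hg k)

theorem eval_smul {K σ : Type} [CommRing K] {f : MvPolynomial σ K} {E : ℕ}
    (hf : f.IsHomogeneous E) (c : K) (x : σ → K) :
    eval (fun k => c * x k) f = c ^ E * eval x f := by
  rw [eval_eq, eval_eq, Finset.mul_sum]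
  refine Finset.sum_congr rfl fun α hα => ?_
  have h : ∑ k ∈ α.support, α k = E := by
    have := hf (mem_support_iff.1 hα)
    simpa [Finsupp.weight_apply, Finsupp.sum] using this
  simp only [mul_pow, Finset.prod_mul_distrib, Finset.prod_pow_eq_pow_sum, h]
  ring

theorem dehom {K σ : Type} [Field K] [Infinite K] {f : MvPolynomial σ K} {E : ℕ}
    (hf : f.IsHomogeneous E) (k₀ : σ) (τ : σ → MvPolynomial σ K) (h0 : τ k₀ = 1)
    (h1 : ∀ k, k ≠ k₀ → τ k = X k) (h : aeval τ f = 0) : f = 0 := by
  have : X k₀ * f = 0 := by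
    refine MvPolynomial.funext fun x => ?_
    rw [map_mul, eval_X, map_zero]
    by_cases hx : x k₀ = 0
    · rw [hx, zero_mul]
    have h2 := congrArg (aeval fun k => x k / x k₀) h
    rw [map_zero, ← AlgHom.comp_apply, comp_aeval] at h2
    have h3 : (fun k => aeval (fun k => x k / x k₀) (τ k)) = fun k => x k / x k₀ := by
      ext k
      by_cases hk : k = k₀
      · rw [hk, h0, map_one, div_self hx]
      · rw [h1 k hk, aeval_X]
    rw [h3, aeval_eq_eval] at h2
    have h4 := eval_smul hf (x k₀) fun k => x k / x k₀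
    simp only [mul_div_cancel₀ _ hx] at h4
    rw [h2, mul_zero] at h4
    rw [show eval x f = 0 from h4, mul_zero]
  exact (mul_eq_zero.1 this).resolve_left (X_ne_zero _)

end TB2bAux

variable {d : ℕ} [NeZero d]

/-- `F' = aeval (v_i ↦ C (chart i), ζ_i ↦ X i + C S_{i0} X 0) f` over `LU d` has degree `≤ E`,
vanishes at the points `zc y` (`chart_res`) and is nonzero (the substitution in `ζ` is invertible;
a form killed by `v_0 ↦ 1` is zero).  Then `frk_pol_lt_iff` twice and `frk_pz_sw`. -/
theorem exists_hyp (T : Finset (Pt d)) {E : ℕ} (f : MvPolynomial (Ix d) (LL d)) (hf : f ≠ 0)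
    (hE : f.IsHomogeneous E) (hT : ∀ y ∈ T, res y f = 0) :
    ∃ F : MvPolynomial (Fin d) (LL d), F ≠ 0 ∧ F.totalDegree ≤ E ∧
      ∀ y ∈ T, eval (pz (sw y)) F = 0 := by
  have h00 : SS d 0 0 = 0 := by simp [SS, sk]
  obtain ⟨σ, hσ⟩ : ∃ σ : Ix d → MvPolynomial (Fin d) (MvPolynomial (Fin d) (LL d)),
      σ = Sum.elim (fun i => C (chart d i)) fun i => X i + C (C (SS d i 0)) * X 0 := ⟨_, rfl⟩
  have hG : aeval σ f ≠ 0 := by
    intro h
    have : CharZero (LL d) := algebraRat.charZero _
    have h1 := congrArg (aevalTower (rename (Sum.inl : Fin d → Ix d) :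
      MvPolynomial (Fin d) (LL d) →ₐ[LL d] MvPolynomial (Ix d) (LL d))
      fun i => X (Sum.inr i) - C (SS d i 0) * X (Sum.inr 0)) h
    rw [map_zero, ← AlgHom.comp_apply, comp_aeval] at h1
    refine hf (TB2bAux.dehom hE (Sum.inl 0) _ ?_ (fun k hk => ?_) h1)
    · simp [hσ, chart]
    · rcases k with i | i
      · have hi : i ≠ 0 := fun h => hk (by rw [h])
        simp [hσ, chart, hi]
      · simp [hσ, h00]
  have hdeg : (aeval σ f).totalDegree ≤ E := by
    refine (TB2bAux.deg_aeval σ (fun k => ?_) f).trans hE.totalDegree_le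
    rcases k with i | i
    · simp [hσ]
    · simp only [hσ, Sum.elim_inr]
      refine (totalDegree_add _ _).trans (max_le (by simp) ((totalDegree_mul _ _).trans ?_))
      simp
  have hev : ∀ y ∈ T, eval (zc y) (aeval σ f) = 0 := by
    intro y hy
    have h1 := chart_res y f
    rw [hT y hy, map_zero] at h1
    have h2 : (aevalTower (AlgHom.id (LL d) (MvPolynomial (Fin d) (LL d))) (zc y)).comp (aeval σ) =
        aeval (Sum.elim (chart d) (zh y)) := by
      ext1 k
      rcases k with i | i
      · simp [hσ]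
      · simp [hσ, zc, h00]
    rw [← h2] at h1
    exact h1.symm
  rw [← frk_pol_lt_iff E (fun y => pz (sw y)) T, ← frk_pz_sw, frk_pol_lt_iff]
  refine ⟨map (algebraMap (MvPolynomial (Fin d) (LL d)) (LU d)) (aeval σ f), ?_, ?_, fun y hy => ?_⟩
  · exact fun h => hG (map_injective _ (IsFractionRing.injective _ _) (by rw [h, map_zero]))
  · exact (Finset.sup_mono (support_map_subset _ _)).trans hdeg
  · have := congrArg (algebraMap (MvPolynomial (Fin d) (LL d)) (LU d)) (hev y hy)
    rw [map_zero, eval₂_comp] at this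
    rw [eval_map]
    exact this

end Crest.Agent.R65.Mn
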