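import Crest.Agent.R65.Mn.Val

/-! Row 65, main module: definitions for the chart `v₀ = 1`. -/

set_option autoImplicit false

open Finset MvPolynomial
open scoped Classical

namespace Crest.Agent.R65.Mn

/-- `L(u)` -/
abbrev LU (d : ℕ) := FractionRing (MvPolynomial (Fin d) (LL d))

variable {d : ℕ} [NeZero d]

/-- exchange of `a₀` and `b₀` -/
def sw (x : Pt d) : Pt d := fun k => x (Equiv.swap (Sum.inl 0) (Sum.inr 0) k)

/-- `v = (1, u₁, …)` -/
noncomputable def chart (d : ℕ) [NeZero d] (i : Fin d) : MvPolynomial (Fin d) (LL d) :=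
  if i = 0 then 1 else X i

/-- `ζ(v, y)` in the chart -/
noncomputable def zh (y : Pt d) (i : Fin d) : MvPolynomial (Fin d) (LL d) :=
  sec (fun i j => C (SS d i j)) (fun k => C (up y k)) (chart d) (Sum.inr i)

/-- `z'_i = ζ_i - S_{i0} ζ_0` (note `S_{00} = 0`) -/
noncomputable def zc (y : Pt d) (i : Fin d) : MvPolynomial (Fin d) (LL d) :=
  zh y i - C (SS d i 0) * zh y 0

end Crest.Agent.R65.Mn
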